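import Crest.Agent.H0100.Defs

/-! Flat-spectrum functions on `(ℤ/ℓ)^k` and one block of circles (jobs `Fld`, `Blk`). -/

set_option autoImplicit false

namespace Crest.Agent.H0100

open Finset Real

namespace Blkx

/-- the additive character attached to a vector -/
noncomputable def chi {ℓ k : ℕ} [NeZero ℓ] (a : Fin k → ZMod ℓ) : AddChar (Fin k → ZMod ℓ) ℂ where
  toFun u := ZMod.stdAddChar (∑ i, a i * u i)
  map_zero_eq_one' := by simp
  map_add_eq_mul' u v := by
    rw [← AddChar.map_add_eq_mul, ← sum_add_distrib]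
    simp [mul_add]

theorem chi_ne_one {ℓ k : ℕ} [NeZero ℓ] {a : Fin k → ZMod ℓ} (h : a ≠ 0) : chi a ≠ 1 := by
  intro h1
  refine h (funext fun i => ZMod.injective_stdAddChar ?_)
  have := DFunLike.congr_fun h1 (Pi.single i 1)
  change ZMod.stdAddChar _ = 1 at this
  simpa [Pi.single_apply] using this

theorem dom_dvd (M : ℕ) {r : ℕ} (hr : 0 < r) : Dom M fun j => if r ∣ j then 1 else 0 := by
  have h := Dom.avg (range r) (nonempty_range_iff.2 hr.ne')
    fun t _ => Dom.shift M zero_le_one le_rfl (t * (2 * π / r))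
  convert h using 2 with j
  have hζ := Complex.isPrimitiveRoot_exp r hr.ne'
  have h1 : ∀ t : ℕ, ((1 : ℝ) : ℂ) * ex (j * (t * (2 * π / r))) =
      (Complex.exp (2 * π * Complex.I / r) ^ j) ^ t := fun t => by
    rw [← pow_mul, ← Complex.exp_nat_mul, ex]
    push_cast
    rw [one_mul]
    congr 1; ring
  simp only [h1, card_range]
  have hr' : (r : ℂ) ≠ 0 := by exact_mod_cast hr.ne'
  split_ifs with hj
  · simp [(hζ.pow_eq_one_iff_dvd j).2 hj, hr']
  · rw [geom_sum_eq (mt (hζ.pow_eq_one_iff_dvd j).1 hj), ← pow_mul, mul_comm j, pow_mul,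
      hζ.pow_eq_one]
    simp

theorem norm_prod_sub {ι : Type*} (s : Finset ι) {b d : ι → ℂ} {η : ℝ} (hη : 0 ≤ η)
    (h1 : ∀ i, ‖d i‖ ≤ 1) (h2 : ∀ i, ‖b i - d i‖ ≤ η) :
    ‖∏ i ∈ s, b i - ∏ i ∈ s, d i‖ ≤ (1 + η) ^ s.card - 1 := by
  classical
  induction s using Finset.induction_on with
  | empty => simp
  | insert a s ha ih =>
    rw [prod_insert ha, prod_insert ha, card_insert_of_notMem ha,
      show b a * ∏ i ∈ s, b i - d a * ∏ i ∈ s, d i =
        b a * (∏ i ∈ s, b i - ∏ i ∈ s, d i) + (b a - d a) * ∏ i ∈ s, d i by ring]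
    have h3 : ‖b a‖ ≤ 1 + η := by linarith [norm_le_norm_sub_add (b a) (d a), h1 a, h2 a]
    have h4 : ‖∏ i ∈ s, d i‖ ≤ 1 := by
      rw [norm_prod]; exact prod_le_one (fun _ _ => norm_nonneg _) fun i _ => h1 i
    refine (norm_add_le _ _).trans ?_
    rw [norm_mul, norm_mul]
    calc _ ≤ (1 + η) * ((1 + η) ^ s.card - 1) + η * 1 := by gcongr; exact h2 a
      _ = _ := by ring

theorem card_dvd {ℓ : ℕ} (hℓ : 0 < ℓ) (n : ℕ) : ((range (ℓ * n)).filter (ℓ ∣ ·)).card = n := by
  have : (range (ℓ * n)).filter (ℓ ∣ ·) = (range n).image (ℓ * ·) := by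
    ext x
    simp only [mem_filter, mem_range, mem_image]
    constructor
    · rintro ⟨h1, c, rfl⟩
      exact ⟨c, lt_of_mul_lt_mul_left h1 (Nat.zero_le _), rfl⟩
    · rintro ⟨c, h1, rfl⟩
      exact ⟨Nat.mul_lt_mul_of_pos_left h1 hℓ, dvd_mul_right _ _⟩
  rw [this, card_image_of_injective _ (mul_right_injective₀ hℓ.ne'), card_range]

end Blkx

open Blkx

theorem fld : Fld := by
  intro M ℓ k r _ hℓ hr hc
  classical
  have h0 : ∀ a : Fin k → ZMod ℓ, ‖∑ u : Fin k → ZMod ℓ, ZMod.stdAddChar (∑ i, a i * u i)‖ ^ 2 =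
      if a = 0 then ((ℓ : ℝ) ^ k) ^ 2 else 0 := fun a => by
    split_ifs with ha
    · simp [ha, ZMod.card]
    · have := AddChar.sum_eq_zero_of_ne_one (chi_ne_one ha)
      change ∑ u : Fin k → ZMod ℓ, ZMod.stdAddChar (∑ i, a i * u i) = 0 at this
      simp [this]
  rcases hc with rfl | ⟨hk, hrℓ⟩
  · exact ⟨fun _ _ => 1, fun _ => Dom.one M, fun j a => by simpa using h0 a⟩
  have := Fact.mk hℓ
  let F := GaloisField ℓ k
  let _ : Fintype F := Fintype.ofFinite F
  have hcard : Fintype.card F = ℓ ^ k := by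
    rw [← Nat.card_eq_fintype_card, GaloisField.card ℓ k (by omega)]
  let β : (Fin k → ZMod ℓ) ≃ₗ[ZMod ℓ] F := LinearEquiv.ofFinrankEq _ _ (by
    rw [GaloisField.finrank ℓ (by omega)]; simp)
  obtain ⟨χ, hχ⟩ := MulChar.exists_mulChar_orderOf F (n := r)
    (by rw [hcard]; exact hrℓ.trans (Nat.sub_one_dvd_pow_sub_one ℓ k))
    (Complex.isPrimitiveRoot_exp r hr.ne')
  refine ⟨fun j u => if r ∣ j then 1 else (χ ^ j) (β u), fun u => ?_, fun j a => ?_⟩
  · by_cases hu : β u = 0
    · simpa only [hu, MulChar.map_zero] using dom_dvd M hr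
    · have h1 : χ (β u) ^ r = 1 := by
        rw [← MulChar.pow_apply' _ hr.ne', ← hχ, pow_orderOf_eq_one,
          MulChar.one_apply (Ne.isUnit hu)]
      have h2 : ‖χ (β u)‖ = 1 := Complex.norm_eq_one_of_pow_eq_one h1 hr.ne'
      have h3 : ex (χ (β u)).arg = χ (β u) := by
        have := Complex.norm_mul_exp_arg_mul_I (χ (β u))
        rwa [h2, Complex.ofReal_one, one_mul] at this
      convert Dom.shift M zero_le_one le_rfl (χ (β u)).arg using 2 with j
      rw [ex_nat_mul, h3, Complex.ofReal_one, one_mul]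
      beta_reduce
      split_ifs with hj
      · obtain ⟨c, rfl⟩ := hj
        rw [pow_mul, h1, one_pow]
      · exact MulChar.pow_apply' _ (by rintro rfl; exact hj (dvd_zero r)) _
  · by_cases hj : r ∣ j
    · simpa [hj] using h0 a
    simp only [if_neg hj]
    have h1 : χ ^ j ≠ 1 := fun h => hj (hχ ▸ orderOf_dvd_of_pow_eq_one h)
    let ψ : AddChar F ℂ := (chi a).compAddMonoidHom β.symm.toAddMonoidHom
    have h2 : ∑ u : Fin k → ZMod ℓ, (χ ^ j) (β u) * ZMod.stdAddChar (∑ i, a i * u i) =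
        gaussSum (χ ^ j) ψ := by
      rw [gaussSum, ← β.toEquiv.sum_comp]
      refine sum_congr rfl fun u _ => ?_
      change _ = (χ ^ j) (β u) * chi a (β.symm (β u))
      rw [β.symm_apply_apply]; rfl
    split_ifs with ha
    · have h3 := MulChar.sum_eq_zero_of_ne_one h1
      rw [← β.toEquiv.sum_comp] at h3
      change ∑ u, (χ ^ j) (β u) = 0 at h3
      simp [ha, h3]
    · have h3 : ψ ≠ 1 := fun h => chi_ne_one ha (AddChar.ext _ _ fun u => by
        have := DFunLike.congr_fun h (β u)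
        change chi a (β.symm (β u)) = 1 at this
        rwa [β.symm_apply_apply] at this)
      have h4 := gaussSum_mul_gaussSum_eq_card h1 (AddChar.IsPrimitive.of_ne_one h3)
      rw [← star_gaussSum_eq, hcard, Complex.star_def, Complex.mul_conj, Complex.normSq_eq_norm_sq]
        at h4
      rw [h2]
      exact_mod_cast h4

theorem blk (hc : Circ) (hf : Fld) : Blk := by
  intro M ℓ k r η hℓ hr hrk hη
  classical
  have : NeZero ℓ := ⟨hℓ.ne_zero⟩
  obtain ⟨H, hH, hH'⟩ := hf M ℓ k r hℓ hr hrk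
  have hℓ0 : (0 : ℝ) < ℓ := by exact_mod_cast hℓ.pos
  have hℓ1 : (1 : ℝ) ≤ ℓ := by exact_mod_cast hℓ.pos
  obtain ⟨η', hη', h1, h2⟩ : ∃ η' : ℝ, 0 < η' ∧ 1 - η < (((1 + η') ^ 2)⁻¹) ^ k ∧
      (ℓ : ℝ) ^ k * ((1 + η') ^ k - 1) < η := by
    have ha : ContinuousAt (fun x : ℝ => (((1 + x) ^ 2)⁻¹) ^ k) 0 := by
      fun_prop (disch := norm_num)
    have hb : ContinuousAt (fun x : ℝ => (ℓ : ℝ) ^ k * ((1 + x) ^ k - 1)) 0 := by fun_prop
    have ha' := continuousAt_const.eventually_lt (f := fun _ => 1 - η) ha (by simpa using hη)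
    have hb' := hb.eventually_lt (g := fun _ => η) continuousAt_const (by simpa using hη)
    obtain ⟨x, hx1, hx2⟩ := (((ha'.and hb').filter_mono nhdsWithin_le_nhds).and
      (self_mem_nhdsWithin (s := Set.Ioi (0 : ℝ)))).exists
    exact ⟨x, hx2, hx1⟩
  obtain ⟨n, hn, ψ, hψ⟩ := hc ℓ M η' hℓ.two_le hη'
  have hn0 : (0 : ℝ) < n := by exact_mod_cast hn
  set c : ℕ → ℝ := fun j => ((1 + η') * √((ℓ : ℝ) * (j * (ℓ * n) : ℕ)))⁻¹ with hcdef
  set box : ℕ → Finset (Fin k → ℕ) := fun j => Fintype.piFinset fun _ => range (j * (ℓ * n))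
    with hbox
  set Hh : ℕ → (Fin k → ℕ) → ℂ := fun j m =>
    ∑ u : Fin k → ZMod ℓ, H j u * ZMod.stdAddChar (∑ i, (m i : ZMod ℓ) * u i) with hHh
  have hz : ∀ m : Fin k → ℕ, (fun i => (m i : ZMod ℓ)) = 0 ↔ ∀ i, ℓ ∣ m i := fun m => by
    simp only [funext_iff, Pi.zero_apply, ZMod.natCast_eq_zero_iff]
  have hN : ∀ j m, ‖Hh j m‖ ^ 2 = if r ∣ j then (if ∀ i, ℓ ∣ m i then ((ℓ : ℝ) ^ k) ^ 2 else 0)
      else (if ∀ i, ℓ ∣ m i then 0 else (ℓ : ℝ) ^ k) := fun j m => by
    simpa only [hz] using hH' j fun i => (m i : ZMod ℓ)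
  refine ⟨(((1 + η') ^ 2)⁻¹ / (ℓ * n)) ^ k,
    fun j => (box j).filter fun m => (r ∣ j ↔ ∀ i, ℓ ∣ m i),
    fun j m => (∏ i, (c j : ℂ) * ex (ψ j (m i))) * Hh j m, by positivity, ?_, ?_,
    fun j _ m hm => (mem_filter.1 hm).2, fun y => ?_⟩
  · intro j hj m hm
    have hj0 : (0 : ℝ) < j := by exact_mod_cast Nat.pos_of_mem_divisors hj
    have h3 : c j ^ 2 = ((1 + η') ^ 2)⁻¹ / (ℓ * n) / j / ℓ := by
      rw [hcdef]
      simp only
      rw [inv_pow, mul_pow, sq_sqrt (by positivity)]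
      push_cast
      field_simp
    have h4 : ‖∏ i : Fin k, (c j : ℂ) * ex (ψ j (m i))‖ ^ 2 = (c j ^ 2) ^ k := by
      simp only [norm_prod, norm_mul, norm_ex, mul_one, Complex.norm_real, Real.norm_eq_abs,
        prod_const, card_univ, Fintype.card_fin]
      rw [← pow_mul, mul_comm, pow_mul, sq_abs]
    rw [norm_mul, mul_pow, h4, hN, h3, div_pow, div_pow]
    have h5 := (mem_filter.1 hm).2
    by_cases hrj : r ∣ j
    · rw [if_pos hrj, if_pos hrj, if_pos (h5.1 hrj)]
      field_simp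
    · rw [if_neg hrj, if_neg hrj, if_neg (mt h5.2 hrj)]
      field_simp
  · intro j hj
    have hj0 : (0 : ℝ) < j := by exact_mod_cast Nat.pos_of_mem_divisors hj
    have h3 : ((box j).filter fun m => ∀ i, ℓ ∣ m i).card = (j * n) ^ k := by
      have : ((box j).filter fun m => ∀ i, ℓ ∣ m i) =
          Fintype.piFinset fun _ => (range (ℓ * (j * n))).filter (ℓ ∣ ·) := by
        ext m
        simp [hbox, forall_and, mul_left_comm]
      rw [this, Fintype.card_piFinset_const, card_dvd hℓ.pos]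
    have h4 : (box j).card = (j * (ℓ * n)) ^ k := by
      rw [hbox, Fintype.card_piFinset_const, card_range]
    have h5 : (0 : ℝ) < 1 / ℓ := by positivity
    by_cases hrj : r ∣ j
    · simp only [hrj, true_iff, if_true, h3]
      refine le_trans (by linarith) (h1.le.trans (le_of_eq ?_))
      push_cast
      rw [div_pow, mul_pow, mul_pow]
      field_simp
    · simp only [hrj, false_iff, if_false]
      have h6 := card_filter_add_card_filter_not (s := box j) fun m => ∀ i, ℓ ∣ m i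
      rw [h3, h4] at h6
      have h7 : (((box j).filter fun m => ¬ ∀ i, ℓ ∣ m i).card : ℝ) =
          (j * (ℓ * n)) ^ k - (j * n) ^ k := by
        rw [eq_sub_iff_add_eq']; exact_mod_cast h6
      have hk : 1 ≤ k := (hrk.resolve_left (by rintro rfl; exact hrj (one_dvd j))).1
      have h8 : 1 / (ℓ : ℝ) ^ k ≤ 1 / ℓ := by
        gcongr; exact le_self_pow₀ hℓ1 (by omega)
      have h9 : (((1 + η') ^ 2)⁻¹) ^ k ≤ 1 :=
        pow_le_one₀ (by positivity) (inv_le_one_of_one_le₀ (one_le_pow₀ (by linarith)))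
      rw [h7]
      calc 1 - η - 1 / ℓ ≤ (((1 + η') ^ 2)⁻¹) ^ k - (((1 + η') ^ 2)⁻¹) ^ k * (1 / ℓ ^ k) := by
            have : (((1 + η') ^ 2)⁻¹) ^ k * (1 / (ℓ : ℝ) ^ k) ≤ 1 * (1 / ℓ) := by gcongr
            linarith
        _ = _ := by
            rw [div_pow, mul_pow, mul_pow, mul_pow]
            field_simp
  · choose u0 W ξ hu0 hW0 hW1 hb using fun i => hψ (y i)
    refine ⟨fun j => H j (fun i => u0 i) * ∏ i, (W i : ℂ) * ex (j * ξ i),
      (hH _).mul (Dom.prod _ fun i _ => Dom.shift M (hW0 i) (hW1 i) (ξ i)), fun j hj => ?_⟩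
    have hj1 : 1 ≤ j := Nat.pos_of_mem_divisors hj
    have hj2 : j ≤ M := Nat.divisor_le hj
    set b : Fin k → ZMod ℓ → ℂ := fun i v => (c j : ℂ) *
      ∑ m ∈ range (j * (ℓ * n)), ex (ψ j m + m * (y i + 2 * π * (v.val : ℕ) / ℓ)) with hbdef
    set d : Fin k → ZMod ℓ → ℂ := fun i v =>
      if v.val = u0 i then (W i : ℂ) * ex (j * ξ i) else 0 with hd
    have e1 : ∑ m ∈ (box j).filter (fun m => (r ∣ j ↔ ∀ i, ℓ ∣ m i)),
        (∏ i, (c j : ℂ) * ex (ψ j (m i))) * Hh j m * ex (∑ i, (m i : ℝ) * y i) =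
        ∑ u : Fin k → ZMod ℓ, H j u * ∏ i, b i (u i) := by
      rw [sum_filter_of_ne]
      · simp only [hHh, hbdef, mul_sum, sum_mul, prod_univ_sum]
        rw [sum_comm]
        refine sum_congr rfl fun u _ => sum_congr rfl fun m _ => ?_
        have h3 : ∀ i, ZMod.stdAddChar ((m i : ZMod ℓ) * u i) =
            ex (m i * (2 * π * ((u i).val : ℕ) / ℓ)) := fun i => by
          have := ZMod.stdAddChar_coe (N := ℓ) (m i * (u i).val : ℕ)
          rw [Int.cast_natCast, Nat.cast_mul, ZMod.natCast_zmod_val] at this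
          rw [this, ex]
          congr 1
          push_cast
          ring
        have h4 : ZMod.stdAddChar (∑ i, (m i : ZMod ℓ) * u i) =
            ∏ i, ZMod.stdAddChar ((m i : ZMod ℓ) * u i) :=
          map_prod (ZMod.stdAddChar (N := ℓ)).toMonoidHom
            (fun i => Multiplicative.ofAdd ((m i : ZMod ℓ) * u i)) univ
        rw [h4, ex_sum]
        simp only [h3, mul_add, ex_add, prod_mul_distrib]
        ring
      · intro m _ hm
        by_contra h3
        refine hm ?_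
        have h4 := hN j m
        have h5 : ‖Hh j m‖ ^ 2 = 0 := by
          rw [h4]
          by_cases hrj : r ∣ j
          · rw [if_pos hrj, if_neg fun h => h3 (iff_of_true hrj h)]
          · rw [if_neg hrj, if_pos (by_contra fun h => h3 (iff_of_false hrj h))]
        rw [norm_eq_zero.1 (pow_eq_zero_iff two_ne_zero |>.1 h5)]
        simp
    have e2 : H j (fun i => u0 i) * ∏ i, (W i : ℂ) * ex (j * ξ i) =
        ∑ u : Fin k → ZMod ℓ, H j u * ∏ i, d i (u i) := by
      rw [sum_eq_single (fun i => (u0 i : ZMod ℓ))]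
      · simp [hd, ZMod.val_cast_of_lt (hu0 _)]
      · intro u _ hu
        obtain ⟨i, hi⟩ := Function.ne_iff.1 hu
        rw [prod_eq_zero (mem_univ i), mul_zero]
        exact if_neg fun h => hi (by rw [← h, ZMod.natCast_zmod_val])
      · simp
    beta_reduce
    rw [e1, e2, ← sum_sub_distrib]
    refine (norm_sum_le _ _).trans (le_trans (sum_le_sum (g := fun _ => (1 + η') ^ k - 1)
      fun u _ => ?_) ?_)
    · rw [← mul_sub, norm_mul]
      refine (mul_le_of_le_one_left (norm_nonneg _) ((hH u).1 j)).trans ?_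
      have := norm_prod_sub univ (b := fun i => b i (u i)) (d := fun i => d i (u i)) hη'.le
        (fun i => ?_) fun i => hb i j hj1 hj2 _ (ZMod.val_lt _)
      · simpa using this
      · simp only [hd]
        split_ifs
        · simpa [abs_of_nonneg (hW0 i)] using hW1 i
        · simp
    · rw [sum_const, card_univ, Fintype.card_fun, ZMod.card, Fintype.card_fin, nsmul_eq_mul]
      exact_mod_cast h2.le

end Crest.Agent.H0100
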