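import Crest.Agent.H0100.Defs

/-! Flat chirp polynomials concentrated on one arc (job `Circ`). -/

set_option autoImplicit false

namespace Crest.Agent.H0100

open Finset Real

namespace Circx

/-- `(e^z - 1) / z` -/
noncomputable def E1 : ℂ → ℂ := dslope Complex.exp 0

/-- `(E1 z - 1) / z` -/
noncomputable def E2 : ℂ → ℂ := dslope E1 0

theorem diff_E1 : Differentiable ℂ E1 :=
  differentiableOn_univ.1 ((Complex.differentiableOn_dslope Filter.univ_mem).2
    Complex.differentiable_exp.differentiableOn)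

theorem diff_E2 : Differentiable ℂ E2 :=
  differentiableOn_univ.1 ((Complex.differentiableOn_dslope Filter.univ_mem).2
    diff_E1.differentiableOn)

theorem E1_zero : E1 0 = 1 := by simp [E1]

theorem mul_E1 (z : ℂ) : z * E1 z = Complex.exp z - 1 := by
  simpa [E1] using sub_smul_dslope Complex.exp 0 z

theorem mul_E2 (z : ℂ) : z * E2 z = E1 z - 1 := by
  simpa [E1_zero, E2] using sub_smul_dslope E1 0 z

theorem E1_ne {t : ℝ} (h : t ∈ Set.Icc (-(3 * π / 2)) (3 * π / 2)) : E1 (t * Complex.I) ≠ 0 := by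
  intro h0
  have h1 := mul_E1 (t * Complex.I)
  rw [h0, mul_zero, eq_comm, sub_eq_zero] at h1
  have h2 : cos t = 1 := by rw [← ex_re, ex, h1]; rfl
  have := pi_pos
  have h3 := (cos_eq_one_iff_of_lt_of_lt (by linarith [h.1]) (by linarith [h.2])).1 h2
  rw [h3] at h0
  simp [E1_zero] at h0

/-- the summation-by-parts weight -/
noncomputable def rho (t : ℝ) : ℂ := -E2 (t * Complex.I) / E1 (t * Complex.I)

theorem rho_smooth : ContDiffOn ℝ 1 rho (Set.Icc (-(3 * π / 2)) (3 * π / 2)) := by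
  have h0 : ContDiff ℝ 1 fun t : ℝ => (t : ℂ) * Complex.I :=
    Complex.ofRealCLM.contDiff.mul contDiff_const
  have h1 : ContDiff ℝ 1 fun t : ℝ => E1 (t * Complex.I) :=
    (diff_E1.contDiff.restrict_scalars ℝ).comp h0
  have h2 : ContDiff ℝ 1 fun t : ℝ => E2 (t * Complex.I) :=
    (diff_E2.contDiff.restrict_scalars ℝ).comp h0
  intro t ht
  have := h2.neg.contDiffAt.mul (h1.contDiffAt.inv (E1_ne ht))
  exact this.contDiffWithinAt.congr (fun _ _ => div_eq_mul_inv _ _) (div_eq_mul_inv _ _)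

theorem integral_lin (a t : ℝ) (m : ℝ) :
    ∫ x in m..(m + 1), ex (a + t * (x - m)) = ex a * E1 (t * Complex.I) := by
  by_cases h : t = 0
  · simp [h, E1_zero]
  have h1 : (t : ℂ) * Complex.I ≠ 0 := mul_ne_zero (by exact_mod_cast h) Complex.I_ne_zero
  have h2 : ∀ x ∈ Set.uIcc m (m + 1), HasDerivAt (fun x => ex (a + t * (x - m)) / (t * Complex.I))
      (ex (a + t * (x - m))) x := by
    intro x _
    have h3 : HasDerivAt (fun x => a + t * (x - m)) t x := by
      simpa using (((hasDerivAt_id x).sub_const m).const_mul t).const_add a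
    have h4 := ((hasDerivAt_ex _).scomp x h3).div_const (t * Complex.I)
    refine HasDerivAt.congr_deriv h4 ?_
    rw [Complex.real_smul, div_eq_iff h1]
    ring
  rw [intervalIntegral.integral_eq_sub_of_hasDerivAt h2
    (Continuous.intervalIntegrable (by fun_prop) _ _)]
  have h3 := mul_E1 (t * Complex.I)
  rw [← ex_def] at h3
  simp only [add_sub_cancel_left, mul_one, sub_self, mul_zero, add_zero, ex_add]
  rw [← sub_div, div_eq_iff h1]
  linear_combination -ex a * h3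

theorem abel {a ρ : ℕ → ℂ} {t : ℕ → ℝ} {L : ℝ} (n : ℕ) (ha : ∀ m, ‖a m‖ = 1)
    (h : ∀ m < n, ‖ρ (m + 1) - ρ m‖ ≤ L * (t (m + 1) - t m)) :
    ‖∑ m ∈ range (n + 1), (a (m + 1) - a m) * ρ m - a (n + 1) * ρ n‖ ≤
      ‖ρ 0‖ + L * (t n - t 0) := by
  induction n with
  | zero => simp [sub_mul, ha]
  | succ n ih =>
    have h1 := ih fun m hm => h m (by omega)
    have h2 := h n (by omega)
    rw [sum_range_succ]
    have : ∑ m ∈ range (n + 1), (a (m + 1) - a m) * ρ m + (a (n + 1 + 1) - a (n + 1)) * ρ (n + 1) -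
        a (n + 1 + 1) * ρ (n + 1) = (∑ m ∈ range (n + 1), (a (m + 1) - a m) * ρ m -
          a (n + 1) * ρ n) - a (n + 1) * (ρ (n + 1) - ρ n) := by ring
    rw [this]
    refine (norm_sub_le _ _).trans ?_
    rw [norm_mul, ha, one_mul]
    linarith

theorem sum_integral : ∃ C : ℝ, 0 ≤ C ∧ ∀ (n : ℕ) (φ φ1 : ℝ → ℝ), (∀ x, HasDerivAt φ (φ1 x) x) →
    Monotone φ1 → (∀ x ∈ Set.Icc (0 : ℝ) n, |φ1 x| ≤ 3 * π / 2) →
    ‖∑ m ∈ range n, ex (φ m) - ∫ x in (0 : ℝ)..n, ex (φ x)‖ ≤ C := by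
  obtain ⟨L, hL⟩ := rho_smooth.exists_lipschitzOnWith one_ne_zero (convex_Icc _ _) isCompact_Icc
  obtain ⟨B, hB⟩ := isCompact_Icc.exists_bound_of_continuousOn rho_smooth.continuousOn
  have hpi := pi_pos
  have hB0 : 0 ≤ B := (norm_nonneg _).trans (hB 0 ⟨by linarith, by linarith⟩)
  refine ⟨2 * B + L * (3 * π) + 3 * π, by positivity, fun n φ φ1 hd hm hb => ?_⟩
  have hc : Continuous φ := continuous_iff_continuousAt.2 fun x => (hd x).continuousAt
  set t : ℕ → ℝ := fun m => φ (m + 1) - φ m with ht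
  have h1 : ∀ m : ℕ, φ1 m ≤ t m ∧ t m ≤ φ1 (m + 1) := fun m => by
    obtain ⟨c, hc1, hc2⟩ := exists_hasDerivAt_eq_slope φ φ1 (show (m : ℝ) < m + 1 by linarith)
      hc.continuousOn fun x _ => hd x
    have : t m = φ1 c := by rw [hc2, ht]; simp
    rw [this]
    exact ⟨hm hc1.1.le, hm hc1.2.le⟩
  have h2 : ∀ m < n, t m ∈ Set.Icc (-(3 * π / 2)) (3 * π / 2) := fun m hmn => by
    have h3 : (m : ℝ) + 1 ≤ n := by exact_mod_cast hmn
    have h4 : (0 : ℝ) ≤ m := Nat.cast_nonneg m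
    have h5 := abs_le.1 (hb m ⟨h4, by linarith⟩)
    have h6 := abs_le.1 (hb (m + 1) ⟨by linarith, h3⟩)
    exact ⟨by linarith [(h1 m).1], by linarith [(h1 m).2]⟩
  have h3 : ∫ x in (0 : ℝ)..n, ex (φ x) = ∑ m ∈ range n, ∫ x in (m : ℝ)..(m + 1), ex (φ x) := by
    have := intervalIntegral.sum_integral_adjacent_intervals (f := fun x => ex (φ x))
      (μ := MeasureTheory.volume) (a := fun m : ℕ => (m : ℝ)) (n := n)
      fun k _ => Continuous.intervalIntegrable (by fun_prop) _ _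
    simpa using this.symm
  have h4 : ∀ m : ℕ, ‖(∫ x in (m : ℝ)..(m + 1), ex (φ m + t m * (x - m))) -
      ∫ x in (m : ℝ)..(m + 1), ex (φ x)‖ ≤ φ1 (m + 1 : ℕ) - φ1 m := fun m => by
    rw [← intervalIntegral.integral_sub (Continuous.intervalIntegrable (by fun_prop) _ _)
      (Continuous.intervalIntegrable (by fun_prop) _ _)]
    refine (intervalIntegral.norm_integral_le_of_norm_le_const (C := φ1 (m + 1) - φ1 m)
      fun x hx => (norm_ex_sub_ex _ _).trans ?_).trans (by simp)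
    rw [Set.uIoc_of_le (by linarith)] at hx
    have h5 := norm_image_sub_le_of_norm_deriv_le_segment' (f := fun x => t m * x - φ x)
      (f' := fun x => t m - φ1 x) (a := m) (b := m + 1) (C := φ1 (m + 1) - φ1 m)
      (fun x _ => by
        simpa using (((hasDerivAt_id x).const_mul (t m)).fun_sub (hd x)).hasDerivWithinAt)
      (fun x hx => by
        have := hm hx.1; have := hm hx.2.le; have := h1 m
        rw [Real.norm_eq_abs, abs_le]
        constructor <;> linarith) x ⟨hx.1.le, hx.2⟩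
    rw [Real.norm_eq_abs] at h5
    have h6 : 0 ≤ φ1 (m + 1) - φ1 m := by linarith [h1 m]
    calc _ = |t m * x - φ x - (t m * m - φ m)| := by congr 1; ring
      _ ≤ _ := h5.trans (mul_le_of_le_one_right h6 (by linarith [hx.2]))
  have h5 : ∀ m < n, ex (φ m) - ∫ x in (m : ℝ)..(m + 1), ex (φ m + t m * (x - m)) =
      (ex (φ (m + 1 : ℕ)) - ex (φ m)) * rho (t m) := fun m hmn => by
    have h6 : ex (φ (m + 1 : ℕ)) = ex (φ m) * ex (t m) := by
      rw [← ex_add, ht]; simp
    have h7 := mul_E1 (t m * Complex.I)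
    have h8 := mul_E2 (t m * Complex.I)
    have h9 := E1_ne (h2 m hmn)
    rw [integral_lin, h6, rho, ex_def (t m), ← mul_div_assoc, eq_div_iff h9]
    linear_combination ex (φ m) * E1 (t m * Complex.I) * h8 - ex (φ m) * E2 (t m * Complex.I) * h7
  have h6 : ∑ m ∈ range n, ex (φ m) - ∫ x in (0 : ℝ)..n, ex (φ x) =
      ∑ m ∈ range n, (ex (φ (m + 1 : ℕ)) - ex (φ m)) * rho (t m) +
      ∑ m ∈ range n, ((∫ x in (m : ℝ)..(m + 1), ex (φ m + t m * (x - m))) -
        ∫ x in (m : ℝ)..(m + 1), ex (φ x)) := by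
    rw [h3, ← sum_sub_distrib, ← sum_add_distrib]
    refine sum_congr rfl fun m hmn => ?_
    rw [← h5 m (mem_range.1 hmn)]; ring
  rw [h6]
  refine (norm_add_le _ _).trans (add_le_add ?_ ?_)
  · cases n with
    | zero => simp; positivity
    | succ n =>
      have h7 := abel (a := fun m => ex (φ m)) (ρ := fun m => rho (t m)) (t := t) (L := L) n
        (fun _ => norm_ex _) fun m hmn => by
          have h8 := hL.norm_sub_le (h2 (m + 1) (by omega)) (h2 m (by omega))
          have h9 : t m ≤ t (m + 1) := (h1 m).2.trans (by simpa using (h1 (m + 1)).1)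
          rwa [Real.norm_of_nonneg (by linarith)] at h8
      have h8 := norm_le_norm_sub_add (∑ m ∈ range (n + 1),
        (ex (φ (m + 1 : ℕ)) - ex (φ m)) * rho (t m)) (ex (φ (n + 1 : ℕ)) * rho (t n))
      rw [norm_mul, norm_ex, one_mul] at h8
      have h9 := hB _ (h2 0 (by omega))
      have h10 := hB _ (h2 n (by omega))
      have h11 : (L : ℝ) * (t n - t 0) ≤ L * (3 * π) := by
        gcongr
        linarith [(h2 0 (by omega)).1, (h2 n (by omega)).2]
      linarith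
  · refine (norm_sum_le _ _).trans ((sum_le_sum fun m _ => h4 m).trans ?_)
    rw [sum_range_sub (fun m : ℕ => φ1 m)]
    have h7 := abs_le.1 (hb n ⟨Nat.cast_nonneg n, le_rfl⟩)
    have h8 := abs_le.1 (hb 0 ⟨le_rfl, Nat.cast_nonneg n⟩)
    push_cast
    linarith

end Circx

open Circx in
theorem circ (h : SP) : Circ := by
  intro ℓ M η hℓ hη
  obtain ⟨Φ, Φ1, Φ2, W, Y, ϑ, lam0, hΦ, hΦ1, -, hΦ2, hI, hW, hW0, hlam, hSP⟩ :=
    h (η / 2) (half_pos hη)
  obtain ⟨C, hC0, hC⟩ := sum_integral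
  obtain ⟨n, hn⟩ := exists_nat_gt (max lam0 ((2 * C / η) ^ 2))
  have hn1 : lam0 < n := (le_max_left _ _).trans_lt hn
  have hn2 : (2 * C / η) ^ 2 < n := (le_max_right _ _).trans_lt hn
  have hn0 : (0 : ℝ) < n := hlam.trans hn1
  have hpi := pi_pos
  have hℓ' : (2 : ℝ) ≤ ℓ := by exact_mod_cast hℓ
  have hmono : Monotone Φ1 := monotone_of_hasDerivAt_nonneg hΦ1 hΦ2
  set ω : ℝ := 2 * π / ℓ with hω
  have hω0 : 0 < ω := by positivity
  have hω1 : ω ≤ π := by rw [hω, div_le_iff₀ (by linarith)]; nlinarith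
  have hωℓ : ω * ℓ = 2 * π := by rw [hω]; field_simp
  refine ⟨n, by exact_mod_cast hn0, fun j m => 2 * π * (j * n) * Φ (m / (j * (ℓ * n) : ℕ)) - ϑ,
    fun y => ?_⟩
  set y' : ℕ → ℝ := fun u => toIcoMod two_pi_pos (ω / 2 - π) (-(y + ω * u)) with hy'
  set u0 := (⌊-y / ω⌋ % ℓ).toNat with hu0
  have hℓz : (0 : ℤ) < ℓ := by omega
  have hu0' : (u0 : ℤ) = ⌊-y / ω⌋ % ℓ := Int.toNat_of_nonneg (Int.emod_nonneg _ hℓz.ne')
  refine ⟨u0, W (y' u0 / ω) / (1 + η), 2 * π * n * Y (y' u0 / ω), ?_, ?_, ?_, ?_⟩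
  · have := Int.emod_lt_of_pos ⌊-y / ω⌋ hℓz
    omega
  · have := (hW (y' u0 / ω)).1
    positivity
  · rw [div_le_one (by linarith)]
    linarith [(hW (y' u0 / ω)).2]
  intro j hj _ u hu
  have hj' : (1 : ℝ) ≤ j := by exact_mod_cast hj
  set N : ℕ := j * (ℓ * n) with hN
  have hN' : (N : ℝ) = j * (ℓ * n) := by rw [hN]; push_cast; ring
  have hN0 : (0 : ℝ) < N := by rw [hN']; positivity
  set lam : ℝ := 2 * π * (j * n) with hlam'
  have hlamN : lam = ω * N := by rw [hN', hlam', ← hωℓ]; ring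
  set a := toIcoDiv two_pi_pos (ω / 2 - π) (-(y + ω * u)) with ha
  have hya : y' u = -(y + ω * u) - a * (2 * π) := by
    rw [hy']; simp only [toIcoMod, zsmul_eq_mul, ha]
  have hyI := toIcoMod_mem_Ico two_pi_pos (ω / 2 - π) (-(y + ω * u))
  change y' u ∈ _ at hyI
  have e1 : ∑ m ∈ range N, ex (lam * Φ (m / N) - ϑ + m * (y + 2 * π * u / ℓ)) =
      ex (-ϑ) * ∑ m ∈ range N, ex (lam * Φ (m / N) - y' u * m) := by
    rw [mul_sum]
    refine sum_congr rfl fun m _ => ?_
    rw [← ex_add, ← mul_one (ex (-ϑ + _)), ← ex_int_two_pi (-(a * m)), ← ex_add, hya, hω]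
    congr 1
    push_cast
    ring
  have e2 := hC N (fun x => lam * Φ (x / N) - y' u * x) (fun x => ω * Φ1 (x / N) - y' u)
    (fun x => by
      have h1 := (((hΦ (x / N)).comp x ((hasDerivAt_id x).div_const N)).const_mul lam).fun_sub
        ((hasDerivAt_id x).const_mul (y' u))
      refine HasDerivAt.congr_deriv h1 ?_
      rw [hlamN]; field_simp)
    (fun x x' hx => by
      have := hmono (show x / N ≤ x' / N by gcongr)
      nlinarith)
    (fun x hx => by
      have h1 := hI (x / N) ⟨div_nonneg hx.1 hN0.le, (div_le_one hN0).2 hx.2⟩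
      rw [abs_le]
      constructor <;> nlinarith [h1.1, h1.2, hyI.1, hyI.2])
  have e3 : ∫ x in (0 : ℝ)..N, ex (lam * Φ (x / N) - y' u * x) =
      (N : ℂ) * ∫ v in (0 : ℝ)..1, ex (lam * (Φ v - y' u / ω * v)) := by
    have h1 := intervalIntegral.integral_comp_div (a := 0) (b := N)
      (fun v => ex (lam * (Φ v - y' u / ω * v))) hN0.ne'
    rw [zero_div, div_self hN0.ne', Complex.real_smul, Complex.ofReal_natCast] at h1
    rw [← h1]
    congr 1
    funext x
    congr 1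
    rw [hlamN]; field_simp
  have e4 := hSP lam (by rw [hlam']; nlinarith [two_le_pi, mul_le_mul_of_nonneg_right hj' hn0.le])
    (y' u / ω)
  have e5 : (if u = u0 then ((W (y' u0 / ω) / (1 + η) : ℝ) : ℂ) *
      ex (j * (2 * π * n * Y (y' u0 / ω))) else 0) =
      ex (-ϑ) * (((1 + η)⁻¹ : ℝ) * (W (y' u / ω) * ex (ϑ + lam * Y (y' u / ω)))) := by
    split_ifs with hu'
    · have h1 : ex (j * (2 * π * n * Y (y' u0 / ω))) =
          ex (-ϑ) * ex (ϑ + lam * Y (y' u0 / ω)) := by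
        rw [← ex_add, hlam']; congr 1; ring
      rw [hu', h1]
      push_cast
      ring
    · rw [hW0 _ fun h1 => hu' ?_]
      · simp
      have h2 : y' u / ω = -y / ω - (u + ℓ * a : ℤ) := by
        rw [hya, ← hωℓ]; push_cast; field_simp; ring
      have h3 : ⌊-y / ω⌋ = u + ℓ * a := by
        rw [Int.floor_eq_iff]
        rw [h2] at h1
        constructor <;> linarith [h1.1, h1.2]
      rw [h3, Int.add_mul_emod_self_left, Int.emod_eq_of_lt (by omega) (by omega)] at hu0'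
      omega
  have e6 : (√(ℓ * N))⁻¹ * N = √(lam / (2 * π)) := by
    have h1 : lam / (2 * π) = j * n := by rw [hlam']; field_simp
    have h2 : (ℓ : ℝ) * N = ℓ ^ 2 * (j * n) := by rw [hN']; ring
    have h3 : 0 < √(j * n : ℝ) := sqrt_pos.2 (by positivity)
    rw [h1, h2, sqrt_mul (by positivity), sqrt_sq (by positivity), inv_mul_eq_iff_eq_mul₀
      (by positivity), mul_assoc, mul_self_sqrt (by positivity), hN']
    ring
  have e7 : (√(ℓ * N))⁻¹ * C ≤ η / 2 := by
    have h1 : 2 * C / η ≤ √(ℓ * N) := by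
      refine le_sqrt_of_sq_le (hn2.le.trans ?_)
      rw [hN']
      calc (n : ℝ) = 1 * (1 * (1 * n)) := by ring
        _ ≤ _ := by gcongr <;> linarith
    rw [inv_mul_le_iff₀ (sqrt_pos.2 (by positivity))]
    rw [div_le_iff₀ hη] at h1
    linarith
  rw [e1, e5]
  rw [e3] at e2
  rw [← e6] at e4
  set S := ∑ m ∈ range N, ex (lam * Φ (m / N) - y' u * m)
  set J := ∫ v in (0 : ℝ)..1, ex (lam * (Φ v - y' u / ω * v))
  set Z := (W (y' u / ω) : ℂ) * ex (ϑ + lam * Y (y' u / ω))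
  have e8 : ((((1 + η) * √(ℓ * N))⁻¹ : ℝ) : ℂ) * (ex (-ϑ) * S) - ex (-ϑ) * (((1 + η)⁻¹ : ℝ) * Z) =
      ex (-ϑ) * (((1 + η)⁻¹ : ℝ) * ((((√(ℓ * N))⁻¹ : ℝ) : ℂ) * (S - N * J) +
        ((((√(ℓ * N))⁻¹ * N : ℝ) : ℂ) * J - Z))) := by
    rw [mul_inv]; push_cast; ring
  rw [e8, norm_mul, norm_ex, one_mul, norm_mul, Complex.norm_real,
    Real.norm_of_nonneg (by positivity)]
  refine (mul_le_of_le_one_left (norm_nonneg _) (inv_le_one_of_one_le₀ (by linarith))).trans
    ((norm_add_le _ _).trans ?_)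
  rw [norm_mul, Complex.norm_real, Real.norm_of_nonneg (by positivity)]
  have : (√(ℓ * N))⁻¹ * ‖S - N * J‖ ≤ (√(ℓ * N))⁻¹ * C := by gcongr
  linarith

end Crest.Agent.H0100
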