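import Mathlib

/-!
Definitions and the statements of the independent pieces of the proof of S0100
(ultraflat `±1` polynomials).
-/

set_option autoImplicit false

namespace Crest.Agent.H0100

open Finset Real

/-- `e^{i t}` -/
noncomputable def ex (t : ℝ) : ℂ := Complex.exp ((t : ℂ) * Complex.I)

theorem ex_def (t : ℝ) : ex t = Complex.exp ((t : ℂ) * Complex.I) := rfl

theorem ex_add (s t : ℝ) : ex (s + t) = ex s * ex t := by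
  simp [ex, add_mul, Complex.exp_add]

@[simp] theorem ex_zero : ex 0 = 1 := by simp [ex]

@[simp] theorem norm_ex (t : ℝ) : ‖ex t‖ = 1 := Complex.norm_exp_ofReal_mul_I t

@[simp] theorem ex_re (t : ℝ) : (ex t).re = cos t := Complex.exp_ofReal_mul_I_re t

@[simp] theorem ex_im (t : ℝ) : (ex t).im = sin t := Complex.exp_ofReal_mul_I_im t

theorem ex_ne_zero (t : ℝ) : ex t ≠ 0 := Complex.exp_ne_zero _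

theorem conj_ex (t : ℝ) : (starRingEnd ℂ) (ex t) = ex (-t) := by
  apply Complex.ext <;> simp

theorem ex_neg (t : ℝ) : ex (-t) = (ex t)⁻¹ := by
  simp [ex, ← Complex.exp_neg]

theorem ex_nat_mul (n : ℕ) (t : ℝ) : ex (n * t) = ex t ^ n := by
  simp [ex, mul_assoc, Complex.exp_nat_mul]

theorem ex_int_two_pi (n : ℤ) : ex (n * (2 * π)) = 1 := by
  apply Complex.ext
  · simp [Real.cos_int_mul_two_pi]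
  · rw [ex_im, show (n : ℝ) * (2 * π) = ((2 * n : ℤ) : ℝ) * π by push_cast; ring,
      Real.sin_int_mul_pi]; simp

theorem ex_sum {ι : Type*} (s : Finset ι) (f : ι → ℝ) : ex (∑ i ∈ s, f i) = ∏ i ∈ s, ex (f i) := by
  simp [ex, Finset.sum_mul, Complex.exp_sum]

@[fun_prop] theorem continuous_ex : Continuous ex := by unfold ex; fun_prop

theorem hasDerivAt_ex (t : ℝ) : HasDerivAt ex (ex t * Complex.I) t := by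
  have h : HasDerivAt (fun s : ℝ => (s : ℂ) * Complex.I) (1 * Complex.I) t :=
    (Complex.ofRealCLM.hasDerivAt (x := t)).mul_const _
  have h2 := h.cexp
  rw [one_mul] at h2
  exact h2

theorem norm_ex_sub_ex (s t : ℝ) : ‖ex s - ex t‖ ≤ |s - t| := by
  have : ex s - ex t = ex t * (Complex.exp (Complex.I * ((s - t : ℝ) : ℂ)) - 1) := by
    rw [mul_sub, mul_one, mul_comm Complex.I, ← ex_def, ← ex_add]; congr 2; ring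
  rw [this, norm_mul, norm_ex, one_mul]
  simpa using Real.norm_exp_I_mul_ofReal_sub_one_le (x := s - t)

/-- Multipliers on the divisors of `M` which do not increase the sup norm. -/
def Dom (M : ℕ) (D : ℕ → ℂ) : Prop :=
  (∀ j, ‖D j‖ ≤ 1) ∧ ∀ (b : ℕ → ℂ) (B : ℝ),
    (∀ x : ℝ, |(∑ j ∈ M.divisors, b j * ex (j * x)).re| ≤ B) →
    ∀ x : ℝ, |(∑ j ∈ M.divisors, b j * D j * ex (j * x)).re| ≤ B

theorem Dom.one (M : ℕ) : Dom M (fun _ => 1) :=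
  ⟨fun _ => by simp, fun b B h x => by simpa using h x⟩

theorem Dom.mul {M : ℕ} {D E : ℕ → ℂ} (hD : Dom M D) (hE : Dom M E) :
    Dom M (fun j => D j * E j) := by
  refine ⟨fun j => ?_, fun b B h x => ?_⟩
  · rw [norm_mul]; exact mul_le_one₀ (hD.1 j) (norm_nonneg _) (hE.1 j)
  · have := hE.2 (fun j => b j * D j) B (hD.2 b B h) x
    simpa only [mul_assoc] using this

theorem Dom.prod {M : ℕ} {ι : Type*} (s : Finset ι) {D : ι → ℕ → ℂ} (h : ∀ i ∈ s, Dom M (D i)) :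
    Dom M (fun j => ∏ i ∈ s, D i j) := by
  classical
  induction s using Finset.induction_on with
  | empty => simpa using Dom.one M
  | insert a s ha ih =>
    simp only [Finset.prod_insert ha]
    exact (h a (mem_insert_self _ _)).mul (ih fun i hi => h i (mem_insert_of_mem hi))

theorem Dom.shift (M : ℕ) {W : ℝ} (h0 : 0 ≤ W) (h1 : W ≤ 1) (ξ : ℝ) :
    Dom M (fun j => (W : ℂ) * ex (j * ξ)) := by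
  refine ⟨fun j => ?_, fun b B h x => ?_⟩
  · rw [norm_mul, norm_ex, mul_one, Complex.norm_real, Real.norm_of_nonneg h0]; exact h1
  · have e : ∑ j ∈ M.divisors, b j * ((W : ℂ) * ex (j * ξ)) * ex (j * x) =
        (W : ℂ) * ∑ j ∈ M.divisors, b j * ex (j * (ξ + x)) := by
      rw [mul_sum]
      refine sum_congr rfl fun j _ => ?_
      rw [mul_add, ex_add]; ring
    rw [e, Complex.re_ofReal_mul, abs_mul, abs_of_nonneg h0]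
    have hB : 0 ≤ B := (abs_nonneg _).trans (h 0)
    calc W * _ ≤ 1 * B := mul_le_mul h1 (h _) (abs_nonneg _) zero_le_one
      _ = B := one_mul _

/-- averages of `Dom` multipliers -/
theorem Dom.avg {M : ℕ} {ι : Type*} (s : Finset ι) (hs : s.Nonempty) {D : ι → ℕ → ℂ}
    (h : ∀ i ∈ s, Dom M (D i)) : Dom M (fun j => (s.card : ℂ)⁻¹ * ∑ i ∈ s, D i j) := by
  have hc : (0 : ℝ) < s.card := by exact_mod_cast hs.card_pos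
  refine ⟨fun j => ?_, fun b B hb x => ?_⟩
  · rw [norm_mul, norm_inv, Complex.norm_natCast, inv_mul_le_iff₀ hc]
    calc _ ≤ ∑ i ∈ s, ‖D i j‖ := norm_sum_le _ _
      _ ≤ ∑ i ∈ s, (1 : ℝ) := sum_le_sum fun i hi => (h i hi).1 j
      _ = _ := by simp
  · have e : ∑ j ∈ M.divisors, b j * ((s.card : ℂ)⁻¹ * ∑ i ∈ s, D i j) * ex (j * x) =
        (((s.card : ℝ)⁻¹ : ℝ) : ℂ) * ∑ i ∈ s, ∑ j ∈ M.divisors, b j * D i j * ex (j * x) := by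
      rw [sum_comm, mul_sum]
      refine sum_congr rfl fun j _ => ?_
      rw [← sum_mul, ← mul_sum]; push_cast; ring
    rw [e, Complex.re_ofReal_mul, abs_mul, abs_of_nonneg (inv_nonneg.2 hc.le), inv_mul_le_iff₀ hc,
      Complex.re_sum]
    calc _ ≤ ∑ i ∈ s, |(∑ j ∈ M.divisors, b j * D i j * ex (j * x)).re| := abs_sum_le_sum_abs _ _
      _ ≤ ∑ i ∈ s, B := sum_le_sum fun i hi => (h i hi).2 b B hb x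
      _ = _ := by simp

/-- The phase `Θ` is locally linear at scale `R / N`, with slope in `[δ N, (1 - δ) N]`. -/
def Loc (δ R : ℝ) (N : ℕ) (Θ : ℝ → ℝ) : Prop :=
  Continuous Θ ∧ sin (Θ 0) = 0 ∧ sin (Θ π) = 0 ∧
    ∀ θ ∈ Set.Icc 0 π, ∃ k0 : ℕ, δ * N ≤ k0 ∧ (k0 : ℝ) ≤ (1 - δ) * N ∧
      ∀ u ∈ Set.Icc 0 π, |u - θ| ≤ R / N → |Θ u - Θ θ - k0 * (u - θ)| ≤ 1 / R ^ 2

/-! ### The jobs -/

/-- Spencer-type colouring. -/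
def Spen : Prop := ∃ C : ℝ, 0 < C ∧ ∀ (ι κ : Type) [Fintype ι] [Fintype κ] [DecidableEq κ]
  (v : ι → κ → ℝ) (S : Finset κ), (∀ i k, |v i k| ≤ 1) → S.card ≤ Fintype.card ι →
  ∃ χ : κ → ℝ, (∀ k, χ k = 1 ∨ χ k = -1) ∧ ∀ i, |∑ k ∈ S, v i k * χ k| ≤
    C * ((S.card : ℝ) ^ (1 / 6 : ℝ) * (Fintype.card ι : ℝ) ^ (1 / 3 : ℝ))

/-- Rounding almost-signs to signs. -/
def Round : Prop := ∃ C : ℝ, 0 < C ∧ ∀ (N : ℕ) (η : ℝ) (a : Fin N → ℝ), 0 < η →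
  (∀ k, |a k| ≤ 1) → ∑ k, (1 - a k ^ 2) ≤ η * N →
  ∃ c : Fin N → ℤˣ, ∀ θ : ℝ,
    ‖∑ k : Fin N, ((((c k : ℤ) : ℝ) - a k : ℝ) : ℂ) * ex ((k : ℕ) * θ)‖ ≤
      C * (η ^ (1 / 6 : ℝ) * √(N : ℝ))

/-- Almost perfect matchings (Pippenger, Frankl-Rödl). -/
def Nib : Prop := ∀ (K : ℕ) (ε : ℝ), 1 ≤ K → 0 < ε → ∃ δ : ℝ, 0 < δ ∧
  ∀ (V E : Type) [Fintype V] [Fintype E] [DecidableEq V] [DecidableEq E]
    (S : E → Finset V) (H : Finset E) (D : ℝ),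
    1 ≤ δ * D → (∀ e ∈ H, (S e).card = K) →
    (∀ v, ((H.filter (fun e => v ∈ S e)).card : ℝ) ≤ D) →
    (∀ u v, u ≠ v → ((H.filter (fun e => u ∈ S e ∧ v ∈ S e)).card : ℝ) ≤ δ * D) →
    ∃ M ⊆ H, (∀ e ∈ M, ∀ f ∈ M, e ≠ f → Disjoint (S e) (S f)) ∧
      (1 - ε) * (H.card : ℝ) ≤ (M.card : ℝ) * D

/-- Almost tiling half of `ℤ / P` by blocks of length `j l` centred at `± (j l * a + m l * b)`. -/
def Tile : Prop := ∀ (K M : ℕ) (j : Fin K → ℕ) (m : Fin K → ℤ) (ε : ℝ),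
  0 < K → Odd M → (∀ l, j l ∣ M) → (∀ l l', l ≠ l' → (j l : ℤ) * m l' ≠ (j l' : ℤ) * m l) →
  0 < ε →
  ∃ (P n : ℕ) (a b : Fin n → ℤ) (c : Fin n × Fin K → ℕ) (s : Fin n × Fin K → ℤ), Odd P ∧
    (∀ i, s i = 1 ∨ s i = -1) ∧
    (∀ i, (P : ℤ) ∣ (c i : ℤ) - s i * ((j i.2 : ℤ) * a i.1 + m i.2 * b i.1)) ∧
    (∀ i, j i.2 < 2 * c i ∧ 2 * c i + j i.2 ≤ P) ∧
    (∀ i i', i ≠ i' → 2 * c i + j i.2 + j i'.2 ≤ 2 * c i' ∨ 2 * c i' + j i.2 + j i'.2 ≤ 2 * c i) ∧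
    (1 - ε) * (P : ℝ) ≤ 2 * ((n : ℝ) * ∑ l, (j l : ℝ)) ∧ 2 * (n * ∑ l, j l) ≤ P

/-- first derivative test -/
def VdC1 : Prop := ∀ (φ φ1 φ2 : ℝ → ℝ) (a b μ : ℝ), a ≤ b → 0 < μ →
  (∀ x ∈ Set.Icc a b, HasDerivAt φ (φ1 x) x) → (∀ x ∈ Set.Icc a b, HasDerivAt φ1 (φ2 x) x) →
  ContinuousOn φ2 (Set.Icc a b) →
  ((∀ x ∈ Set.Icc a b, 0 ≤ φ2 x) ∨ (∀ x ∈ Set.Icc a b, φ2 x ≤ 0)) →
  (∀ x ∈ Set.Icc a b, μ ≤ |φ1 x|) → ‖∫ x in a..b, ex (φ x)‖ ≤ 4 / μ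

/-- second derivative test -/
def VdC2 : Prop := ∀ (φ φ1 φ2 : ℝ → ℝ) (a b lam : ℝ), a ≤ b → 0 < lam →
  (∀ x ∈ Set.Icc a b, HasDerivAt φ (φ1 x) x) → (∀ x ∈ Set.Icc a b, HasDerivAt φ1 (φ2 x) x) →
  ContinuousOn φ2 (Set.Icc a b) →
  ((∀ x ∈ Set.Icc a b, lam ≤ φ2 x) ∨ (∀ x ∈ Set.Icc a b, φ2 x ≤ -lam)) →
  ‖∫ x in a..b, ex (φ x)‖ ≤ 10 / √lam

/-- uniform stationary phase for a tapered chirp -/
def SP : Prop := ∀ η : ℝ, 0 < η → ∃ (Φ Φ1 Φ2 W Y : ℝ → ℝ) (ϑ lam0 : ℝ),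
  (∀ v, HasDerivAt Φ (Φ1 v) v) ∧ (∀ v, HasDerivAt Φ1 (Φ2 v) v) ∧ Continuous Φ2 ∧
  (∀ v, 0 ≤ Φ2 v) ∧ (∀ v ∈ Set.Icc (0 : ℝ) 1, Φ1 v ∈ Set.Icc (0 : ℝ) 1) ∧
  (∀ y, 0 ≤ W y ∧ W y ≤ 1 + η) ∧ (∀ y, y ∉ Set.Ico (0 : ℝ) 1 → W y = 0) ∧ 0 < lam0 ∧
  ∀ lam : ℝ, lam0 ≤ lam → ∀ y : ℝ,
    ‖((√(lam / (2 * π)) : ℝ) : ℂ) * (∫ v in (0 : ℝ)..1, ex (lam * (Φ v - y * v))) -
      (W y : ℂ) * ex (ϑ + lam * Y y)‖ ≤ η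

/-- flat chirp polynomials concentrated on one of `ℓ` arcs -/
def Circ : Prop := ∀ (ℓ M : ℕ) (η : ℝ), 2 ≤ ℓ → 0 < η → ∃ n : ℕ, 0 < n ∧ ∃ ψ : ℕ → ℕ → ℝ,
  ∀ y : ℝ, ∃ (u0 : ℕ) (W ξ : ℝ), u0 < ℓ ∧ 0 ≤ W ∧ W ≤ 1 ∧ ∀ j : ℕ, 1 ≤ j → j ≤ M → ∀ u < ℓ,
    ‖((((1 + η) * √((ℓ : ℝ) * (j * (ℓ * n) : ℕ)))⁻¹ : ℝ) : ℂ) *
        ∑ m ∈ range (j * (ℓ * n)), ex (ψ j m + m * (y + 2 * π * (u : ℕ) / ℓ)) -
      (if u = u0 then (W : ℂ) * ex (j * ξ) else 0)‖ ≤ η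

/-- functions on `(ℤ/ℓ)^k` with flat spectrum, killed by the multiples of `r` -/
def Fld : Prop := ∀ (M ℓ k r : ℕ) [NeZero ℓ], ℓ.Prime → 0 < r → (r = 1 ∨ (1 ≤ k ∧ r ∣ ℓ - 1)) →
  ∃ H : ℕ → (Fin k → ZMod ℓ) → ℂ, (∀ u, Dom M (fun j => H j u)) ∧
    ∀ (j : ℕ) (a : Fin k → ZMod ℓ),
      ‖∑ u : Fin k → ZMod ℓ, H j u * ZMod.stdAddChar (∑ i, a i * u i)‖ ^ 2 =
        if r ∣ j then (if a = 0 then ((ℓ : ℝ) ^ k) ^ 2 else 0)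
        else (if a = 0 then 0 else (ℓ : ℝ) ^ k)

/-- one block of `k` circles -/
def Blk : Prop := ∀ (M ℓ k r : ℕ) (η : ℝ), ℓ.Prime → 0 < r → (r = 1 ∨ (1 ≤ k ∧ r ∣ ℓ - 1)) →
  0 < η →
  ∃ (γ : ℝ) (Ls : ℕ → Finset (Fin k → ℕ)) (e : ℕ → (Fin k → ℕ) → ℂ), 0 < γ ∧
    (∀ j ∈ M.divisors, ∀ m ∈ Ls j,
      ‖e j m‖ ^ 2 = γ / (j : ℝ) ^ k * (if r ∣ j then (ℓ : ℝ) ^ k else 1)) ∧
    (∀ j ∈ M.divisors, 1 - η - 1 / (ℓ : ℝ) ≤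
      ((Ls j).card : ℝ) * (γ / (j : ℝ) ^ k * (if r ∣ j then (ℓ : ℝ) ^ k else 1))) ∧
    (∀ j ∈ M.divisors, ∀ m ∈ Ls j, (r ∣ j ↔ ∀ i, ℓ ∣ m i)) ∧
    ∀ y : Fin k → ℝ, ∃ D : ℕ → ℂ, Dom M D ∧ ∀ j ∈ M.divisors,
      ‖∑ m ∈ Ls j, e j m * ex (∑ i, (m i : ℝ) * y i) - D j‖ ≤ η

/-- a damped square wave -/
def Fs : Prop := ∀ ε : ℝ, 0 < ε → ∃ (s : ℝ) (M : ℕ), 0 < s ∧ s ≤ 1 ∧ Odd M ∧
  (∀ x : ℝ, |∑ j ∈ M.divisors, (j : ℝ) ^ (-1 - s) * sin (j * x)| ≤ π / 4 * (1 + ε)) ∧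
  π ^ 2 / 8 * (1 - ε) ≤ ∑ j ∈ M.divisors, (j : ℝ) ^ (-2 - 2 * s)

/-- the constellation -/
def Kon : Prop := ∀ ε : ℝ, 0 < ε →
  ∃ (K M : ℕ) (j : Fin K → ℕ) (m : Fin K → ℤ) (φ : Fin K → ℝ), 0 < K ∧ Odd M ∧ (∀ l, j l ∣ M) ∧
    (∀ l l', l ≠ l' → (j l : ℤ) * m l' ≠ (j l' : ℤ) * m l) ∧
    ∀ x y : ℝ, |∑ l, √(2 * (j l : ℝ) / ∑ l', (j l' : ℝ)) * cos (j l * x + m l * y + φ l)| ≤ 1 + ε

/-- from a locally linear phase to a flat polynomial with real coefficients -/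
def Smooth : Prop := ∀ δ ρ : ℝ, 0 < δ → 0 < ρ → ∃ R : ℝ, 0 < R ∧ ∃ N1 : ℕ, ∀ N : ℕ, N1 ≤ N →
  ∀ (Θ : ℝ → ℝ) (B : ℝ), Loc δ R N Θ →
    (∀ k : ℕ, k < N → |√(N : ℝ) / π * ∫ u in (0 : ℝ)..π, cos (Θ u - k * u)| ≤ B) →
    ∃ a : Fin N → ℝ, (∀ k, |a k| ≤ B) ∧
      ∀ θ : ℝ, |‖∑ k : Fin N, (a k : ℂ) * ex ((k : ℕ) * θ)‖ - √(N : ℝ)| ≤ ρ * √(N : ℝ)

/-- gluing prescribed chirps on disjoint arcs into one phase function -/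
def Glue : Prop := ∃ C0 : ℝ, 0 < C0 ∧ ∀ (I : Type) [Fintype I] [DecidableEq I] (P : ℕ)
  (c j : I → ℕ) (δ ε η : ℝ) (T : I → ℝ → ℝ),
  Odd P → (∀ i, Odd (j i)) → (∀ i, j i < 2 * c i ∧ 2 * c i + j i ≤ P) →
  (∀ i i', i ≠ i' → 2 * c i + j i + j i' ≤ 2 * c i' ∨ 2 * c i' + j i + j i' ≤ 2 * c i) →
  0 < δ → δ ≤ 1 / 4 → 0 < ε → (1 - ε) * (P : ℝ) ≤ 2 * ∑ i, (j i : ℝ) → 0 < η → η < 1 →
  (∀ i, Continuous (T i)) →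
  (∀ i u, |u - c i * (2 * π / P)| ≤ (1 - η) * j i * (π / P) → 3 * δ ≤ T i u ∧ T i u ≤ 1 - δ) →
  ∀ R ρ : ℝ, 0 < R → 0 < ρ → ∃ N1 : ℕ, ∀ N : ℕ, N1 ≤ N → ∀ φ : I → ℝ,
    ∃ Θ : ℝ → ℝ, Loc (δ / 2) R N Θ ∧ ∀ k : ℝ,
      √(N : ℝ) * |(∫ u in (0 : ℝ)..π, cos (Θ u - k * u)) -
        ∑ i, ∫ u in (c i * (2 * π / P) - (1 - η) * j i * (π / P))..
            (c i * (2 * π / P) + (1 - η) * j i * (π / P)),
          cos (φ i + N * (∫ x in (c i * (2 * π / P))..u, T i x) - k * u)| ≤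
        C0 * (√(ε / δ) + (Fintype.card I : ℝ) * √(η / δ)) + ρ

/-- a locally linear phase with bounded Fourier coefficients -/
def Design : Prop := ∀ ε : ℝ, 0 < ε → ∃ δ : ℝ, 0 < δ ∧ ∀ R : ℝ, 0 < R → ∃ N1 : ℕ, ∀ N : ℕ,
  N1 ≤ N → ∃ Θ : ℝ → ℝ, Loc δ R N Θ ∧
    ∀ k : ℕ, k < N → |√(N : ℝ) / π * ∫ u in (0 : ℝ)..π, cos (Θ u - k * u)| ≤ 1 + ε

end Crest.Agent.H0100
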