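import Crest.Agent.H0100.Smooth

/-! The phase function with bounded Fourier coefficients. -/

set_option autoImplicit false

namespace Crest.Agent.H0100.Designx

open Finset Real Crest.Agent.H0100 Crest.Agent.H0100.Smoothx

theorem arc_subst (f : ℝ → ℝ) {x0 h s : ℝ} (hh : 0 < h) (hs : s = 1 ∨ s = -1) :
    ∫ u in (x0 - h)..(x0 + h), f (1 / 2 + s * (u - x0) / (2 * h)) =
      2 * h * ∫ v in (0 : ℝ)..1, f v := by
  have e : ∀ u, 1 / 2 + s * (u - x0) / (2 * h) = (s / (2 * h)) * u + (1 / 2 - s * x0 / (2 * h)) :=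
    fun u => by ring
  simp only [e]
  have hs0 : s / (2 * h) ≠ 0 := by rcases hs with rfl | rfl <;> positivity
  rw [intervalIntegral.integral_comp_mul_add f hs0]
  rcases hs with rfl | rfl
  · rw [show 1 / (2 * h) * (x0 - h) + (1 / 2 - 1 * x0 / (2 * h)) = 0 by field_simp; ring,
      show 1 / (2 * h) * (x0 + h) + (1 / 2 - 1 * x0 / (2 * h)) = 1 by field_simp; ring]
    simp
  · rw [show -1 / (2 * h) * (x0 - h) + (1 / 2 - -1 * x0 / (2 * h)) = 1 by field_simp; ring,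
      show -1 / (2 * h) * (x0 + h) + (1 / 2 - -1 * x0 / (2 * h)) = 0 by field_simp; ring,
      intervalIntegral.integral_symm]
    simp only [smul_eq_mul]
    field_simp

theorem int_T {Φ Φ1 : ℝ → ℝ} (h1 : ∀ v, HasDerivAt Φ (Φ1 v) v) (hc : Continuous Φ1)
    {x0 h s : ℝ} (hh : 0 < h) (hs : s = 1 ∨ s = -1) (t τ u : ℝ) :
    ∫ x in x0..u, (t + τ * Φ1 (1 / 2 + s * (x - x0) / (2 * h))) =
      t * (u - x0) + τ * (s * (2 * h) * (Φ (1 / 2 + s * (u - x0) / (2 * h)) - Φ (1 / 2))) := by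
  have hss : s * s = 1 := by rcases hs with rfl | rfl <;> norm_num
  have hd : ∀ x ∈ Set.uIcc x0 u, HasDerivAt
      (fun x => t * x + τ * (s * (2 * h) * Φ (1 / 2 + s * (x - x0) / (2 * h))))
      (t + τ * Φ1 (1 / 2 + s * (x - x0) / (2 * h))) x := by
    intro x _
    have a1 : HasDerivAt (fun x => 1 / 2 + s * (x - x0) / (2 * h)) (s * 1 / (2 * h)) x :=
      ((((hasDerivAt_id x).sub_const x0).const_mul s).div_const _).const_add _
    have a2 := (((h1 _).comp x a1).const_mul (s * (2 * h))).const_mul τ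
    have a3 := ((hasDerivAt_id x).const_mul t).add a2
    refine a3.congr_deriv ?_
    have : s * (2 * h) * (Φ1 (1 / 2 + s * (x - x0) / (2 * h)) * (s * 1 / (2 * h))) =
        s * s * Φ1 (1 / 2 + s * (x - x0) / (2 * h)) := by field_simp
    rw [this, hss]; ring
  rw [intervalIntegral.integral_eq_sub_of_hasDerivAt hd
    (Continuous.intervalIntegrable (by fun_prop) _ _)]
  simp only [sub_self, mul_zero, zero_div, add_zero]
  ring

theorem cos_sign {s : ℝ} (hs : s = 1 ∨ s = -1) (x : ℝ) : cos (s * x) = cos x := by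
  rcases hs with rfl | rfl <;> simp

/-- the integral over one arc -/
theorem arc_eval {Φ Φ1 : ℝ → ℝ} (h1 : ∀ v, HasDerivAt Φ (Φ1 v) v) (hc : Continuous Φ1)
    {x0 h s : ℝ} (hh : 0 < h) (hs : s = 1 ∨ s = -1) {N τ : ℝ} (hN : 0 < N) (hτ : 0 < τ)
    (t ψ k p : ℝ) (z : ℤ) (hk : k * x0 = s * p + z * (2 * π)) :
    ∫ u in (x0 - h)..(x0 + h),
      cos (s * ψ + N * (∫ x in x0..u, (t + τ * Φ1 (1 / 2 + s * (x - x0) / (2 * h)))) - k * u) =
    2 * h * (ex (ψ - p - N * τ * (2 * h) * (Φ (1 / 2) - (k - N * t) / (N * τ) / 2)) *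
      ∫ v in (0 : ℝ)..1, ex (N * τ * (2 * h) * (Φ v - (k - N * t) / (N * τ) * v))).re := by
  have hss : s * s = 1 := by rcases hs with rfl | rfl <;> norm_num
  have hΦ : Continuous Φ := continuous_iff_continuousAt.2 fun v => (h1 v).continuousAt
  set β := ψ - p - N * τ * (2 * h) * (Φ (1 / 2) - (k - N * t) / (N * τ) / 2) with hβ
  have e : ∀ u, cos (s * ψ + N * (∫ x in x0..u, (t + τ * Φ1 (1 / 2 + s * (x - x0) / (2 * h)))) -
      k * u) = (fun v => cos (β + N * τ * (2 * h) * (Φ v - (k - N * t) / (N * τ) * v)))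
        (1 / 2 + s * (u - x0) / (2 * h)) := by
    intro u
    rw [int_T h1 hc hh hs]
    simp only
    rw [← cos_sign hs (β + _), ← Real.cos_add_int_mul_two_pi _ z]
    congr 1
    have a : N * τ * (2 * h) * ((k - N * t) / (N * τ) * (1 / 2 + s * (u - x0) / (2 * h))) =
        (k - N * t) * (h + s * (u - x0)) := by field_simp
    have b : N * τ * (2 * h) * ((k - N * t) / (N * τ) / 2) = (k - N * t) * h := by field_simp
    rw [hβ, mul_sub (N * τ * (2 * h)), mul_sub (N * τ * (2 * h)), a, b]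
    linear_combination (-1 : ℝ) * hk + (k - N * t) * (u - x0) * hss
  simp only [e]
  rw [arc_subst (fun v => cos (β + N * τ * (2 * h) * (Φ v - (k - N * t) / (N * τ) * v))) hh hs,
    ← intervalIntegral.integral_const_mul (ex β)]
  congr 1
  have := Complex.reCLM.intervalIntegral_comp_comm (μ := MeasureTheory.volume) (a := 0) (b := 1)
    (f := fun v => ex β * ex (N * τ * (2 * h) * (Φ v - (k - N * t) / (N * τ) * v)))
    (Continuous.intervalIntegrable (by fun_prop) _ _)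
  simp only [Complex.reCLM_apply] at this
  rw [← this]
  congr 1
  funext v
  rw [← ex_add, ex_re]

theorem re_close {L η W γ β : ℝ} {I : ℂ} (h : ‖(L : ℂ) * I - (W : ℂ) * ex γ‖ ≤ η) :
    |L * (ex β * I).re - W * cos (β + γ)| ≤ η := by
  have e : L * (ex β * I).re - W * cos (β + γ) = (ex β * ((L : ℂ) * I - (W : ℂ) * ex γ)).re := by
    rw [mul_sub, Complex.sub_re, mul_left_comm, Complex.re_ofReal_mul, mul_left_comm,
      Complex.re_ofReal_mul, ← ex_add, ex_re]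
  rw [e]
  refine (Complex.abs_re_le_norm _).trans ?_
  rwa [norm_mul, norm_ex, one_mul]

theorem sum_W_le {W : ℝ → ℝ} {B : ℝ} (hW : ∀ y, 0 ≤ W y ∧ W y ≤ B)
    (hW0 : ∀ y, y ∉ Set.Ico (0 : ℝ) 1 → W y = 0) (n : ℕ) (Y0 : ℝ) :
    ∑ e : Fin n, W (Y0 - (e : ℕ)) ≤ B := by
  by_cases h : ∃ e : Fin n, Y0 - (e : ℕ) ∈ Set.Ico (0 : ℝ) 1
  · obtain ⟨e, he⟩ := h
    rw [sum_eq_single e]
    · exact (hW _).2
    · intro e' _ hne
      refine hW0 _ fun he' => hne ?_
      apply Fin.ext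
      have a1 : ((e : ℕ) : ℝ) < (e' : ℕ) + 1 := by linarith [he.1, he'.2]
      have a2 : ((e' : ℕ) : ℝ) < (e : ℕ) + 1 := by linarith [he.2, he'.1]
      have a1' : (e : ℕ) < (e' : ℕ) + 1 := by exact_mod_cast a1
      have a2' : (e' : ℕ) < (e : ℕ) + 1 := by exact_mod_cast a2
      omega
    · intro h; exact absurd (mem_univ e) h
  · push Not at h
    rw [sum_eq_zero fun e _ => hW0 _ (h e)]
    exact (hW 0).1.trans (hW 0).2

theorem mul_sqrt_le {C δ x : ℝ} (hC : 0 < C) (hδ : 0 < δ) (hx : 0 ≤ x) {η : ℝ}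
    (hη : η ≤ δ * (x / C) ^ 2) : C * √(η / δ) ≤ x := by
  have : √(η / δ) ≤ x / C := by
    rw [Real.sqrt_le_left (by positivity), div_le_iff₀' hδ]; exact hη
  calc _ ≤ C * (x / C) := by gcongr
    _ = x := by field_simp

end Crest.Agent.H0100.Designx

namespace Crest.Agent.H0100

open Finset Real Designx

theorem design (hK : Kon) (hT : Tile) (hS : SP) (hG : Glue) : Design := by
  intro ε hε
  set x : ℝ := min ε 1 with hx
  have hx0 : 0 < x := lt_min hε one_pos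
  have hx1 : x ≤ 1 := min_le_right _ _
  have hxε : x ≤ ε := min_le_left _ _
  set δ : ℝ := x / 40 with hδ
  have hδ0 : 0 < δ := by positivity
  have hδ1 : 0 < 1 - 4 * δ := by linarith
  refine ⟨δ / 2, by positivity, fun R hR => ?_⟩
  obtain ⟨K, M, j, m, φ, hK0, hM, hjM, hcol, hF⟩ := hK (x / 10) (by positivity)
  obtain ⟨C0, hC0, hG⟩ := hG
  have hjodd : ∀ l, Odd (j l) := fun l => Odd.of_dvd_nat hM (hjM l)
  have hj1 : ∀ l, (1 : ℝ) ≤ j l := fun l => by exact_mod_cast (hjodd l).pos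
  set J : ℝ := ∑ l, (j l : ℝ) with hJ
  have hjJ : ∀ l, (j l : ℝ) ≤ J := fun l =>
    single_le_sum (f := fun l => (j l : ℝ)) (fun _ _ => Nat.cast_nonneg _) (mem_univ l)
  have hJ0 : 0 < J := lt_of_lt_of_le one_pos ((hj1 ⟨0, hK0⟩).trans (hjJ _))
  obtain ⟨P, n, a, b, c, s, hP, hs, hdiv, hin, hdis, hcov, hle⟩ :=
    hT K M j m (δ * (x / 10 / C0) ^ 2) hK0 hM hjM hcol (by positivity)
  have hP0 : (0 : ℝ) < P := by exact_mod_cast hP.pos
  have hle' : 2 * (n * J) ≤ P := by rw [hJ]; exact_mod_cast hle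
  set Q : ℝ := (n : ℝ) * K + 1 with hQ
  have hQ0 : 0 < Q := by positivity
  set η : ℝ := min (1 / 2) (δ * (x / 10 / (C0 * Q)) ^ 2) with hη
  have hη0 : 0 < η := lt_min (by norm_num) (by positivity)
  have hη1 : η ≤ 1 / 2 := min_le_left _ _
  have hη2 : 0 < 1 - η := by linarith
  obtain ⟨Φ, Φ1, Φ2, W, Y, ϑ, lam0, hΦ, hΦ1, -, -, hΦr, hW, hW0, hlam0, hSP⟩ :=
    hS (x / (30 * Q)) (by positivity)
  have hΦ1c : Continuous Φ1 := continuous_iff_continuousAt.2 fun v => (hΦ1 v).continuousAt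
  set τ : ℝ := (1 - 4 * δ) * (2 * J / P) with hτ
  have hτ0 : 0 < τ := by positivity
  have hnτ : n * τ ≤ 1 - 4 * δ := by
    have : n * (2 * J / P) ≤ 1 := by
      rw [← mul_div_assoc, div_le_one hP0]; linarith
    calc n * τ = (1 - 4 * δ) * (n * (2 * J / P)) := by rw [hτ]; ring
      _ ≤ (1 - 4 * δ) * 1 := by gcongr
      _ = _ := mul_one _
  have hsr : ∀ i, ((s i : ℤ) : ℝ) = 1 ∨ ((s i : ℤ) : ℝ) = -1 := fun i => by
    rcases hs i with h | h <;> simp [h]
  have hh : ∀ l, 0 < (1 - η) * j l * (π / P) := fun l => by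
    have := hj1 l; positivity
  obtain ⟨N1, hG⟩ := hG (Fin n × Fin K) P c (fun i => j i.2) δ (δ * (x / 10 / C0) ^ 2) η
    (fun i u => (3 * δ + (i.1 : ℕ) * τ) + τ * Φ1 (1 / 2 + (s i : ℤ) * (u - c i * (2 * π / P)) /
      (2 * ((1 - η) * j i.2 * (π / P))))) hP (fun i => hjodd i.2) hin hdis hδ0 (by linarith)
    (by positivity) (by
      rw [Fintype.sum_prod_type]
      simpa using hcov) hη0 (by linarith) (fun i => by fun_prop) (fun i u hu => by
      have hv : 1 / 2 + (s i : ℤ) * (u - c i * (2 * π / P)) /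
          (2 * ((1 - η) * j i.2 * (π / P))) ∈ Set.Icc (0 : ℝ) 1 := by
        have h2 := hh i.2
        have : |(s i : ℤ) * (u - c i * (2 * π / P)) / (2 * ((1 - η) * j i.2 * (π / P)))| ≤
            (1 / 2 : ℝ) := by
          rw [abs_div, abs_mul, abs_of_pos (by positivity : 0 < 2 * ((1 - η) * j i.2 * (π / P))),
            div_le_iff₀ (by positivity)]
          have : |((s i : ℤ) : ℝ)| = 1 := by rcases hsr i with h | h <;> simp [h]
          rw [this]; linarith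
        rw [abs_le] at this
        constructor <;> linarith [this.1, this.2]
      have h3 := hΦr _ hv
      have h4 : ((i.1 : ℕ) : ℝ) + 1 ≤ n := by exact_mod_cast i.1.isLt
      have h5 : (0 : ℝ) ≤ (i.1 : ℕ) := Nat.cast_nonneg _
      constructor <;> nlinarith [h3.1, h3.2]) R (x / 10) hR (by positivity)
  refine ⟨max N1 (⌈lam0 / (τ * (2 * ((1 - η) * (π / P))))⌉₊), fun N hN => ?_⟩
  have hNl : lam0 ≤ N * (τ * (2 * ((1 - η) * (π / P)))) := by
    have : lam0 / (τ * (2 * ((1 - η) * (π / P)))) ≤ N :=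
      (Nat.le_ceil _).trans (by exact_mod_cast le_of_max_le_right hN)
    rwa [div_le_iff₀ (by positivity)] at this
  have hN0 : (0 : ℝ) < N := by
    by_contra h
    have : (N : ℝ) = 0 := le_antisymm (not_lt.1 h) (Nat.cast_nonneg _)
    rw [this] at hNl; linarith
  obtain ⟨Θ, hL, hΘ⟩ := hG N (le_of_max_le_left hN) (fun i => (s i : ℤ) * (φ i.2 - ϑ))
  refine ⟨Θ, hL, fun k _ => ?_⟩
  have hk := hΘ k
  set κ : ℝ := √((1 - η) / (1 - 4 * δ)) with hκ
  have hκ1 : κ ≤ 1 + x / 9 := by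
    rw [hκ, Real.sqrt_le_left (by positivity), div_le_iff₀ hδ1, hδ]
    nlinarith [mul_pos hx0 hx0]
  have hκ0 : 0 ≤ κ := Real.sqrt_nonneg _
  set Y0 : ℝ := (k - N * (3 * δ)) / (N * τ) with hY0
  have hy : ∀ e : Fin n, (k - N * (3 * δ + (e : ℕ) * τ)) / (N * τ) = Y0 - (e : ℕ) := fun e => by
    rw [hY0]; field_simp; ring
  -- evaluation of one arc
  have harc : ∀ i : Fin n × Fin K,
      |√(N : ℝ) / π * (∫ u in (c i * (2 * π / P) - (1 - η) * j i.2 * (π / P))..
          (c i * (2 * π / P) + (1 - η) * j i.2 * (π / P)),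
        cos ((s i : ℤ) * (φ i.2 - ϑ) + N * (∫ x in (c i * (2 * π / P))..u,
          ((3 * δ + (i.1 : ℕ) * τ) + τ * Φ1 (1 / 2 + (s i : ℤ) * (x - c i * (2 * π / P)) /
            (2 * ((1 - η) * j i.2 * (π / P)))))) - k * u)) -
        κ * (W (Y0 - (i.1 : ℕ)) * (√(2 * (j i.2 : ℝ) / J) * cos (j i.2 *
          (-(k * (2 * π / P) * a i.1) + N * τ * (2 * ((1 - η) * (π / P))) *
            (Y (Y0 - (i.1 : ℕ)) - Φ (1 / 2) + (Y0 - (i.1 : ℕ)) / 2)) +
          m i.2 * (-(k * (2 * π / P) * b i.1)) + φ i.2)))| ≤ 3 * (x / (30 * Q)) := by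
    intro i
    obtain ⟨z, hz⟩ := hdiv i
    have hz' : (c i : ℝ) - (s i : ℤ) * ((j i.2 : ℝ) * a i.1 + m i.2 * b i.1) = P * z := by
      exact_mod_cast hz
    rw [arc_eval hΦ hΦ1c (hh i.2) (hsr i) hN0 hτ0 _ _ k
      (k * (2 * π / P) * ((j i.2 : ℝ) * a i.1 + m i.2 * b i.1)) (k * z) (by
        have : (c i : ℝ) = (s i : ℤ) * ((j i.2 : ℝ) * a i.1 + m i.2 * b i.1) + P * z := by
          linarith
        rw [this]; push_cast; field_simp), hy]
    set lam : ℝ := N * τ * (2 * ((1 - η) * j i.2 * (π / P))) with hlam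
    have hl : lam0 ≤ lam := by
      refine hNl.trans ?_
      have := hj1 i.2
      calc _ = N * τ * (2 * ((1 - η) * 1 * (π / P))) := by ring
        _ ≤ _ := by rw [hlam]; gcongr
    have h1 := re_close (β := φ i.2 - ϑ - k * (2 * π / P) * ((j i.2 : ℝ) * a i.1 + m i.2 * b i.1) -
      lam * (Φ (1 / 2) - (Y0 - (i.1 : ℕ)) / 2)) (hSP lam hl (Y0 - (i.1 : ℕ)))
    have hamp : √(N : ℝ) / π * (2 * ((1 - η) * j i.2 * (π / P))) =
        κ * √(2 * (j i.2 : ℝ) / J) * √(lam / (2 * π)) := by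
      have hj := hj1 i.2
      rw [hκ, ← Real.sqrt_mul (by positivity), ← Real.sqrt_mul (by positivity)]
      symm
      rw [Real.sqrt_eq_iff_mul_self_eq (by positivity) (by positivity)]
      have : √(N : ℝ) * √(N : ℝ) = N := Real.mul_self_sqrt hN0.le
      rw [mul_mul_mul_comm, div_mul_div_comm (√(N : ℝ)), this, hlam, hτ]
      field_simp
    have hA : κ * √(2 * (j i.2 : ℝ) / J) ≤ 3 := by
      have : √(2 * (j i.2 : ℝ) / J) ≤ 2 := by
        rw [Real.sqrt_le_left (by norm_num), div_le_iff₀ hJ0]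
        have := hjJ i.2; linarith
      nlinarith [Real.sqrt_nonneg (2 * (j i.2 : ℝ) / J)]
    rw [← mul_assoc, hamp]
    have hph : j i.2 * (-(k * (2 * π / P) * a i.1) + N * τ * (2 * ((1 - η) * (π / P))) *
            (Y (Y0 - (i.1 : ℕ)) - Φ (1 / 2) + (Y0 - (i.1 : ℕ)) / 2)) +
          m i.2 * (-(k * (2 * π / P) * b i.1)) + φ i.2 =
        φ i.2 - ϑ - k * (2 * π / P) * ((j i.2 : ℝ) * a i.1 + m i.2 * b i.1) -
          lam * (Φ (1 / 2) - (Y0 - (i.1 : ℕ)) / 2) + (ϑ + lam * Y (Y0 - (i.1 : ℕ))) := by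
      rw [hlam]; ring
    rw [hph]
    have e : ∀ A B C D E : ℝ, κ * A * B * C - κ * (D * (A * E)) = κ * A * (B * C - D * E) :=
      fun A B C D E => by ring
    rw [e, abs_mul, abs_of_nonneg (by positivity)]
    exact mul_le_mul hA h1 (abs_nonneg _) (by norm_num)
  set G : ℝ := ∫ u in (0 : ℝ)..π, cos (Θ u - k * u)
  set A : Fin n × Fin K → ℝ := fun i =>
    ∫ u in (c i * (2 * π / P) - (1 - η) * j i.2 * (π / P))..
          (c i * (2 * π / P) + (1 - η) * j i.2 * (π / P)),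
        cos ((s i : ℤ) * (φ i.2 - ϑ) + N * (∫ x in (c i * (2 * π / P))..u,
          ((3 * δ + (i.1 : ℕ) * τ) + τ * Φ1 (1 / 2 + (s i : ℤ) * (x - c i * (2 * π / P)) /
            (2 * ((1 - η) * j i.2 * (π / P)))))) - k * u) with hA
  set B : Fin n × Fin K → ℝ := fun i =>
    κ * (W (Y0 - (i.1 : ℕ)) * (√(2 * (j i.2 : ℝ) / J) * cos (j i.2 *
          (-(k * (2 * π / P) * a i.1) + N * τ * (2 * ((1 - η) * (π / P))) *
            (Y (Y0 - (i.1 : ℕ)) - Φ (1 / 2) + (Y0 - (i.1 : ℕ)) / 2)) +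
          m i.2 * (-(k * (2 * π / P) * b i.1)) + φ i.2))) with hB
  change ∀ i, |√(N : ℝ) / π * A i - B i| ≤ _ at harc
  change √(N : ℝ) * |G - ∑ i, A i| ≤ _ at hk
  have hQ1 : 1 ≤ Q := by rw [hQ]; have : (0 : ℝ) ≤ (n : ℝ) * K := by positivity
                         linarith
  have b1 : |∑ i, B i| ≤ 1 + x / 2 := by
    rw [Fintype.sum_prod_type]
    simp only [hB, ← mul_sum]
    rw [abs_mul, abs_of_nonneg hκ0]
    have hw : x / (30 * Q) ≤ x / 10 := by gcongr; linarith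
    have : |∑ e : Fin n, W (Y0 - (e : ℕ)) * ∑ l, √(2 * (j l : ℝ) / J) * cos (j l *
          (-(k * (2 * π / P) * a e) + N * τ * (2 * ((1 - η) * (π / P))) *
            (Y (Y0 - (e : ℕ)) - Φ (1 / 2) + (Y0 - (e : ℕ)) / 2)) +
          m l * (-(k * (2 * π / P) * b e)) + φ l)| ≤ (1 + x / 10) * (1 + x / 10) := by
      refine (abs_sum_le_sum_abs _ _).trans ?_
      calc _ ≤ ∑ e : Fin n, W (Y0 - (e : ℕ)) * (1 + x / 10) := by
            refine sum_le_sum fun e _ => ?_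
            rw [abs_mul, abs_of_nonneg (hW _).1]
            exact mul_le_mul_of_nonneg_left (hF _ _) (hW _).1
        _ = (∑ e : Fin n, W (Y0 - (e : ℕ))) * (1 + x / 10) := by rw [sum_mul]
        _ ≤ _ := by
            have := sum_W_le hW hW0 n Y0
            gcongr; linarith
    calc _ ≤ (1 + x / 9) * ((1 + x / 10) * (1 + x / 10)) := by gcongr
      _ ≤ _ := by nlinarith [mul_pos hx0 hx0, mul_le_mul_of_nonneg_left hx1 (mul_pos hx0 hx0).le]
  have b2 : |√(N : ℝ) / π * ∑ i, A i - ∑ i, B i| ≤ x / 10 := by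
    rw [mul_sum, ← sum_sub_distrib]
    refine (abs_sum_le_sum_abs _ _).trans ((sum_le_sum fun i _ => harc i).trans ?_)
    simp only [sum_const, card_univ, Fintype.card_prod, Fintype.card_fin, nsmul_eq_mul]
    push_cast
    calc _ ≤ Q * (3 * (x / (30 * Q))) := by gcongr; rw [hQ]; linarith
      _ = x / 10 := by field_simp; ring
  have b3 : |√(N : ℝ) / π * G - √(N : ℝ) / π * ∑ i, A i| ≤ 3 * (x / 10) := by
    rw [← mul_sub, abs_mul, abs_of_nonneg (by positivity)]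
    have c1 := mul_sqrt_le hC0 hδ0 (by positivity : 0 ≤ x / 10) le_rfl
    have c2 := mul_sqrt_le (mul_pos hC0 hQ0) hδ0 (by positivity : 0 ≤ x / 10) (η := η)
      (min_le_right _ _)
    have c3 : C0 * ((Fintype.card (Fin n × Fin K) : ℝ) * √(η / δ)) ≤ C0 * Q * √(η / δ) := by
      rw [mul_assoc]
      gcongr
      simp [hQ]
    have c4 : √(N : ℝ) / π ≤ √(N : ℝ) := div_le_self (Real.sqrt_nonneg _) (by
      linarith [pi_gt_three])
    calc _ ≤ √(N : ℝ) * |G - ∑ i, A i| := by gcongr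
      _ ≤ _ := by linarith
  have := abs_add_three (√(N : ℝ) / π * G - √(N : ℝ) / π * ∑ i, A i)
    (√(N : ℝ) / π * ∑ i, A i - ∑ i, B i) (∑ i, B i)
  rw [show √(N : ℝ) / π * G - √(N : ℝ) / π * ∑ i, A i +
    (√(N : ℝ) / π * ∑ i, A i - ∑ i, B i) + ∑ i, B i = √(N : ℝ) / π * G by ring] at this
  linarith

end Crest.Agent.H0100
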