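import Crest.Agent.H0100.Smooth

/-! Final assembly for S0100. -/

set_option autoImplicit false

namespace Crest.Agent.H0100.Finalx

open Finset Real Crest.Agent.H0100 Crest.Agent.H0100.Smoothx

theorem normSq_eq {N : ℕ} (a : Fin N → ℝ) (θ : ℝ) :
    ‖∑ k : Fin N, (a k : ℂ) * ex ((k : ℕ) * θ)‖ ^ 2 =
      ∑ k : Fin N, ∑ l : Fin N, a k * a l * cos ((((k : ℕ) : ℤ) - ((l : ℕ) : ℤ) : ℤ) * θ) := by
  rw [← Complex.normSq_eq_norm_sq, ← Complex.ofReal_re (Complex.normSq _), ← Complex.mul_conj,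
    map_sum, sum_mul_sum, Complex.re_sum]
  refine sum_congr rfl fun k _ => ?_
  rw [Complex.re_sum]
  refine sum_congr rfl fun l _ => ?_
  rw [map_mul, Complex.conj_ofReal, conj_ex, mul_mul_mul_comm, ← ex_add, ← Complex.ofReal_mul,
    Complex.re_ofReal_mul, ex_re]
  congr 2; push_cast; ring

theorem parseval {N : ℕ} (a : Fin N → ℝ) :
    ∫ θ in (0 : ℝ)..π, ‖∑ k : Fin N, (a k : ℂ) * ex ((k : ℕ) * θ)‖ ^ 2 = π * ∑ k, a k ^ 2 := by
  simp only [normSq_eq]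
  rw [intervalIntegral.integral_finsetSum fun k _ =>
    Continuous.intervalIntegrable (by fun_prop) _ _, mul_sum]
  refine sum_congr rfl fun k _ => ?_
  rw [intervalIntegral.integral_finsetSum fun l _ =>
    Continuous.intervalIntegrable (by fun_prop) _ _, sum_eq_single k]
  · simp; ring
  · intro l _ hl
    rw [intervalIntegral.integral_const_mul, integral_cos_int _ (by
      have := Fin.val_ne_of_ne hl; omega), mul_zero]
  · intro h; exact absurd (mem_univ k) h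

theorem energy_ge {N : ℕ} (a : Fin N → ℝ) {b : ℝ} (hb : 0 ≤ b)
    (h : ∀ θ, b ≤ ‖∑ k : Fin N, (a k : ℂ) * ex ((k : ℕ) * θ)‖) : b ^ 2 ≤ ∑ k, a k ^ 2 := by
  have h1 : ∫ _θ in (0 : ℝ)..π, b ^ 2 ≤
      ∫ θ in (0 : ℝ)..π, ‖∑ k : Fin N, (a k : ℂ) * ex ((k : ℕ) * θ)‖ ^ 2 :=
    intervalIntegral.integral_mono_on pi_pos.le (by simp)
      (Continuous.intervalIntegrable (by fun_prop) _ _) fun θ _ => by
        have := h θ; gcongr
  rw [parseval] at h1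
  simp only [intervalIntegral.integral_const, sub_zero, smul_eq_mul] at h1
  exact le_of_mul_le_mul_left h1 pi_pos

end Crest.Agent.H0100.Finalx

namespace Crest.Agent.H0100

open Finset Real Finalx

theorem final (hR : Round) (hD : Design) (ε : ℝ) (hε : 0 < ε) (hε₁ : ε < 1) :
    ∃ N₀ : ℕ, ∀ N ≥ N₀, ∃ c : Fin N → ℤˣ, ∀ z : ℂ, ‖z‖ = 1 →
      (1 - ε) * Real.sqrt N ≤ ‖∑ k : Fin N, ((c k : ℤ) : ℂ) * z ^ (k : ℕ)‖ ∧
        ‖∑ k : Fin N, ((c k : ℤ) : ℂ) * z ^ (k : ℕ)‖ ≤ (1 + ε) * Real.sqrt N := by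
  obtain ⟨C, hC, hR⟩ := hR
  set e : ℝ := min (ε / 4) ((ε / (2 * C)) ^ 6 / 4) with he
  have he0 : 0 < e := lt_min (by positivity) (by positivity)
  have he1 : e ≤ ε / 4 := min_le_left _ _
  have he2 : C * (4 * e) ^ (1 / 6 : ℝ) ≤ ε / 2 := by
    have h1 : 4 * e ≤ (ε / (2 * C)) ^ 6 := by
      have := min_le_right (ε / 4) ((ε / (2 * C)) ^ 6 / 4); linarith
    have h2 : (4 * e) ^ (1 / 6 : ℝ) ≤ ((ε / (2 * C)) ^ 6) ^ (1 / 6 : ℝ) := by gcongr
    rw [show (1 / 6 : ℝ) = ((6 : ℕ) : ℝ)⁻¹ by norm_num,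
      Real.pow_rpow_inv_natCast (by positivity) (by norm_num)] at h2
    rw [show (1 / 6 : ℝ) = ((6 : ℕ) : ℝ)⁻¹ by norm_num]
    calc _ ≤ C * (ε / (2 * C)) := by gcongr
      _ = ε / 2 := by field_simp
  obtain ⟨δ, hδ, hD⟩ := hD e he0
  obtain ⟨R, hR0, N1, hS⟩ := smooth δ e hδ he0
  obtain ⟨N2, hD⟩ := hD R hR0
  refine ⟨max N1 N2, fun N hN => ?_⟩
  obtain ⟨Θ, hL, hB⟩ := hD N (le_of_max_le_right hN)
  obtain ⟨a, ha, hQ⟩ := hS N (le_of_max_le_left hN) Θ (1 + e) hL hB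
  have hs : 0 ≤ √(N : ℝ) := Real.sqrt_nonneg _
  have hE := energy_ge a (b := (1 - e) * √(N : ℝ)) (mul_nonneg (by linarith) hs) fun θ => by
    have := (abs_le.1 (hQ θ)).1; linarith
  rw [mul_pow, Real.sq_sqrt (Nat.cast_nonneg _)] at hE
  have h1e : 0 < 1 + e := by linarith
  obtain ⟨c, hc⟩ := hR N (4 * e) (fun k => a k / (1 + e)) (by positivity)
    (fun k => by rw [abs_div, abs_of_pos h1e, div_le_one h1e]; exact ha k) (by
      rw [sum_sub_distrib]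
      simp only [div_pow, ← sum_div, sum_const, card_univ, Fintype.card_fin, nsmul_eq_mul, mul_one]
      have : (1 - 4 * e) * N ≤ (∑ k, a k ^ 2) / (1 + e) ^ 2 := by
        rw [le_div_iff₀ (by positivity)]
        refine le_trans ?_ hE
        have hN : (0 : ℝ) ≤ N := Nat.cast_nonneg _
        have : (1 - 4 * e) * (1 + e) ^ 2 ≤ (1 - e) ^ 2 := by nlinarith [mul_pos he0 he0]
        nlinarith
      linarith)
  refine ⟨c, fun z hz => ?_⟩
  have hz' : z = ex (Complex.arg z) := by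
    have := Complex.norm_mul_exp_arg_mul_I z
    rw [hz] at this
    simpa [ex] using this.symm
  have e1 : ∑ k : Fin N, ((c k : ℤ) : ℂ) * z ^ (k : ℕ) =
      (((1 + e)⁻¹ : ℝ) : ℂ) * ∑ k : Fin N, (a k : ℂ) * ex ((k : ℕ) * Complex.arg z) +
      ∑ k : Fin N, ((((c k : ℤ) : ℝ) - a k / (1 + e) : ℝ) : ℂ) * ex ((k : ℕ) * Complex.arg z) := by
    rw [mul_sum, ← sum_add_distrib]
    refine sum_congr rfl fun k _ => ?_
    rw [ex_nat_mul, ← hz']
    push_cast; ring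
  have h3 := hc (Complex.arg z)
  have h4 := abs_le.1 (hQ (Complex.arg z))
  set Q := ∑ k : Fin N, (a k : ℂ) * ex ((k : ℕ) * Complex.arg z)
  set E := ∑ k : Fin N, ((((c k : ℤ) : ℝ) - a k / (1 + e) : ℝ) : ℂ) * ex ((k : ℕ) * Complex.arg z)
  have h5 : ‖E‖ ≤ ε / 2 * √(N : ℝ) := by
    refine h3.trans ?_
    rw [← mul_assoc]; gcongr
  have h6 : ‖(((1 + e)⁻¹ : ℝ) : ℂ) * Q‖ = ‖Q‖ / (1 + e) := by
    rw [norm_mul, Complex.norm_real, Real.norm_of_nonneg (by positivity), div_eq_inv_mul]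
  have h7 : ‖Q‖ / (1 + e) ≤ √(N : ℝ) := by rw [div_le_iff₀ h1e]; linarith [h4.2]
  have h8 : (1 - 2 * e) * √(N : ℝ) ≤ ‖Q‖ / (1 + e) := by
    rw [le_div_iff₀ h1e]
    have : (1 - 2 * e) * (1 + e) ≤ 1 - e := by nlinarith [mul_pos he0 he0]
    nlinarith [h4.1]
  rw [e1]
  constructor
  · have := norm_sub_norm_le ((((1 + e)⁻¹ : ℝ) : ℂ) * Q) (-E)
    rw [sub_neg_eq_add, norm_neg, h6] at this
    nlinarith
  · have := norm_add_le ((((1 + e)⁻¹ : ℝ) : ℂ) * Q) E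
    rw [h6] at this
    nlinarith

end Crest.Agent.H0100
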