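import Crest.Agent.H0100.Defs

/-! The damped square wave (job `Fs`). -/

set_option autoImplicit false

namespace Crest.Agent.H0100

open Finset Real MeasureTheory Filter Topology

namespace Fsx

theorem hs_congr {f g : ℕ → ℝ} {a : ℝ} (h : HasSum f a) (hg : ∀ j, g j = f j) :
    HasSum g a := funext hg ▸ h

theorem abs_arg_sub_le {z : ℂ} (hz : ‖z‖ < 1) : |(1 + z).arg - (1 - z).arg| ≤ π / 2 := by
  have h0 := abs_le.1 ((Complex.abs_re_le_norm z).trans hz.le)
  have h0' := abs_lt.1 ((Complex.abs_re_le_norm z).trans_lt hz)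
  have h1 : 0 < (1 + z).re := by simp; linarith [h0'.1]
  have h2 : 0 < (1 - z).re := by simp; linarith [h0'.2]
  have h3 := abs_lt.1 (Complex.abs_arg_lt_pi_div_two_iff.2 (Or.inl h1))
  have h4 := abs_lt.1 (Complex.abs_arg_lt_pi_div_two_iff.2 (Or.inl h2))
  have hpi := pi_pos
  have h5 : ((starRingEnd ℂ) (1 - z)).arg = -(1 - z).arg := by
    rw [Complex.arg_conj, if_neg (by linarith [h4.2])]
  have h6 := (Complex.arg_mul_eq_add_arg_iff (x := 1 + z) (y := (starRingEnd ℂ) (1 - z))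
    (fun h => by simp [h] at h1) (fun h => by
      rw [map_eq_zero] at h; simp [h] at h2)).2 (by
      rw [h5]; constructor <;> linarith [h3.1, h3.2, h4.1, h4.2])
  rw [h5, ← sub_eq_add_neg] at h6
  rw [← h6, Complex.abs_arg_le_pi_div_two_iff]
  have h7 : ‖z‖ ^ 2 ≤ 1 := pow_le_one₀ (norm_nonneg _) hz.le
  rw [Complex.sq_norm, Complex.normSq_apply] at h7
  simp
  linarith

theorem hasSum_abel {t : ℝ} (ht : 0 < t) (x : ℝ) : ∃ A : ℝ, |A| ≤ π / 4 ∧
    HasSum (fun j : ℕ => if Odd j then exp (-(j * t)) * (sin (j * x) / j) else 0) A := by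
  set z : ℂ := (exp (-t) : ℝ) * ex x with hz
  have h1 : ‖z‖ < 1 := by
    rw [hz, norm_mul, norm_ex, mul_one, Complex.norm_real, Real.norm_of_nonneg (exp_pos _).le]
    exact exp_lt_one_iff.2 (by linarith)
  have h2 := Complex.hasSum_im
    ((Complex.hasSum_taylorSeries_log h1).add (Complex.hasSum_taylorSeries_neg_log h1))
  refine ⟨_, ?_, by
    refine hs_congr (h2.div_const 2) ?_
    intro j
    have h3 : (z ^ j / j).im = exp (-(j * t)) * (sin (j * x) / j) := by
      rw [Complex.div_natCast_im, hz, mul_pow, ← ex_nat_mul, ← Complex.ofReal_pow,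
        Complex.im_ofReal_mul, ex_im, ← exp_nat_mul, mul_div_assoc, mul_neg]
    split_ifs with hj
    · rw [(hj.add_one).neg_one_pow, one_mul, Complex.add_im, h3]; ring
    · rw [((Nat.not_odd_iff_even.1 hj).add_one).neg_one_pow]
      simp [neg_div]⟩
  have := abs_arg_sub_le h1
  rw [Complex.add_im, Complex.neg_im, Complex.log_im, Complex.log_im, abs_div, abs_two,
    ← sub_eq_add_neg]
  linarith

theorem abel_le {t c : ℝ} (ht : 0 < t) (hc : 0 ≤ c) (hc1 : c ≤ 1) (x : ℝ) :
    |∑' j : ℕ, if Odd j then exp (-(j * t)) * (sin (j * x) / j) else 0| ≤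
      π / 4 * exp (2 * c) * exp (-(c * t)) := by
  obtain ⟨A, hA, h⟩ := hasSum_abel ht x
  have hpi := pi_pos
  rw [h.tsum_eq, mul_assoc, ← exp_add]
  by_cases h2 : t ≤ 2
  · exact hA.trans (le_mul_of_one_le_right (by positivity) (one_le_exp (by nlinarith)))
  have h3 : exp (-2) ≤ 1 / 3 := by
    rw [exp_neg, one_div]
    exact inv_anti₀ (by norm_num) (by linarith [add_one_le_exp 2])
  have h4 : exp (-t) ≤ 1 / 3 := (exp_le_exp.2 (by linarith)).trans h3
  have h0 := exp_pos (-t)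
  have h5 := (hasSum_geometric_of_lt_one h0.le (by linarith)).sub (hasSum_ite_eq 0 (1 : ℝ))
  have h6 : ‖A‖ ≤ (1 - exp (-t))⁻¹ - 1 := h.norm_le_of_bounded h5 fun j => by
    rw [← exp_nat_mul, mul_neg]
    split_ifs with hj hj0 hj0
    · simp [hj0] at hj
    · rw [sub_zero, norm_mul, Real.norm_of_nonneg (exp_pos _).le]
      refine mul_le_of_le_one_right (exp_pos _).le ?_
      have : (1 : ℝ) ≤ j := by exact_mod_cast Nat.pos_of_ne_zero hj0
      rw [norm_div, Real.norm_natCast, div_le_one (by linarith)]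
      exact (abs_sin_le_one _).trans this
    · simp [hj0]
    · simpa using (exp_pos _).le
  have h7 : (1 - exp (-t))⁻¹ - 1 ≤ 3 / 2 * exp (-t) := by
    rw [sub_le_iff_le_add, inv_le_iff_one_le_mul₀ (by linarith)]
    nlinarith
  have h8 : exp (-t) ≤ 1 / 3 * exp (2 * c + -(c * t)) := by
    calc exp (-t) = exp (-2) * exp (2 - t) := by rw [← exp_add]; congr 1; ring
      _ ≤ _ := by gcongr; nlinarith
  have h9 := exp_pos (2 * c + -(c * t))
  have := h6.trans h7
  rw [Real.norm_eq_abs] at this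
  nlinarith [pi_gt_three]

theorem integrable_gam {s r : ℝ} (hs : 0 < s) (hr : 0 < r) :
    IntegrableOn (fun t : ℝ => t ^ (s - 1) * exp (-(r * t))) (Set.Ioi 0) := by
  simpa using integrableOn_rpow_mul_exp_neg_mul_rpow (s := s - 1) (p := 1) (by linarith) one_pos hr

theorem summable_pow {s : ℝ} (hs : 0 < s) : Summable fun j : ℕ => (j : ℝ) ^ (-1 - s) :=
  summable_nat_rpow.2 (by linarith)

theorem series_le {s c : ℝ} (hs : 0 < s) (hc : 0 < c) (hc1 : c ≤ 1) (x : ℝ) :
    |∑' j : ℕ, if Odd j then (j : ℝ) ^ (-1 - s) * sin (j * x) else 0| ≤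
      π / 4 * exp (2 * c) * (1 / c) ^ s := by
  have hG := Gamma_pos_of_pos hs
  set F : ℕ → ℝ → ℝ := fun j t =>
    t ^ (s - 1) * if Odd j then exp (-(j * t)) * (sin (j * x) / j) else 0 with hF
  have h1 : ∀ j, Integrable (F j) (volume.restrict (Set.Ioi 0)) := fun j => by
    by_cases hj : Odd j
    · simpa only [hF, if_pos hj, mul_assoc] using
        (integrable_gam hs (r := j) (by exact_mod_cast hj.pos)).mul_const (sin (j * x) / j)
    · simp [hF, hj]
  have h2 : ∀ j : ℕ, Odd j → ∀ a : ℝ, ∫ t in Set.Ioi 0, t ^ (s - 1) * (exp (-(j * t)) * (a / j)) =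
      Gamma s * ((j : ℝ) ^ (-1 - s) * a) := fun j hj a => by
    have h0 : (0 : ℝ) < j := by exact_mod_cast hj.pos
    simp only [← mul_assoc]
    rw [integral_mul_const, integral_rpow_mul_exp_neg_mul_Ioi hs h0, rpow_sub h0, rpow_neg_one,
      one_div, inv_rpow h0.le]
    ring
  have h3 := hasSum_integral_of_summable_integral_norm h1 (by
    refine Summable.of_nonneg_of_le (fun j => integral_nonneg fun _ => norm_nonneg _) (fun j => ?_)
      ((summable_pow hs).mul_left (Gamma s))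
    by_cases hj : Odd j
    · have h4 : ∫ t in Set.Ioi 0, ‖F j t‖ =
          ∫ t in Set.Ioi 0, t ^ (s - 1) * (exp (-(j * t)) * (|sin (j * x)| / j)) := by
        refine setIntegral_congr_fun measurableSet_Ioi fun t ht => ?_
        simp only [hF, if_pos hj, norm_mul, norm_div, Real.norm_eq_abs, Nat.abs_cast,
          abs_of_pos (exp_pos _), abs_of_pos (rpow_pos_of_pos ht _)]
      rw [h4, h2 j hj]
      gcongr
      exact mul_le_of_le_one_right (by positivity) (abs_sin_le_one _)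
    · simp only [hF, if_neg hj, mul_zero, norm_zero, integral_zero]
      positivity)
  have h4 : (fun j => ∫ t in Set.Ioi 0, F j t) =
      fun j : ℕ => Gamma s * if Odd j then (j : ℝ) ^ (-1 - s) * sin (j * x) else 0 := by
    funext j
    by_cases hj : Odd j
    · simp only [hF, if_pos hj, h2 j hj]
    · simp [hF, hj]
  have h5 := h3.tsum_eq
  rw [h4, tsum_mul_left] at h5
  refine le_of_mul_le_mul_left ?_ hG
  rw [← abs_of_pos hG, ← abs_mul, h5, abs_of_pos hG, ← Real.norm_eq_abs]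
  refine (norm_integral_le_of_norm_le ((integrable_gam hs hc).const_mul (π / 4 * exp (2 * c)))
    ?_).trans (le_of_eq ?_)
  · filter_upwards [ae_restrict_mem measurableSet_Ioi] with t ht
    simp only [hF]
    rw [tsum_mul_left, norm_mul, Real.norm_of_nonneg (rpow_pos_of_pos ht _).le, mul_left_comm]
    exact mul_le_mul_of_nonneg_left (abel_le ht hc.le hc1 x) (rpow_pos_of_pos ht _).le
  · rw [integral_const_mul, integral_rpow_mul_exp_neg_mul_Ioi hs hc]; ring

theorem hasSum_odd : HasSum (fun j : ℕ => if Odd j then 1 / (j : ℝ) ^ 2 else 0) (π ^ 2 / 8) := by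
  have h1 : HasSum (fun j : ℕ => if Odd j then 0 else 1 / (j : ℝ) ^ 2) (π ^ 2 / 6 / 4) := by
    rw [← (mul_right_injective₀ (two_ne_zero' ℕ)).hasSum_iff]
    · refine hs_congr (hasSum_zeta_two.div_const 4) ?_
      intro j
      simp only [Function.comp, Nat.odd_iff]
      norm_num
      ring
    · intro j hj
      rw [if_pos]
      rw [← Nat.not_even_iff_odd]
      rintro ⟨c, rfl⟩
      exact hj ⟨c, two_mul c⟩
  rw [show π ^ 2 / 8 = π ^ 2 / 6 - π ^ 2 / 6 / 4 by ring]
  refine hs_congr (hasSum_zeta_two.sub h1) fun j => ?_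
  split_ifs <;> simp

end Fsx

open Fsx in
theorem fs : Fs := by
  intro ε hε
  have hpi := pi_pos
  obtain ⟨c, ⟨hc2, hc1⟩, hc⟩ : ∃ c : ℝ, (exp (2 * c) < 1 + ε ∧ c < 1) ∧ 0 < c :=
    ((((show ContinuousAt (fun c : ℝ => exp (2 * c)) 0 by fun_prop).eventually_lt
      continuousAt_const (by simpa using hε)).and (gt_mem_nhds one_pos)).filter_mono
      nhdsWithin_le_nhds |>.and (self_mem_nhdsWithin (s := Set.Ioi (0 : ℝ)))).exists
  obtain ⟨s1, hs1⟩ := ((tendsto_order.1 hasSum_odd).1 (π ^ 2 / 8 * (1 - ε))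
    (by nlinarith [sq_pos_of_pos hpi])).exists
  have ha : ContinuousAt (fun s : ℝ => ∑ j ∈ s1.filter Odd, (j : ℝ) ^ (-2 - 2 * s)) 0 := by
    refine tendsto_finsetSum _ fun j hj => ?_
    have : (j : ℝ) ≠ 0 := by exact_mod_cast (mem_filter.1 hj).2.pos.ne'
    exact (continuousAt_const_rpow this).comp (f := fun s : ℝ => -2 - 2 * s) (by fun_prop)
  have hb : ContinuousAt (fun s : ℝ => exp (2 * c) * (1 / c) ^ s) 0 :=
    continuousAt_const.mul (continuousAt_const_rpow (by positivity))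
  obtain ⟨s, ⟨⟨h1, h2⟩, hs1'⟩, hs⟩ : ∃ s : ℝ, ((π ^ 2 / 8 * (1 - ε) <
      ∑ j ∈ s1.filter Odd, (j : ℝ) ^ (-2 - 2 * s) ∧ exp (2 * c) * (1 / c) ^ s < 1 + ε) ∧ s < 1) ∧
      0 < s :=
    ((((continuousAt_const.eventually_lt ha (by
      rw [sum_filter]
      convert hs1 using 3 with j
      norm_num)).and (hb.eventually_lt continuousAt_const (by simpa using hc2))).and
      (gt_mem_nhds one_pos)).filter_mono nhdsWithin_le_nhds |>.and
      (self_mem_nhdsWithin (s := Set.Ioi (0 : ℝ)))).exists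
  have hu := tendstoUniformly_tsum (f := fun (j : ℕ) (x : ℝ) =>
    if Odd j then (j : ℝ) ^ (-1 - s) * sin (j * x) else 0) (summable_pow hs) fun j x => by
      split_ifs
      · rw [norm_mul, Real.norm_of_nonneg (by positivity)]
        exact mul_le_of_le_one_right (by positivity) (abs_sin_le_one _)
      · rw [norm_zero]; positivity
  obtain ⟨s0, hs0⟩ := eventually_atTop.1 (Metric.tendstoUniformly_iff.1 hu
    (π / 4 * (1 + ε - exp (2 * c) * (1 / c) ^ s)) (by have := sub_pos.2 h2; positivity))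
  set M := ∏ j ∈ (s0 ∪ s1).filter Odd, j with hM
  have hM1 : Odd M := by
    rw [hM]
    exact prod_induction _ Odd (fun _ _ => Odd.mul) odd_one fun j hj => (mem_filter.1 hj).2
  have hM2 : ∀ j ∈ s0 ∪ s1, Odd j → j ∈ M.divisors := fun j h3 h4 =>
    Nat.mem_divisors.2 ⟨dvd_prod_of_mem _ (mem_filter.2 ⟨h3, h4⟩), hM1.pos.ne'⟩
  refine ⟨s, M, hs, hs1'.le, hM1, fun x => ?_, h1.le.trans (sum_le_sum_of_subset_of_nonneg
    (fun j hj => hM2 j (mem_union_right _ (mem_filter.1 hj).1) (mem_filter.1 hj).2)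
    fun j _ _ => by positivity)⟩
  have h3 := hs0 (s0 ∪ M.divisors) subset_union_left x
  have h4 : ∑ j ∈ s0 ∪ M.divisors, (if Odd j then (j : ℝ) ^ (-1 - s) * sin (j * x) else 0) =
      ∑ j ∈ M.divisors, (j : ℝ) ^ (-1 - s) * sin (j * x) := by
    rw [← sum_subset subset_union_right]
    · exact sum_congr rfl fun j hj => if_pos (hM1.of_dvd_nat (Nat.dvd_of_mem_divisors hj))
    · intro j h5 h6
      exact if_neg fun h7 => h6 (hM2 j (mem_union_left _ ((mem_union.1 h5).resolve_right h6)) h7)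
  rw [h4, Real.dist_eq] at h3
  have h5 := series_le hs hc hc1.le x
  have h6 := abs_sub_abs_le_abs_sub (∑ j ∈ M.divisors, (j : ℝ) ^ (-1 - s) * sin (j * x))
    (∑' j : ℕ, if Odd j then (j : ℝ) ^ (-1 - s) * sin (j * x) else 0)
  rw [abs_sub_comm] at h6
  linarith

end Crest.Agent.H0100
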