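import Crest.Agent.H0100.GlueB

/-! Gluing prescribed chirps on disjoint arcs into one phase function. -/

set_option autoImplicit false

namespace Crest.Agent.H0100

open Finset Real Gluex

theorem glue (hV1 : VdC1) (hV2 : VdC2) : Glue := by
  refine ⟨90, by norm_num, ?_⟩
  intro I _ _ P c j δ ε η T hP hj hin hdis hδ hδ4 hε hcov hη hη1 hT hTr R ρ hR hρ
  obtain ⟨p, rfl⟩ := hP
  choose g hg using hj
  obtain rfl : j = fun i => 2 * g i + 1 := funext hg
  clear hg
  beta_reduce at hin hdis hcov hTr ⊢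
  have g1 : ∀ i, g i < c i := fun i => by have := (hin i).1; omega
  have g2 : ∀ i, c i + g i ≤ p := fun i => by have := (hin i).2; omega
  have g3 : ∀ i i', i ≠ i' → c i + g i + g i' + 1 ≤ c i' ∨ c i' + g i + g i' + 1 ≤ c i :=
    fun i i' h => by have := hdis i i' h; omega
  have hP0 : (0 : ℝ) < ((2 * p + 1 : ℕ) : ℝ) := by positivity
  set h : ℝ := π / ((2 * p + 1 : ℕ) : ℝ) with hh
  have h0 : 0 < h := by positivity
  have hπ : aa h (p + 1) = π := by rw [aa, hh]; push_cast; field_simp; ring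
  have hw : 2 * π / ((2 * p + 1 : ℕ) : ℝ) = 2 * h := by rw [hh]; ring
  simp only [hw] at hTr ⊢
  set J := Junk p c g with hJ
  have hJ1 : ∀ x ∈ J, 1 ≤ x ∧ x ≤ p ∧ ∀ i, x < c i - g i ∨ c i + g i + 1 ≤ x := by
    intro x hx
    simp only [hJ, Junk, Bl, mem_filter, mem_Ico, not_and, not_lt] at hx
    refine ⟨hx.1.1, by omega, fun i => ?_⟩
    have := hx.2 i; omega
  have hJm : h + J.card * (2 * h) ≤ ε * π := by
    have := sum_split g1 g2 g3 (fun _ => (1 : ℝ))
    simp only [sum_const, Bl, Nat.card_Ico, nsmul_eq_mul, mul_one] at this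
    have e : ∑ i, ((c i + g i + 1 - (c i - g i) : ℕ) : ℝ) = ∑ i, ((2 * g i + 1 : ℕ) : ℝ) :=
      sum_congr rfl fun i _ => by have := g1 i; congr 1; omega
    rw [e, ← hJ, Nat.add_sub_cancel] at this
    have e2 : π = ((2 * p + 1 : ℕ) : ℝ) * h := by rw [hh]; field_simp
    rw [e2, ← mul_assoc ε, show h + J.card * (2 * h) = (1 + 2 * J.card) * h by ring]
    refine mul_le_mul_of_nonneg_right ?_ h0.le
    push_cast at this hcov ⊢
    linarith
  set L : I → ℝ := fun i => aa h (c i - g i) with hL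
  set Rr : I → ℝ := fun i => aa h (c i + g i + 1) with hRr
  set ζ : I → ℝ := fun i => η * ((2 * g i + 1 : ℕ) : ℝ) * h with hζ
  have hζ0 : ∀ i, 0 < ζ i := fun i => by positivity
  have hLe : ∀ i, L i + ζ i = c i * (2 * h) - (1 - η) * ((2 * g i + 1 : ℕ) : ℝ) * h := fun i => by
    simp only [hL, hζ, aa]; rw [Nat.cast_sub (g1 i).le]; push_cast; ring
  have hRe : ∀ i, Rr i - ζ i = c i * (2 * h) + (1 - η) * ((2 * g i + 1 : ℕ) : ℝ) * h := fun i => by
    simp only [hRr, hζ, aa]; push_cast; ring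
  have harc0 : ∀ i, 0 ≤ (1 - η) * ((2 * g i + 1 : ℕ) : ℝ) * h := fun i => by
    have : 0 < 1 - η := by linarith
    positivity
  have hLR : ∀ i, L i + ζ i ≤ Rr i - ζ i := fun i => by
    rw [hLe, hRe]; linarith [harc0 i]
  have hLh : ∀ i, h ≤ L i := fun i =>
    (aa_one h).symm.le.trans (aa_mono h0 (by have := g1 i; omega))
  have hRπ : ∀ i, Rr i ≤ π := fun i => hπ ▸ aa_mono h0 (by have := g2 i; omega)
  have hζπ : ∀ i, ζ i ≤ η * (π / 2) := fun i => by
    simp only [hζ]
    rw [mul_assoc]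
    refine mul_le_mul_of_nonneg_left ?_ hη.le
    have : ((2 * g i + 1 : ℕ) : ℝ) * 2 ≤ ((2 * p + 1 : ℕ) : ℝ) := by
      have := g1 i; have := g2 i
      exact_mod_cast (by omega : (2 * g i + 1) * 2 ≤ 2 * p + 1)
    rw [hh, ← mul_div_assoc, div_le_div_iff₀ hP0 two_pos]
    nlinarith [pi_pos]
  have hsep : ∀ i i', i' ≠ i → Rr i ≤ L i' ∨ Rr i' ≤ L i := fun i i' hne => by
    rcases g3 i i' hne.symm with h1 | h1
    · exact Or.inl (aa_mono h0 (by omega))
    · exact Or.inr (aa_mono h0 (by omega))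
  set tr : I → ℝ → ℝ := fun i => trap (L i) (Rr i) (ζ i) with htr
  have tr_out : ∀ i u, (u ≤ L i ∨ Rr i ≤ u) → tr i u = 0 := fun i u hu =>
    trap_out (hζ0 i) (hLR i) hu
  have tr_blk : ∀ i, ∀ u ∈ Set.Icc (L i) (Rr i), ∀ i', i' ≠ i → tr i' u = 0 := by
    intro i u hu i' hne
    refine tr_out i' u ?_
    rcases hsep i i' hne with h1 | h1
    · exact Or.inl (hu.2.trans h1)
    · exact Or.inr (h1.trans hu.1)
  have tr_junk : ∀ x ∈ J, ∀ u ∈ Set.Icc (aa h x) (aa h (x + 1)), ∀ i, tr i u = 0 := by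
    intro x hx u hu i
    refine tr_out i u ?_
    rcases (hJ1 x hx).2.2 i with h1 | h1
    · exact Or.inl (hu.2.trans (aa_mono h0 h1))
    · exact Or.inr ((aa_mono h0 h1).trans hu.1)
  set β1 : ℝ := δ / (2 * π) with hβ1
  set β2 : ℝ := δ / (2 * ε * π) with hβ2
  have hβ10 : 0 < β1 := by positivity
  have hβ20 : 0 < β2 := by positivity
  set τ : ℝ → ℝ := fun u => δ + β1 * u + β2 * jm h J u with hτ
  have hτc : Continuous τ := by rw [hτ]; fun_prop
  have hτr : ∀ u ∈ Set.Icc 0 π, δ ≤ τ u ∧ τ u ≤ 2 * δ := by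
    intro u hu
    have a1 := mul_nonneg hβ10.le hu.1
    have a2 := mul_nonneg hβ20.le (jm_nonneg h J u)
    have a3 : β1 * u ≤ δ / 2 := by
      calc _ ≤ β1 * π := by gcongr; exact hu.2
        _ = δ / 2 := by rw [hβ1]; field_simp
    have a4 : β2 * jm h J u ≤ δ / 2 := by
      calc _ ≤ β2 * (ε * π) := by gcongr; exact (jm_le h0 J u).trans hJm
        _ = δ / 2 := by rw [hβ2]; field_simp
    simp only [hτ]
    constructor <;> linarith
  set Tc : I → ℝ → ℝ := fun i u => T i (cl (L i + ζ i) (Rr i - ζ i) u) with hTc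
  have hTcr : ∀ i u, 3 * δ ≤ Tc i u ∧ Tc i u ≤ 1 - δ := fun i u => by
    refine hTr i _ (abs_le.2 ⟨?_, ?_⟩)
    · have := le_cl (L i + ζ i) (Rr i - ζ i) u; rw [hLe] at this ⊢; linarith
    · have := cl_le (hLR i) u; rw [hRe] at this ⊢; linarith
  set T0 : ℝ → ℝ := fun u => τ u + ∑ i, tr i u * (Tc i u - τ u) with hT0
  have hT0c : Continuous T0 := by
    simp only [hT0, htr, hTc]
    refine hτc.add (continuous_finsetSum _ fun i _ => ?_)
    have := hT i
    fun_prop
  have T0_blk : ∀ i, ∀ u ∈ Set.Icc (L i) (Rr i), T0 u = τ u + tr i u * (Tc i u - τ u) := by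
    intro i u hu
    simp only [hT0]
    rw [sum_single_of_zero i fun i' hne => by rw [tr_blk i u hu i' hne, zero_mul]]
  have T0_out : ∀ u, (∀ i, tr i u = 0) → T0 u = τ u := fun u hu => by simp [hT0, hu]
  have hT0r : ∀ u ∈ Set.Icc 0 π, δ ≤ T0 u ∧ T0 u ≤ 1 - δ := by
    intro u hu
    have a1 := hτr u hu
    by_cases hb : ∃ i, u ∈ Set.Icc (L i) (Rr i)
    · obtain ⟨i, hi⟩ := hb
      rw [T0_blk i u hi]
      have a2 := hTcr i u
      have a3 : 0 ≤ tr i u ∧ tr i u ≤ 1 := trap_mem (hζ0 i) (hLR i) u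
      constructor <;> nlinarith [a1.1, a1.2, a2.1, a2.2, a3.1, a3.2]
    · rw [T0_out u fun i => tr_out i u (by
        by_contra hc
        push Not at hc
        exact hb ⟨i, hc.1.le, hc.2.le⟩)]
      constructor <;> linarith [a1.1, a1.2]
  obtain ⟨N1, hN1⟩ := loc_aux (r := fun u => cl 0 1 (u / h)) (t := tr) hT0c (by fun_prop)
    (fun i => continuous_trap _ _ _) hδ hR hT0r
  set μ : ℝ := β1 * h with hμ
  have hμ0 : 0 < μ := by positivity
  refine ⟨max N1 (⌈(4 * p / (μ * ρ)) ^ 2⌉₊ + 1), fun N hN φ => ?_⟩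
  have hN0 : (0 : ℝ) < N := by
    have : 0 < N := lt_of_lt_of_le (Nat.succ_pos _) (le_of_max_le_right hN)
    exact_mod_cast this
  have hs0 : 0 < √(N : ℝ) := Real.sqrt_pos.2 hN0
  have hNρ : 4 * p / (μ * ρ) ≤ √(N : ℝ) := by
    refine Real.le_sqrt_of_sq_le ((Nat.le_ceil _).trans ?_)
    exact_mod_cast (Nat.le_succ _).trans (le_of_max_le_right hN)
  set s0 : ℝ := toIcoMod pi_pos 0 (-(N * ∫ x in (0 : ℝ)..π, T0 x)) with hs0d
  set s : I → ℝ := fun i =>
    toIcoMod two_pi_pos 0 (φ i - N * (∫ x in (0 : ℝ)..(c i * (2 * h)), T0 x) - s0) with hsd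
  set σ : ℝ → ℝ := fun u => s0 * cl 0 1 (u / h) + ∑ i, s i * tr i u with hσ
  have hσc : Continuous σ := by simp only [hσ, htr]; fun_prop
  have hprim : Continuous fun u => ∫ x in (0 : ℝ)..u, T0 x :=
    intervalIntegral.continuous_primitive (fun a b => hT0c.intervalIntegrable a b) 0
  have ramp1 : ∀ u, h ≤ u → cl 0 1 (u / h) = 1 := fun u hu =>
    cl_of_ge zero_le_one ((one_le_div h0).2 hu)
  have σ_blk : ∀ i, ∀ u ∈ Set.Icc (L i) (Rr i), σ u = s0 + s i * tr i u := by
    intro i u hu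
    simp only [hσ]
    rw [sum_single_of_zero i fun i' hne => by rw [tr_blk i u hu i' hne, mul_zero],
      ramp1 u ((hLh i).trans hu.1), mul_one]
  refine ⟨fun u => N * (∫ x in (0 : ℝ)..u, T0 x) + σ u, ⟨by fun_prop, ?_, ?_, ?_⟩, fun k => ?_⟩
  · have : σ 0 = 0 := by
      simp only [hσ, zero_div, cl_of_le le_rfl, mul_zero, zero_add]
      exact sum_eq_zero fun i _ => by rw [tr_out i 0 (Or.inl (h0.le.trans (hLh i))), mul_zero]
    simp [this]
  · have : σ π = s0 := by
      simp only [hσ]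
      rw [ramp1 π (hπ ▸ (aa_one h).symm.le.trans (aa_mono h0 (by omega))), mul_one,
        sum_eq_zero fun i _ => by rw [tr_out i π (Or.inr (hRπ i)), mul_zero], add_zero]
    simp only [this]
    have e := toIcoMod_add_toIcoDiv_zsmul pi_pos 0 (-(N * ∫ x in (0 : ℝ)..π, T0 x))
    rw [← hs0d, zsmul_eq_mul] at e
    rw [show N * (∫ x in (0 : ℝ)..π, T0 x) + s0 =
      ((-toIcoDiv pi_pos 0 (-(N * ∫ x in (0 : ℝ)..π, T0 x)) : ℤ) : ℝ) * π by
        push_cast; linarith, Real.sin_int_mul_pi]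
  · refine hN1 N (le_of_max_le_left hN) s0 s ?_ fun i => ?_
    · have := toIcoMod_mem_Ico pi_pos 0 (-(N * ∫ x in (0 : ℝ)..π, T0 x))
      rw [← hs0d] at this
      rw [abs_of_nonneg this.1]; linarith [this.2, pi_pos]
    · have := toIcoMod_mem_Ico two_pi_pos 0
        (φ i - N * (∫ x in (0 : ℝ)..(c i * (2 * h)), T0 x) - s0)
      simp only [hsd]
      rw [abs_of_nonneg this.1]; linarith [this.2]
  set F : ℝ → ℝ := fun u => cos (N * (∫ x in (0 : ℝ)..u, T0 x) + σ u - k * u) with hF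
  have hFi : ∀ a b, IntervalIntegrable F MeasureTheory.volume a b := fun a b =>
    Continuous.intervalIntegrable (by rw [hF]; fun_prop) _ _
  -- decomposition
  have dec : ∫ u in (0 : ℝ)..π, F u = (∫ u in (0 : ℝ)..h, F u) +
      (∑ x ∈ J, (∫ u in aa h x..aa h (x + 1), F u) + ∑ i, ∫ u in L i..Rr i, F u) := by
    have e1 := sum_split g1 g2 g3 (fun x => ∫ u in aa h x..aa h (x + 1), F u)
    rw [intervalIntegral.sum_integral_adjacent_intervals_Ico (by omega) fun _ _ => hFi _ _,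
      aa_one, hπ] at e1
    rw [← intervalIntegral.integral_add_adjacent_intervals (hFi 0 h) (hFi h π), e1]
    congr 2
    refine sum_congr rfl fun i _ => ?_
    exact intervalIntegral.sum_integral_adjacent_intervals_Ico (by omega) fun _ _ => hFi _ _
  have hq : 0 ≤ √(ε / δ) := Real.sqrt_nonneg _
  have slopeJ : δ / (3 ^ 2 * ε) ≤ β1 + β2 := by
    have : δ / (3 ^ 2 * ε) ≤ β2 := by
      rw [hβ2]
      refine div_le_div_of_nonneg_left hδ.le (by positivity) ?_
      nlinarith [pi_lt_four]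
    linarith
  have dlin : ∀ A B x : ℝ, HasDerivAt (fun u => A + B * u) B x := fun A B x =>
    (((hasDerivAt_id x).const_mul B).const_add A).congr_deriv (mul_one _)
  -- the half cell
  have b1 : √(N : ℝ) * |∫ u in (0 : ℝ)..h, F u| ≤ 10 * 3 * √(ε / δ) := by
    refine piece2 hV2 hT0c (g := fun u => δ + (β1 + β2) * u) (g1 := fun _ => β1 + β2)
      (dlin _ _) continuous_const k h0.le (s0 := 0) (s1 := s0 / h) ?_ ?_ hN0 (by norm_num) hε hδ
      (Or.inl fun _ _ => slopeJ)
    · intro u hu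
      rw [T0_out u fun i => tr_out i u (Or.inl (hu.2.trans (hLh i)))]
      simp only [hτ]
      rw [jm_half h0 (fun x hx => (hJ1 x hx).1) hu]; ring
    · intro u hu
      simp only [hσ]
      rw [sum_eq_zero fun i _ => by rw [tr_out i u (Or.inl (hu.2.trans (hLh i))), mul_zero],
        cl_of_mem (div_nonneg hu.1 h0.le) ((div_le_one h0).2 hu.2)]
      ring
  -- junk cells
  have T0_junk : ∀ x ∈ J, ∀ u ∈ Set.Icc (aa h x) (aa h (x + 1)),
      T0 u = (δ + β2 * (jm h J (aa h x) - aa h x)) + (β1 + β2) * u := by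
    intro x hx u hu
    rw [T0_out u (tr_junk x hx u hu)]
    simp only [hτ]
    rw [jm_cell h0 hx (hJ1 x hx).1 hu]; ring
  have σ_junk : ∀ x ∈ J, ∀ u ∈ Set.Icc (aa h x) (aa h (x + 1)), σ u = s0 := by
    intro x hx u hu
    simp only [hσ]
    rw [sum_eq_zero fun i _ => by rw [tr_junk x hx u hu i, mul_zero],
      ramp1 u (((aa_one h).symm.le.trans (aa_mono h0 (hJ1 x hx).1)).trans hu.1)]
    ring
  have b2 : √(N : ℝ) * |∑ x ∈ J, ∫ u in aa h x..aa h (x + 1), F u| ≤ 60 * √(ε / δ) + ρ := by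
    classical
    set near : ℕ → Prop := fun x =>
      ∃ u ∈ Set.Icc (aa h x) (aa h (x + 1)), |N * T0 u - k| < N * μ with hnear
    have hc : (J.filter near).card ≤ 2 := by
      refine card_le_two fun x hx y hy => ?_
      by_contra hxy
      obtain ⟨hx1, u, hu, hu'⟩ := mem_filter.1 hx
      obtain ⟨hy1, v, hv, hv'⟩ := mem_filter.1 hy
      rw [T0_out u (tr_junk x hx1 u hu)] at hu'
      rw [T0_out v (tr_junk y hy1 v hv)] at hv'
      have a1 : aa h (x + 1 + 1) ≤ aa h y := aa_mono h0 (by omega)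
      rw [aa_succ] at a1
      have a2 : u + 2 * h ≤ v := by linarith [hu.2, hv.1]
      have a3 := mul_le_mul_of_nonneg_left (jm_mono h J (show u ≤ v by linarith)) hβ20.le
      have a4 : τ u + 2 * μ ≤ τ v := by
        simp only [hτ, hμ]
        nlinarith
      rw [abs_lt] at hu' hv'
      nlinarith [hu'.1, hv'.2]
    have c1 : ∀ x ∈ J, √(N : ℝ) * |∫ u in aa h x..aa h (x + 1), F u| ≤
        (if near x then 10 * 3 * √(ε / δ) else 0) + √(N : ℝ) * (4 / (N * μ)) := by
      intro x hx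
      split_ifs with hn
      · refine le_trans ?_ (le_add_of_nonneg_right (by positivity))
        exact piece2 hV2 hT0c (g1 := fun _ => β1 + β2) (dlin _ _) continuous_const k
          (aa_mono h0 (Nat.le_succ x)) (s0 := s0) (s1 := 0) (T0_junk x hx)
          (fun u hu => by rw [σ_junk x hx u hu]; ring) hN0 (by norm_num) hε hδ
          (Or.inl fun _ _ => slopeJ)
      · rw [zero_add]
        refine mul_le_mul_of_nonneg_left ?_ hs0.le
        refine piece1 hV1 hT0c k (aa_mono h0 (Nat.le_succ x)) (T0_junk x hx) (σ_junk x hx) hN0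
          (by positivity) (by positivity) fun u hu => ?_
        by_contra hlt
        exact hn ⟨u, hu, not_le.1 hlt⟩
    have c2 : (J.card : ℝ) ≤ p := by
      have : J.card ≤ p := by
        refine (card_filter_le _ _).trans ?_
        simp
      exact_mod_cast this
    calc _ ≤ √(N : ℝ) * ∑ x ∈ J, |∫ u in aa h x..aa h (x + 1), F u| := by
          gcongr; exact abs_sum_le_sum_abs _ _
      _ ≤ ∑ x ∈ J, ((if near x then 10 * 3 * √(ε / δ) else 0) + √(N : ℝ) * (4 / (N * μ))) := by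
          rw [mul_sum]; exact sum_le_sum c1
      _ = (J.filter near).card * (10 * 3 * √(ε / δ)) + J.card * (√(N : ℝ) * (4 / (N * μ))) := by
          rw [sum_add_distrib, ← sum_filter, sum_const, sum_const, nsmul_eq_mul, nsmul_eq_mul]
      _ ≤ 2 * (10 * 3 * √(ε / δ)) + p * (√(N : ℝ) * (4 / (N * μ))) := by
          gcongr; exact_mod_cast hc
      _ ≤ _ := by
          have e : √(N : ℝ) * √(N : ℝ) = N := Real.mul_self_sqrt hN0.le
          have : p * (√(N : ℝ) * (4 / (N * μ))) = 4 * p / (μ * ρ) * ρ / √(N : ℝ) := by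
            rw [eq_div_iff hs0.ne']
            calc _ = p * ((√(N : ℝ) * √(N : ℝ)) * (4 / (N * μ))) := by ring
              _ = _ := by rw [e]; field_simp
          have h2 : 4 * p / (μ * ρ) * ρ / √(N : ℝ) ≤ ρ := by
            rw [div_le_iff₀ hs0]; nlinarith
          linarith
  -- blocks
  have b3 : ∀ i, √(N : ℝ) * |(∫ u in L i..Rr i, F u) -
      ∫ u in (c i * (2 * h) - (1 - η) * ((2 * g i + 1 : ℕ) : ℝ) * h)..
        (c i * (2 * h) + (1 - η) * ((2 * g i + 1 : ℕ) : ℝ) * h),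
        cos (φ i + N * (∫ x in (c i * (2 * h))..u, T i x) - k * u)| ≤ 40 * √(η / δ) := by
    intro i
    have z0 := hζ0 i
    have z1 := hLR i
    have hmid : ∀ u ∈ Set.Icc (L i + ζ i) (Rr i - ζ i), u ∈ Set.Icc (L i) (Rr i) := fun u hu =>
      ⟨by linarith [hu.1], by linarith [hu.2]⟩
    have T0_arc : ∀ u ∈ Set.Icc (L i + ζ i) (Rr i - ζ i), T0 u = T i u := by
      intro u hu
      rw [T0_blk i u (hmid u hu), show tr i u = 1 from trap_mid z0 hu]
      simp only [hTc]
      rw [cl_of_mem hu.1 hu.2]; ring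
    have hcm : (c i : ℝ) * (2 * h) ∈ Set.Icc (L i + ζ i) (Rr i - ζ i) := by
      rw [hLe, hRe]; constructor <;> linarith [harc0 i]
    have earc : ∫ u in (L i + ζ i)..(Rr i - ζ i),
        cos (φ i + N * (∫ x in (c i * (2 * h))..u, T i x) - k * u) =
        ∫ u in (L i + ζ i)..(Rr i - ζ i), F u := by
      refine intervalIntegral.integral_congr fun u hu => ?_
      rw [Set.uIcc_of_le z1] at hu
      simp only [hF]
      rw [σ_blk i u (hmid u hu), show tr i u = 1 from trap_mid z0 hu,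
        ← intervalIntegral.integral_add_adjacent_intervals (b := (c i : ℝ) * (2 * h))
          (hT0c.intervalIntegrable 0 _) (hT0c.intervalIntegrable _ u),
        intervalIntegral.integral_congr (f := T0) (g := T i) fun x hx =>
          T0_arc x (Set.uIcc_subset_Icc hcm hu hx)]
      have e := toIcoMod_add_toIcoDiv_zsmul two_pi_pos 0
        (φ i - N * (∫ x in (0 : ℝ)..(c i * (2 * h)), T0 x) - s0)
      rw [zsmul_eq_mul] at e
      rw [← Real.cos_add_int_mul_two_pi (_ + (s0 + s i * 1) - _) (toIcoDiv two_pi_pos 0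
        (φ i - N * (∫ x in (0 : ℝ)..(c i * (2 * h)), T0 x) - s0))]
      congr 1
      simp only [hsd]
      linarith
    rw [← hLe, ← hRe, earc, ← intervalIntegral.integral_add_adjacent_intervals
      (hFi (L i) (L i + ζ i)) (hFi _ _), ← intervalIntegral.integral_add_adjacent_intervals
      (hFi (L i + ζ i) (Rr i - ζ i)) (hFi _ (Rr i))]
    have τ_blk : ∀ u ∈ Set.Icc (L i) (Rr i), τ u = (δ + β2 * jm h J (L i)) + β1 * u := by
      intro u hu
      simp only [hτ]
      rw [jm_const h0 (by have := g1 i; omega) (fun x hx => (hJ1 x hx).2.2 i) hu]; ring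
    have τ_le : ∀ u ∈ Set.Icc (L i) (Rr i), (δ + β2 * jm h J (L i)) + β1 * u ≤ 2 * δ := by
      intro u hu
      rw [← τ_blk u hu]
      exact (hτr u ⟨h0.le.trans ((hLh i).trans hu.1), hu.2.trans (hRπ i)⟩).2
    set τ0 := δ + β2 * jm h J (L i)
    have dq : ∀ A B t x : ℝ, HasDerivAt (fun u => (τ0 + β1 * u) + (A + B * u) * (t - (τ0 + β1 * u)))
        (β1 + (B * (t - (τ0 + β1 * x)) + (A + B * x) * (-β1))) x := fun A B t x =>
      (dlin _ _ x).add ((dlin A B x).mul ((dlin τ0 β1 x).const_sub t))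
    have sl : δ / (2 ^ 2 * η) + β1 ≤ δ / ζ i := by
      have a1 : δ / (η * (π / 2)) ≤ δ / ζ i := div_le_div_of_nonneg_left hδ.le z0 (hζπ i)
      refine le_trans ?_ a1
      rw [hβ1, div_add_div _ _ (by positivity) (by positivity),
        div_le_div_iff₀ (by positivity) (by positivity)]
      have a2 : 0 < δ * η * π := by positivity
      nlinarith [pi_lt_four, mul_lt_mul_of_pos_left hη1 a2, mul_lt_mul_of_pos_left pi_lt_four a2]
    have l1 : √(N : ℝ) * |∫ u in L i..(L i + ζ i), F u| ≤ 10 * 2 * √(η / δ) := by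
      have hm : ∀ u ∈ Set.Icc (L i) (L i + ζ i), u ∈ Set.Icc (L i) (Rr i) := fun u hu =>
        ⟨hu.1, by linarith [hu.2]⟩
      refine piece2 hV2 hT0c (dq (-L i / ζ i) (1 / ζ i) (Tc i (L i))) (by fun_prop) k
        (by linarith) (s0 := s0 - s i * L i / ζ i) (s1 := s i / ζ i) ?_ ?_ hN0 (by norm_num) hη hδ
        (Or.inl fun x hx => ?_)
      · intro u hu
        rw [T0_blk i u (hm u hu), τ_blk u (hm u hu), show tr i u = _ from trap_left z0 z1 hu]
        simp only [hTc]
        rw [cl_of_le hu.2, cl_of_le (by linarith : L i ≤ L i + ζ i)]; ring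
      · intro u hu
        rw [σ_blk i u (hm u hu), show tr i u = _ from trap_left z0 z1 hu]; ring
      · have a1 := τ_le x (hm x hx)
        have a2 := (hTcr i (L i)).1
        have a3 : -L i / ζ i + 1 / ζ i * x ≤ 1 := by
          rw [show -L i / ζ i + 1 / ζ i * x = (x - L i) / ζ i by ring, div_le_one z0]
          linarith [hx.2]
        have a4 : δ / ζ i ≤ 1 / ζ i * (Tc i (L i) - (τ0 + β1 * x)) := by
          rw [one_div_mul_eq_div]; gcongr; linarith
        nlinarith
    have l2 : √(N : ℝ) * |∫ u in (Rr i - ζ i)..Rr i, F u| ≤ 10 * 2 * √(η / δ) := by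
      have hm : ∀ u ∈ Set.Icc (Rr i - ζ i) (Rr i), u ∈ Set.Icc (L i) (Rr i) := fun u hu =>
        ⟨by linarith [hu.1], hu.2⟩
      refine piece2 hV2 hT0c (dq (Rr i / ζ i) (-(1 / ζ i)) (Tc i (Rr i))) (by fun_prop) k
        (by linarith) (s0 := s0 + s i * Rr i / ζ i) (s1 := -(s i / ζ i)) ?_ ?_ hN0 (by norm_num)
        hη hδ (Or.inr fun x hx => ?_)
      · intro u hu
        rw [T0_blk i u (hm u hu), τ_blk u (hm u hu), show tr i u = _ from trap_right z0 z1 hu]
        simp only [hTc]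
        rw [cl_of_ge z1 hu.1, cl_of_ge z1 (by linarith : Rr i - ζ i ≤ Rr i)]; ring
      · intro u hu
        rw [σ_blk i u (hm u hu), show tr i u = _ from trap_right z0 z1 hu]; ring
      · have a1 := τ_le x (hm x hx)
        have a2 := (hTcr i (Rr i)).1
        have a3 : 0 ≤ Rr i / ζ i + -(1 / ζ i) * x := by
          rw [show Rr i / ζ i + -(1 / ζ i) * x = (Rr i - x) / ζ i by ring]
          exact div_nonneg (by linarith [hx.2]) z0.le
        have a4 : δ / ζ i ≤ 1 / ζ i * (Tc i (Rr i) - (τ0 + β1 * x)) := by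
          rw [one_div_mul_eq_div]; gcongr; linarith
        nlinarith
    have e : ∀ A B C : ℝ, A + (B + C) - B = A + C := fun A B C => by ring
    rw [e]
    calc _ ≤ √(N : ℝ) * (|∫ u in L i..(L i + ζ i), F u| + |∫ u in (Rr i - ζ i)..Rr i, F u|) := by
          gcongr; exact abs_add_le _ _
      _ ≤ _ := by linarith
  change √(N : ℝ) * |(∫ u in (0 : ℝ)..π, F u) - _| ≤ _
  rw [dec, add_sub_assoc, add_sub_assoc, ← sum_sub_distrib, ← add_assoc]
  have b4 := sum_le_sum fun i (_ : i ∈ univ) => b3 i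
  rw [← mul_sum, sum_const, card_univ, nsmul_eq_mul] at b4
  have b5 := (mul_le_mul_of_nonneg_left (abs_sum_le_sum_abs _ _) hs0.le).trans b4
  refine (mul_le_mul_of_nonneg_left (abs_add_three _ _ _) hs0.le).trans ?_
  have : 0 ≤ (Fintype.card I : ℝ) * √(η / δ) := by positivity
  linarith

end Crest.Agent.H0100
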