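import Crest.Agent.H0100.Defs

/-! Gluing: elementary pieces. -/

set_option autoImplicit false

namespace Crest.Agent.H0100.Gluex

open Finset Real Crest.Agent.H0100

/-- clamp -/
noncomputable def cl (α β u : ℝ) : ℝ := max α (min u β)

@[fun_prop] theorem continuous_cl (α β : ℝ) : Continuous (cl α β) := by unfold cl; fun_prop

theorem cl_of_le {α β u : ℝ} (h : u ≤ α) : cl α β u = α :=
  max_eq_left ((min_le_left _ _).trans h)

theorem cl_of_ge {α β u : ℝ} (hab : α ≤ β) (h : β ≤ u) : cl α β u = β := by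
  unfold cl; rw [min_eq_right h, max_eq_right hab]

theorem cl_of_mem {α β u : ℝ} (h1 : α ≤ u) (h2 : u ≤ β) : cl α β u = u := by
  unfold cl; rw [min_eq_left h2, max_eq_right h1]

theorem le_cl (α β u : ℝ) : α ≤ cl α β u := le_max_left _ _

theorem cl_le {α β : ℝ} (hab : α ≤ β) (u : ℝ) : cl α β u ≤ β := max_le hab (min_le_right _ _)

theorem cl_mono (α β : ℝ) {u v : ℝ} (h : u ≤ v) : cl α β u ≤ cl α β v :=
  max_le_max le_rfl (min_le_min h le_rfl)

theorem cl_const {α β a b u : ℝ} (hab : α ≤ β) (h : b ≤ α ∨ β ≤ a) (hu : u ∈ Set.Icc a b) :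
    cl α β u = cl α β a := by
  rcases h with h | h
  · rw [cl_of_le (hu.2.trans h), cl_of_le ((hu.1.trans hu.2).trans h)]
  · rw [cl_of_ge hab (h.trans hu.1), cl_of_ge hab h]

/-- trapezoid -/
noncomputable def trap (L R ζ u : ℝ) : ℝ := cl 0 1 ((u - L) / ζ) - cl 0 1 ((u - (R - ζ)) / ζ)

@[fun_prop] theorem continuous_trap (L R ζ : ℝ) : Continuous (trap L R ζ) := by
  unfold trap; fun_prop

section trap
variable {L R ζ u : ℝ} (hζ : 0 < ζ) (h2 : L + ζ ≤ R - ζ)
include hζ h2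

theorem trap_left (h : u ∈ Set.Icc L (L + ζ)) : trap L R ζ u = (u - L) / ζ := by
  unfold trap
  rw [cl_of_mem (div_nonneg (by linarith [h.1]) hζ.le) ((div_le_one hζ).2 (by linarith [h.2])),
    cl_of_le (div_nonpos_of_nonpos_of_nonneg (by linarith [h.2]) hζ.le), sub_zero]

omit h2 in
theorem trap_mid (h : u ∈ Set.Icc (L + ζ) (R - ζ)) : trap L R ζ u = 1 := by
  unfold trap
  rw [cl_of_ge zero_le_one ((one_le_div hζ).2 (by linarith [h.1])),
    cl_of_le (div_nonpos_of_nonpos_of_nonneg (by linarith [h.2]) hζ.le), sub_zero]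

theorem trap_right (h : u ∈ Set.Icc (R - ζ) R) : trap L R ζ u = (R - u) / ζ := by
  unfold trap
  rw [cl_of_ge zero_le_one ((one_le_div hζ).2 (by linarith [h.1])),
    cl_of_mem (div_nonneg (by linarith [h.1]) hζ.le) ((div_le_one hζ).2 (by linarith [h.2]))]
  field_simp; ring

theorem trap_out (h : u ≤ L ∨ R ≤ u) : trap L R ζ u = 0 := by
  unfold trap
  rcases h with h | h
  · rw [cl_of_le (div_nonpos_of_nonpos_of_nonneg (by linarith) hζ.le),
      cl_of_le (div_nonpos_of_nonpos_of_nonneg (by linarith) hζ.le), sub_zero]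
  · rw [cl_of_ge zero_le_one ((one_le_div hζ).2 (by linarith)),
      cl_of_ge zero_le_one ((one_le_div hζ).2 (by linarith)), sub_self]

theorem trap_mem (u : ℝ) : 0 ≤ trap L R ζ u ∧ trap L R ζ u ≤ 1 := by
  unfold trap
  have h1 := cl_mono 0 1 (u := (u - (R - ζ)) / ζ) (v := (u - L) / ζ)
    (div_le_div_of_nonneg_right (by linarith) hζ.le)
  have h3 := le_cl 0 1 ((u - (R - ζ)) / ζ)
  have h4 := cl_le zero_le_one ((u - L) / ζ)
  constructor <;> linarith

end trap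

theorem piece_eq {T0 σ g : ℝ → ℝ} (hT : Continuous T0) (hg : Continuous g) {α β s0 s1 N k : ℝ}
    (hαβ : α ≤ β) (e1 : ∀ u ∈ Set.Icc α β, T0 u = g u)
    (e2 : ∀ u ∈ Set.Icc α β, σ u = s0 + s1 * u) :
    |∫ u in α..β, cos (N * (∫ x in (0 : ℝ)..u, T0 x) + σ u - k * u)| ≤
      ‖∫ u in α..β, ex (N * ((∫ x in (0 : ℝ)..α, T0 x) + ∫ x in α..u, g x) +
        (s0 + s1 * u) - k * u)‖ := by
  have hc : Continuous fun u => ∫ x in α..u, g x :=
    intervalIntegral.continuous_primitive (fun a b => hg.intervalIntegrable a b) α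
  have := Complex.reCLM.intervalIntegral_comp_comm (μ := MeasureTheory.volume) (a := α) (b := β)
    (f := fun u => ex (N * ((∫ x in (0 : ℝ)..α, T0 x) + ∫ x in α..u, g x) +
        (s0 + s1 * u) - k * u)) (Continuous.intervalIntegrable (by fun_prop) _ _)
  simp only [Complex.reCLM_apply, ex_re] at this
  refine le_trans (le_of_eq ?_) (Complex.abs_re_le_norm _)
  rw [← this]
  congr 1
  refine intervalIntegral.integral_congr fun u hu => ?_
  rw [Set.uIcc_of_le hαβ] at hu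
  rw [e2 u hu, ← intervalIntegral.integral_add_adjacent_intervals (b := α)
    (hT.intervalIntegrable _ _) (hT.intervalIntegrable _ _)]
  congr 5
  refine intervalIntegral.integral_congr fun x hx => ?_
  rw [Set.uIcc_of_le hu.1] at hx
  exact e1 x ⟨hx.1, hx.2.trans hu.2⟩

theorem deriv_phase {g : ℝ → ℝ} (hg : Continuous g) (A α s0 s1 N k x : ℝ) :
    HasDerivAt (fun u => N * (A + ∫ x in α..u, g x) + (s0 + s1 * u) - k * u)
      (N * g x + s1 - k) x := by
  have h1 := (((hg.integral_hasStrictDerivAt α x).hasDerivAt.const_add A).const_mul N)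
  have h2 := (((hasDerivAt_id x).const_mul s1).const_add s0)
  have h3 := (hasDerivAt_id x).const_mul k
  exact ((h1.add h2).sub h3).congr_deriv (by ring)

theorem piece2 (h2 : VdC2) {T0 σ g g1 : ℝ → ℝ} (hT : Continuous T0)
    (hg : ∀ x, HasDerivAt g (g1 x) x) (hg1 : Continuous g1) {α β s0 s1 N a e δ : ℝ} (k : ℝ)
    (hαβ : α ≤ β) (e1 : ∀ u ∈ Set.Icc α β, T0 u = g u)
    (e2 : ∀ u ∈ Set.Icc α β, σ u = s0 + s1 * u) (hN : 0 < N) (ha : 0 < a) (he : 0 < e)
    (hδ : 0 < δ) (hs : (∀ x ∈ Set.Icc α β, δ / (a ^ 2 * e) ≤ g1 x) ∨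
      (∀ x ∈ Set.Icc α β, g1 x ≤ -(δ / (a ^ 2 * e)))) :
    √N * |∫ u in α..β, cos (N * (∫ x in (0 : ℝ)..u, T0 x) + σ u - k * u)| ≤
      10 * a * √(e / δ) := by
  have hgc : Continuous g := continuous_iff_continuousAt.2 fun v => (hg v).continuousAt
  have h3 := h2 _ (fun x => N * g x + s1 - k) (fun x => N * g1 x) α β (N * (δ / (a ^ 2 * e))) hαβ
    (by positivity) (fun x _ => deriv_phase hgc (∫ x in (0 : ℝ)..α, T0 x) α s0 s1 N k x)
    (fun x _ => (((hg x).const_mul N).add_const s1).sub_const k) (by fun_prop)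
    (by
      rcases hs with hs | hs
      · exact Or.inl fun x hx => mul_le_mul_of_nonneg_left (hs x hx) hN.le
      · exact Or.inr fun x hx => by
          have := mul_le_mul_of_nonneg_left (hs x hx) hN.le; linarith)
  have h4 := (piece_eq hT hgc hαβ e1 e2 (N := N) (k := k)).trans h3
  have h5 : √(N * (δ / (a ^ 2 * e))) * (a * √(e / δ)) = √N := by
    rw [← Real.sqrt_sq ha.le, ← Real.sqrt_mul (by positivity), ← Real.sqrt_mul (by positivity),
      Real.sqrt_sq ha.le]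
    congr 1; field_simp
  have h6 : 0 < √(N * (δ / (a ^ 2 * e))) := Real.sqrt_pos.2 (by positivity)
  calc _ ≤ √N * (10 / √(N * (δ / (a ^ 2 * e)))) := by gcongr
    _ = _ := by rw [← h5]; field_simp

theorem piece1 (h1 : VdC1) {T0 σ : ℝ → ℝ} (hT : Continuous T0) {α β s0 t0 t1 N μ : ℝ} (k : ℝ)
    (hαβ : α ≤ β) (e1 : ∀ u ∈ Set.Icc α β, T0 u = t0 + t1 * u)
    (e2 : ∀ u ∈ Set.Icc α β, σ u = s0) (hN : 0 < N) (hμ : 0 < μ) (ht : 0 ≤ t1)
    (hs : ∀ x ∈ Set.Icc α β, μ ≤ |N * T0 x - k|) :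
    |∫ u in α..β, cos (N * (∫ x in (0 : ℝ)..u, T0 x) + σ u - k * u)| ≤ 4 / μ := by
  have hgc : Continuous fun u => t0 + t1 * u := by fun_prop
  have h3 := h1 _ (fun x => N * (t0 + t1 * x) + 0 - k) (fun _ => N * t1) α β μ hαβ hμ
    (fun x _ => deriv_phase hgc (∫ x in (0 : ℝ)..α, T0 x) α s0 0 N k x)
    (fun x _ => ((((((hasDerivAt_id x).const_mul t1).const_add t0).const_mul N).add_const
      0).sub_const k).congr_deriv (by ring)) (by fun_prop)
    (Or.inl fun _ _ => by positivity) (fun x hx => by rw [add_zero, ← e1 x hx]; exact hs x hx)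
  exact (piece_eq hT hgc hαβ e1 (s0 := s0) (s1 := 0) (fun u hu => by rw [e2 u hu]; ring)
    (N := N) (k := k)).trans h3

/-- local linearity -/
theorem loc_aux {I : Type} [Fintype I] {T0 r : ℝ → ℝ} {t : I → ℝ → ℝ} (hT : Continuous T0)
    (hr : Continuous r) (ht : ∀ i, Continuous (t i)) {δ R : ℝ} (hδ : 0 < δ) (hR : 0 < R)
    (hrange : ∀ u ∈ Set.Icc 0 π, δ ≤ T0 u ∧ T0 u ≤ 1 - δ) :
    ∃ N1 : ℕ, ∀ N : ℕ, N1 ≤ N → ∀ (s0 : ℝ) (s : I → ℝ), |s0| ≤ 2 * π → (∀ i, |s i| ≤ 2 * π) →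
      ∀ θ ∈ Set.Icc 0 π, ∃ k0 : ℕ, δ / 2 * N ≤ k0 ∧ (k0 : ℝ) ≤ (1 - δ / 2) * N ∧
        ∀ u ∈ Set.Icc 0 π, |u - θ| ≤ R / N →
          |(N * (∫ x in (0 : ℝ)..u, T0 x) + (s0 * r u + ∑ i, s i * t i u)) -
            (N * (∫ x in (0 : ℝ)..θ, T0 x) + (s0 * r θ + ∑ i, s i * t i θ)) - k0 * (u - θ)| ≤
            1 / R ^ 2 := by
  set A : ℝ := R + 2 * π * (1 + Fintype.card I) with hA
  have hA0 : 0 < A := by positivity
  have hF : Continuous fun u => (T0 u, r u, fun i => t i u) := by fun_prop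
  have hU := (isCompact_Icc (a := (0 : ℝ)) (b := π)).uniformContinuousOn_of_continuous
    hF.continuousOn
  obtain ⟨d, hd, hU⟩ := Metric.uniformContinuousOn_iff_le.1 hU (1 / (2 * R ^ 2 * A))
    (by positivity)
  set e : ℝ := 1 / (2 * R ^ 2 * A) with he
  have he0 : 0 < e := by positivity
  refine ⟨⌈max (R / d) (max (2 * R ^ 3) (2 / δ))⌉₊, fun N hN s0 s hs0 hs θ hθ => ?_⟩
  have hN' : max (R / d) (max (2 * R ^ 3) (2 / δ)) ≤ N :=
    (Nat.le_ceil _).trans (by exact_mod_cast hN)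
  have n1 : R / d ≤ N := le_of_max_le_left hN'
  have n2 : 2 * R ^ 3 ≤ N := le_of_max_le_left (le_of_max_le_right hN')
  have n3 : 2 / δ ≤ N := le_of_max_le_right (le_of_max_le_right hN')
  have hN0 : (0 : ℝ) < N := lt_of_lt_of_le (by positivity) n2
  have n1' : R / N ≤ d := by rw [div_le_iff₀ hN0]; rw [div_le_iff₀ hd] at n1; linarith
  have n3' : 2 ≤ δ * N := by rwa [div_le_iff₀' hδ] at n3
  have hθr := hrange θ hθ
  have f1 : (⌊N * T0 θ⌋₊ : ℝ) ≤ N * T0 θ := Nat.floor_le (by nlinarith [hθr.1])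
  have f2 := Nat.lt_floor_add_one (N * T0 θ)
  refine ⟨⌊N * T0 θ⌋₊, by nlinarith [hθr.1], by nlinarith [hθr.2], fun u hu huθ => ?_⟩
  have hU' : ∀ x ∈ Set.Icc 0 π, |x - θ| ≤ R / N →
      |T0 x - T0 θ| ≤ e ∧ |r x - r θ| ≤ e ∧ ∀ i, |t i x - t i θ| ≤ e := by
    intro x hx hxθ
    have := hU x hx θ hθ (by rw [Real.dist_eq]; linarith)
    simp only [Prod.dist_eq, max_le_iff, dist_pi_le_iff he0.le, Real.dist_eq] at this
    exact this
  have e1 : N * (∫ x in (0 : ℝ)..u, T0 x) - N * (∫ x in (0 : ℝ)..θ, T0 x) -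
      ⌊N * T0 θ⌋₊ * (u - θ) = ∫ x in θ..u, (N * T0 x - ⌊N * T0 θ⌋₊) := by
    rw [intervalIntegral.integral_sub (Continuous.intervalIntegrable (by fun_prop) _ _)
      (by simp), intervalIntegral.integral_const_mul, ← mul_sub,
      intervalIntegral.integral_interval_sub_left (hT.intervalIntegrable _ _)
        (hT.intervalIntegrable _ _)]
    simp [mul_comm]
  have b1 : |∫ x in θ..u, (N * T0 x - ⌊N * T0 θ⌋₊)| ≤ (N * e + 1) * |u - θ| := by
    rw [← Real.norm_eq_abs]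
    refine intervalIntegral.norm_integral_le_of_norm_le_const fun x hx => ?_
    have hx' := Set.uIoc_subset_uIcc hx
    have hx1 : x ∈ Set.Icc 0 π := Set.uIcc_subset_Icc hθ hu hx'
    have hx2 : |x - θ| ≤ |u - θ| := Set.abs_sub_left_of_mem_uIcc hx'
    have := abs_le.1 (hU' x hx1 (hx2.trans huθ)).1
    rw [Real.norm_eq_abs, abs_le]
    constructor <;> nlinarith [this.1, this.2]
  obtain ⟨-, u2, u3⟩ := hU' u hu huθ
  have b2 : |s0 * r u - s0 * r θ| ≤ 2 * π * e := by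
    rw [← mul_sub, abs_mul]; gcongr
  have b3 : |∑ i, s i * t i u - ∑ i, s i * t i θ| ≤ Fintype.card I * (2 * π * e) := by
    rw [← sum_sub_distrib]
    refine (abs_sum_le_sum_abs _ _).trans ((sum_le_sum (g := fun _ => 2 * π * e) fun i _ => ?_).trans
      (by simp))
    rw [← mul_sub, abs_mul]
    exact mul_le_mul (hs i) (u3 i) (abs_nonneg _) (by positivity)
  have b4 : (N * e + 1) * |u - θ| ≤ e * R + 1 / (2 * R ^ 2) := by
    calc _ ≤ (N * e + 1) * (R / N) := by gcongr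
      _ = e * R + R / N := by field_simp
      _ ≤ _ := by
        refine add_le_add le_rfl ?_
        rw [div_le_div_iff₀ hN0 (by positivity)]; nlinarith
  have b5 : e * A = 1 / (2 * R ^ 2) := by rw [he]; field_simp
  have := abs_add_three (∫ x in θ..u, (N * T0 x - ⌊N * T0 θ⌋₊)) (s0 * r u - s0 * r θ)
    (∑ i, s i * t i u - ∑ i, s i * t i θ)
  rw [← e1] at this b1
  refine le_trans (le_of_eq ?_) (this.trans ?_)
  · congr 1; ring
  · have : 1 / R ^ 2 = 1 / (2 * R ^ 2) + 1 / (2 * R ^ 2) := by field_simp; ring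
    rw [hA] at b5
    nlinarith

end Crest.Agent.H0100.Gluex
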