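import Crest.Agent.H0100.GlueA

/-! Gluing: cells, blocks and junk. -/

set_option autoImplicit false

namespace Crest.Agent.H0100.Gluex

open Finset Real Crest.Agent.H0100

/-- left end of cell `k` -/
noncomputable def aa (h : ℝ) (k : ℕ) : ℝ := (2 * k - 1) * h

theorem aa_mono {h : ℝ} (hh : 0 < h) {m n : ℕ} (hmn : m ≤ n) : aa h m ≤ aa h n := by
  unfold aa
  have : (m : ℝ) ≤ n := by exact_mod_cast hmn
  gcongr

theorem aa_one (h : ℝ) : aa h 1 = h := by unfold aa; push_cast; ring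

theorem aa_succ (h : ℝ) (k : ℕ) : aa h (k + 1) = aa h k + 2 * h := by unfold aa; push_cast; ring

variable {I : Type} [Fintype I]

/-- cells of block `i` -/
def Bl (c g : I → ℕ) (i : I) : Finset ℕ := Ico (c i - g i) (c i + g i + 1)

/-- junk cells -/
def Junk (p : ℕ) (c g : I → ℕ) : Finset ℕ := (Ico 1 (p + 1)).filter (fun x => ∀ i, x ∉ Bl c g i)

theorem sum_split {p : ℕ} {c g : I → ℕ} (h1 : ∀ i, g i < c i) (h2 : ∀ i, c i + g i ≤ p)
    (h3 : ∀ i i', i ≠ i' → c i + g i + g i' + 1 ≤ c i' ∨ c i' + g i + g i' + 1 ≤ c i)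
    (f : ℕ → ℝ) :
    ∑ x ∈ Ico 1 (p + 1), f x = ∑ x ∈ Junk p c g, f x + ∑ i, ∑ x ∈ Bl c g i, f x := by
  classical
  rw [← sum_filter_add_sum_filter_not (Ico 1 (p + 1)) (fun x => ∀ i, x ∉ Bl c g i)]
  congr 1
  rw [← sum_biUnion]
  · refine sum_congr ?_ fun _ _ => rfl
    ext x
    simp only [mem_filter, mem_biUnion, mem_univ, true_and, not_forall, not_not]
    constructor
    · exact fun h => h.2
    · rintro ⟨i, hi⟩
      refine ⟨?_, i, hi⟩
      have := h1 i; have := h2 i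
      simp only [Bl, mem_Ico] at hi ⊢
      omega
  · intro i _ i' _ hne
    simp only [Function.onFun, Bl]
    rw [disjoint_left]
    intro x hx hx'
    simp only [mem_Ico] at hx hx'
    have := h3 i i' hne
    omega

/-- measure of the junk in `[0, u]` -/
noncomputable def jm (h : ℝ) (J : Finset ℕ) (u : ℝ) : ℝ :=
  cl 0 h u + ∑ x ∈ J, (cl (aa h x) (aa h (x + 1)) u - aa h x)

@[fun_prop] theorem continuous_jm (h : ℝ) (J : Finset ℕ) : Continuous (jm h J) := by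
  unfold jm; fun_prop

theorem jm_mono (h : ℝ) (J : Finset ℕ) {u v : ℝ} (huv : u ≤ v) : jm h J u ≤ jm h J v :=
  add_le_add (cl_mono _ _ huv) (sum_le_sum fun _ _ => sub_le_sub_right (cl_mono _ _ huv) _)

theorem jm_nonneg (h : ℝ) (J : Finset ℕ) (u : ℝ) : 0 ≤ jm h J u :=
  add_nonneg (le_cl _ _ _) (sum_nonneg fun _ _ => sub_nonneg.2 (le_cl _ _ _))

theorem jm_le {h : ℝ} (hh : 0 < h) (J : Finset ℕ) (u : ℝ) : jm h J u ≤ h + J.card * (2 * h) := by
  refine add_le_add (cl_le hh.le u) ((sum_le_sum (g := fun _ => 2 * h) fun x _ => ?_).trans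
    (by simp))
  have := cl_le (aa_mono hh (Nat.le_succ x)) u
  rw [aa_succ] at this ⊢
  linarith

theorem jm_const {h : ℝ} (hh : 0 < h) {J : Finset ℕ} {m n : ℕ} (hm : 1 ≤ m)
    (hJ : ∀ x ∈ J, x < m ∨ n ≤ x) {u : ℝ} (hu : u ∈ Set.Icc (aa h m) (aa h n)) :
    jm h J u = jm h J (aa h m) := by
  unfold jm
  rw [cl_const hh.le (Or.inr ((aa_one h).symm.le.trans (aa_mono hh hm))) hu]
  congr 1
  refine sum_congr rfl fun x hx => ?_
  rw [cl_const (aa_mono hh (Nat.le_succ x)) _ hu]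
  rcases hJ x hx with h1 | h1
  · exact Or.inr (aa_mono hh h1)
  · exact Or.inl (aa_mono hh h1)

theorem jm_cell {h : ℝ} (hh : 0 < h) {J : Finset ℕ} {x0 : ℕ} (hx0 : x0 ∈ J) (h1 : 1 ≤ x0)
    {u : ℝ} (hu : u ∈ Set.Icc (aa h x0) (aa h (x0 + 1))) :
    jm h J u = jm h J (aa h x0) - aa h x0 + u := by
  have e : ∀ v, jm h J v = jm h (J.erase x0) v + (cl (aa h x0) (aa h (x0 + 1)) v - aa h x0) := by
    intro v
    unfold jm
    rw [← add_sum_erase J _ hx0]; ring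
  rw [e, e, jm_const hh h1 (fun x hx => by have := (mem_erase.1 hx).1; omega) hu,
    cl_of_mem hu.1 hu.2, cl_of_le le_rfl]
  ring

theorem jm_half {h : ℝ} (hh : 0 < h) {J : Finset ℕ} (hJ : ∀ x ∈ J, 1 ≤ x)
    {u : ℝ} (hu : u ∈ Set.Icc 0 h) : jm h J u = u := by
  unfold jm
  rw [cl_of_mem hu.1 hu.2, sum_eq_zero, add_zero]
  intro x hx
  rw [cl_of_le (hu.2.trans ((aa_one h).symm.le.trans (aa_mono hh (hJ x hx)))), sub_self]

theorem card_le_two {S : Finset ℕ} (h : ∀ x ∈ S, ∀ y ∈ S, y ≤ x + 1) : S.card ≤ 2 := by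
  rcases S.eq_empty_or_nonempty with rfl | hS
  · simp
  · have : S ⊆ Icc (S.min' hS) (S.min' hS + 1) := fun y hy =>
      mem_Icc.2 ⟨min'_le _ _ hy, h _ (min'_mem _ _) y hy⟩
    refine (card_le_card this).trans ?_
    rw [Nat.card_Icc]; omega

theorem sum_single_of_zero {f : I → ℝ} (i : I) (h : ∀ i', i' ≠ i → f i' = 0) :
    ∑ i', f i' = f i :=
  sum_eq_single i (fun i' _ hi => h i' hi) (fun h => absurd (mem_univ i) h)

end Crest.Agent.H0100.Gluex
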