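import Crest.Agent.H0100.Blk
import Crest.Agent.H0100.Fs

/-! The constellation (job `Kon`). -/

set_option autoImplicit false

namespace Crest.Agent.H0100

open Finset Real Filter Topology
open scoped ArithmeticFunction.vonMangoldt
open ArithmeticFunction (vonMangoldt_sum vonMangoldt_eq_zero_iff vonMangoldt_apply)

namespace Konx

theorem exists_weights {I A : Type*} [Fintype I] (s : Finset A) (v : A → I → ℤ)
    (h : ∀ a ∈ s, v a ≠ 0) : ∃ ρ : I → ℤ, ∀ a ∈ s, ∑ i, ρ i * v a i ≠ 0 := by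
  classical
  by_contra h1
  push Not at h1
  have h2 : ∏ a ∈ s, ∑ i, (MvPolynomial.X i * MvPolynomial.C (v a i) : MvPolynomial I ℤ) = 0 := by
    refine MvPolynomial.funext fun ρ => ?_
    obtain ⟨a, ha, h3⟩ := h1 ρ
    rw [map_prod, map_zero]
    exact prod_eq_zero ha (by simpa using h3)
  obtain ⟨a, ha, h3⟩ := prod_eq_zero_iff.1 h2
  refine h a ha (funext fun i => ?_)
  have := congrArg (MvPolynomial.eval (Pi.single i (1 : ℤ))) h3
  simpa [Pi.single_apply] using this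

theorem dens_aux {a b δ : ℝ} (hb : 0 < b) {x y : ℕ} (h0 : 0 < x * a - y * b)
    (h1 : x * a - y * b ≤ δ) : ∃ T : ℝ, ∀ X, T ≤ X → ∃ k1 k2 : ℕ, 1 ≤ k1 ∧ 1 ≤ k2 ∧
      |k1 * a + k2 * b - X| ≤ δ := by
  set θ := x * a - y * b with hθ
  refine ⟨a + (b / θ * y + 2) * b, fun X hX => ?_⟩
  have hy : (0 : ℝ) ≤ y := Nat.cast_nonneg y
  have h2 : b / θ * y + 2 ≤ (X - a) / b := by rw [le_div_iff₀ hb]; linarith
  have h3 : 0 ≤ b / θ * y := by positivity
  set q := ⌊(X - a) / b⌋₊ with hq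
  have h4 : (q : ℝ) ≤ (X - a) / b := Nat.floor_le (by linarith)
  have h5 : (X - a) / b < q + 1 := Nat.lt_floor_add_one _
  have h5' := h5
  rw [le_div_iff₀ hb] at h4
  rw [div_lt_iff₀ hb] at h5
  set i := ⌊(X - a - q * b) / θ⌋₊ with hi
  have h6 : (i : ℝ) ≤ (X - a - q * b) / θ := Nat.floor_le (div_nonneg (by linarith) h0.le)
  have h7 : (X - a - q * b) / θ < i + 1 := Nat.lt_floor_add_one _
  have h8 : (i : ℝ) ≤ b / θ := h6.trans (by gcongr; linarith)
  have h9 : i * y + 1 ≤ q := by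
    have : (i : ℝ) * y ≤ b / θ * y := by gcongr
    have : ((i * y + 1 : ℕ) : ℝ) ≤ q := by push_cast; linarith
    exact_mod_cast this
  rw [le_div_iff₀ h0] at h6
  rw [div_lt_iff₀ h0] at h7
  refine ⟨i * x + 1, q - i * y, by omega, by omega, ?_⟩
  rw [Nat.cast_sub (by omega)]
  push_cast
  rw [abs_le]
  constructor <;> nlinarith

theorem dens {a b δ : ℝ} (ha : 0 < a) (hb : 0 < b) (hδ : 0 < δ)
    (h : ∀ x y : ℕ, 0 < x → x * a ≠ y * b) : ∃ T : ℝ, ∀ X, T ≤ X → ∃ k1 k2 : ℕ, 1 ≤ k1 ∧ 1 ≤ k2 ∧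
      |k1 * a + k2 * b - X| ≤ δ := by
  obtain ⟨n, hn⟩ := exists_nat_gt (b / min a δ)
  have hm : 0 < min a δ := lt_min ha hδ
  have hn0 : (0 : ℝ) < n := lt_trans (by positivity) hn
  obtain ⟨y, x, hx, -, h1⟩ := Real.exists_int_int_abs_mul_sub_le (a / b) (n := n)
    (by exact_mod_cast hn0)
  have h2 : |x * a - y * b| ≤ min a δ := by
    rw [show x * a - y * b = (x * (a / b) - y) * b by field_simp, abs_mul, abs_of_pos hb]
    rw [div_lt_iff₀ hm] at hn
    calc _ ≤ 1 / (n + 1) * b := by gcongr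
      _ ≤ _ := by rw [div_mul_eq_mul_div, div_le_iff₀ (by linarith)]; nlinarith
  have h3 := abs_le.1 (h2.trans (min_le_left _ _))
  have h4 := abs_le.1 (h2.trans (min_le_right _ _))
  have hx' : (1 : ℝ) ≤ x := by exact_mod_cast hx
  have hy : 0 ≤ y := by
    have : (0 : ℝ) ≤ y * b := by nlinarith [h3.2]
    exact_mod_cast nonneg_of_mul_nonneg_left this hb
  lift x to ℕ using hx.le
  lift y to ℕ using hy
  push_cast at *
  rcases lt_or_gt_of_ne (h x y (by exact_mod_cast hx)) with h5 | h5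
  · obtain ⟨T, hT⟩ := dens_aux (a := b) (b := a) (δ := δ) ha (x := y) (y := x) (by linarith)
      (by linarith [h4.1])
    refine ⟨T, fun X hX => ?_⟩
    obtain ⟨k1, k2, h6, h7, h8⟩ := hT X hX
    exact ⟨k2, k1, h7, h6, by rwa [add_comm]⟩
  · exact dens_aux hb (x := x) (y := y) (by linarith) h4.2

theorem sum_vM {M j : ℕ} (hj : j ∈ M.divisors) :
    ∑ r : M.divisors.filter IsPrimePow, (if (r : ℕ) ∣ j then Λ r else 0) = log j := by
  rw [sum_coe_sort (M.divisors.filter IsPrimePow) fun r => if r ∣ j then Λ r else 0, sum_filter,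
    ← vonMangoldt_sum, ← Nat.divisors_filter_dvd_of_dvd (Nat.mem_divisors.1 hj).2
      (Nat.mem_divisors.1 hj).1, sum_filter]
  refine sum_congr rfl fun r _ => ?_
  split_ifs with h1 h2
  · rfl
  · rfl
  · exact (vonMangoldt_eq_zero_iff.2 h1).symm
  · rfl

/-- the choice of the blocks -/
theorem exists_blocks {M : ℕ} (hM : M ≠ 0) {s δ : ℝ} (hs : 0 < s) (hs1 : s ≤ 1) (hδ : 0 < δ)
    (hδ1 : δ ≤ 1) :
    ∃ (ℓ k r : Option (M.divisors.filter IsPrimePow × Bool) → ℕ) (Γ : ℝ) (u : ℕ → ℝ), 0 < Γ ∧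
      (∀ c, (ℓ c).Prime ∧ M < ℓ c ∧ 1 / (ℓ c : ℝ) ≤ δ ∧ 0 < r c ∧
        (r c = 1 ∨ (1 ≤ k c ∧ r c ∣ ℓ c - 1))) ∧
      (∀ j ∈ M.divisors, ∀ j' ∈ M.divisors, (∀ c, r c ∣ j ↔ r c ∣ j') → j = j') ∧
      ∀ j ∈ M.divisors, |2 * u j| ≤ M.divisors.card * δ ∧
        ((j : ℝ) ^ (-1 - s) * exp (u j)) ^ 2 *
          ∏ c, (1 / (j : ℝ) ^ k c * if r c ∣ j then (ℓ c : ℝ) ^ k c else 1) = Γ * j := by
  set R := M.divisors.filter IsPrimePow with hR
  set τ := M.divisors.card with hτ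
  have hRτ : (Fintype.card R : ℝ) ≤ τ := by
    rw [Fintype.card_coe]; exact_mod_cast card_filter_le _ _
  have hM1 : (1 : ℝ) ≤ M := by exact_mod_cast Nat.pos_of_ne_zero hM
  have hlM : 0 ≤ log M := log_nonneg hM1
  obtain ⟨n, hn⟩ := exists_nat_gt (max (exp (4 * (log M + τ + 1))) (1 / δ))
  obtain ⟨ℓ1, hp1, hn1, hm1⟩ := Nat.exists_prime_gt_modEq_one (max n M) hM
  obtain ⟨ℓ2, hp2, hn2, hm2⟩ := Nat.exists_prime_gt_modEq_one ℓ1 hM
  have h12 : (ℓ1 : ℝ) < ℓ2 := by exact_mod_cast hn2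
  have hn1' : (n : ℝ) < ℓ1 := by exact_mod_cast (le_max_left _ _).trans_lt hn1
  have hℓ0 : (0 : ℝ) < ℓ1 := by exact_mod_cast hp1.pos
  have ha : 4 * (log M + τ + 1) ≤ log ℓ1 :=
    (le_log_iff_exp_le hℓ0).2 (((le_max_left _ _).trans_lt hn).trans hn1').le
  have hτ0 : (0 : ℝ) ≤ τ := Nat.cast_nonneg _
  have ha0 : 0 < log ℓ1 := by linarith
  have hab : log ℓ1 ≤ log ℓ2 := log_le_log hℓ0 h12.le
  have hδℓ : 1 / (ℓ1 : ℝ) ≤ δ := by
    have := ((le_max_right _ _).trans_lt hn).trans hn1'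
    rw [div_lt_iff₀ hδ] at this
    rw [div_le_iff₀ hℓ0]; linarith
  obtain ⟨T, hT⟩ := dens ha0 (ha0.trans_le hab) hδ fun x y hx h => by
    rw [← log_pow, ← log_pow] at h
    have h1 : ℓ1 ^ x = ℓ2 ^ y := by
      exact_mod_cast log_injOn_pos (by simp only [Set.mem_Ioi]; positivity)
        (by have := hℓ0.trans h12; simp only [Set.mem_Ioi]; positivity) h
    have h2 : ℓ1 ∣ ℓ2 := hp1.dvd_of_dvd_pow (h1 ▸ dvd_pow_self ℓ1 hx.ne')
    have := (Nat.prime_dvd_prime_iff_eq hp1 hp2).1 h2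
    omega
  obtain ⟨d, hd⟩ := exists_nat_gt (max 2 (T / log 2))
  have hd2 : (2 : ℝ) < d := (le_max_left _ _).trans_lt hd
  have hl2 := log_pos one_lt_two
  set t : ℝ := d + 3 + 2 * s with ht
  choose k1 k2 hk1 hk2 hk using fun r : R => hT (t * Λ r) (by
    have h1 := (mem_filter.1 r.2).2
    have h2 : log 2 ≤ Λ r := by
      rw [vonMangoldt_apply, if_pos h1]
      exact log_le_log two_pos (by exact_mod_cast (Nat.minFac_prime h1.ne_one).two_le)
    have h3 := (le_max_right _ _).trans_lt hd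
    rw [div_lt_iff₀ hl2] at h3
    nlinarith)
  have hsum : ∑ r : R, (k1 r + k2 r) ≤ d := by
    have h1 : ∑ r : R, Λ r = log M := by
      rw [← sum_vM (Nat.mem_divisors_self M hM)]
      exact sum_congr rfl fun r _ => (if_pos (Nat.dvd_of_mem_divisors (mem_filter.1 r.2).1)).symm
    have h2 : ((∑ r : R, (k1 r + k2 r) : ℕ) : ℝ) * log ℓ1 ≤ t * log M + τ := by
      rw [← h1, mul_sum]
      push_cast
      rw [sum_mul]
      calc _ ≤ ∑ r : R, (t * Λ r + 1) := sum_le_sum fun r _ => by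
            have := (abs_le.1 (hk r)).2
            have : (k2 r : ℝ) * log ℓ1 ≤ k2 r * log ℓ2 := by gcongr
            linarith
        _ ≤ _ := by rw [sum_add_distrib, sum_const, card_univ, nsmul_eq_mul, mul_one]; gcongr
    have h3 : ((∑ r : R, (k1 r + k2 r) : ℕ) : ℝ) ≤ d := by
      refine le_of_mul_le_mul_right (h2.trans ?_) ha0
      nlinarith
    exact_mod_cast h3
  set LQ : ℕ → ℝ := fun j => ∑ r : R, if (r : ℕ) ∣ j then k1 r * log ℓ1 + k2 r * log ℓ2 else 0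
    with hLQ
  refine ⟨fun c => c.elim ℓ1 fun p => if p.2 then ℓ1 else ℓ2,
    fun c => c.elim (d - ∑ r : R, (k1 r + k2 r)) fun p => if p.2 then k1 p.1 else k2 p.1,
    fun c => c.elim 1 fun p => p.1, (ℓ1 : ℝ) ^ (d - ∑ r : R, (k1 r + k2 r)),
    fun j => (t * log j - LQ j) / 2, by positivity, ?_, ?_, fun j hj => ⟨?_, ?_⟩⟩
  · have hM1' := (le_max_right _ _).trans_lt hn1
    rintro (_ | ⟨r, _ | _⟩)
    · exact ⟨hp1, hM1', hδℓ, one_pos, Or.inl rfl⟩
    · exact ⟨hp2, hM1'.trans hn2, le_trans (by simp only [Option.elim]; simp; gcongr) hδℓ,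
        (mem_filter.1 r.2).2.pos, Or.inr ⟨hk2 r, (Nat.dvd_of_mem_divisors (mem_filter.1 r.2).1).trans
          ((Nat.modEq_iff_dvd' hp2.pos).1 hm2.symm)⟩⟩
    · exact ⟨hp1, hM1', hδℓ, (mem_filter.1 r.2).2.pos,
        Or.inr ⟨hk1 r, (Nat.dvd_of_mem_divisors (mem_filter.1 r.2).1).trans
          ((Nat.modEq_iff_dvd' hp1.pos).1 hm1.symm)⟩⟩
  · intro j hj j' hj' h
    have h1 : log j = log j' := by
      rw [← sum_vM hj, ← sum_vM hj']
      exact sum_congr rfl fun r _ => if_congr (h (some (r, true))) rfl rfl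
    exact_mod_cast log_injOn_pos (by simpa using Nat.pos_of_mem_divisors hj)
      (by simpa using Nat.pos_of_mem_divisors hj') h1
  · rw [mul_div_cancel₀ _ two_ne_zero, ← sum_vM hj, mul_sum, hLQ, ← sum_sub_distrib]
    refine (abs_sum_le_sum_abs _ _).trans ((sum_le_sum (g := fun _ => δ) fun r _ => ?_).trans ?_)
    · split_ifs
      · rw [abs_sub_comm]; exact hk r
      · simpa using hδ.le
    · rw [sum_const, card_univ, nsmul_eq_mul]; gcongr
  · have hj0 : (0 : ℝ) < j := by exact_mod_cast Nat.pos_of_mem_divisors hj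
    have h1 : ∏ r : R, ((if (r : ℕ) ∣ j then (ℓ1 : ℝ) ^ k1 r else 1) *
        if (r : ℕ) ∣ j then (ℓ2 : ℝ) ^ k2 r else 1) = exp (LQ j) := by
      rw [hLQ, exp_sum]
      refine prod_congr rfl fun r _ => ?_
      split_ifs
      · rw [exp_add, exp_nat_mul, exp_nat_mul, exp_log hℓ0, exp_log (hℓ0.trans h12)]
      · simp
    rw [prod_mul_distrib, prod_div_distrib, prod_pow_eq_pow_sum, prod_const_one,
      Fintype.sum_option, Fintype.prod_option, Fintype.sum_prod_type, Fintype.prod_prod_type]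
    simp only [Option.elim, Fintype.sum_bool, Fintype.prod_bool, if_true, Bool.false_eq_true,
      if_false, one_dvd, h1, Nat.sub_add_cancel hsum]
    have h2 : ((j : ℝ) ^ (-1 - s) * exp ((t * log j - LQ j) / 2)) ^ 2 * exp (LQ j) = j ^ d * j := by
      rw [rpow_def_of_pos hj0, ← exp_add, ← exp_nat_mul, ← exp_add, ← pow_succ,
        ← exp_log (pow_pos hj0 (d + 1)), log_pow, ht]
      congr 1
      push_cast
      ring
    calc _ = ((j : ℝ) ^ (-1 - s) * exp ((t * log j - LQ j) / 2)) ^ 2 * exp (LQ j) / j ^ d *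
          ℓ1 ^ (d - ∑ r : R, (k1 r + k2 r)) := by ring
      _ = _ := by rw [h2]; field_simp

end Konx

set_option maxHeartbeats 1000000 in
open Konx in
theorem kon (hb : Blk) (hf : Fs) : Kon := by
  intro ε hε
  classical
  set ε1 := ε / (3 + ε) with hε1
  have h0 : 0 < ε1 := by positivity
  have h0' : ε1 < 1 := by rw [hε1, div_lt_one (by linarith)]; linarith
  obtain ⟨s, M, hs, hs1, hM, hF, hE⟩ := hf ε1 h0
  set τ := M.divisors.card with hτ
  set N := Fintype.card (Option (M.divisors.filter IsPrimePow × Bool)) with hN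
  obtain ⟨δ, ⟨⟨h1, h2⟩, hδ1⟩, hδ⟩ : ∃ δ : ℝ, ((2 * τ * (exp (τ * δ) * (1 + δ) ^ N - 1) < ε1 ∧
      1 - ε1 < exp (-(τ * δ)) * (1 - 2 * δ) ^ N) ∧ δ < 1 / 2) ∧ 0 < δ :=
    (((((show ContinuousAt (fun δ : ℝ => 2 * τ * (exp (τ * δ) * (1 + δ) ^ N - 1)) 0 by
      fun_prop).eventually_lt continuousAt_const (by simpa using h0)).and
      (continuousAt_const.eventually_lt (show ContinuousAt
        (fun δ : ℝ => exp (-(τ * δ)) * (1 - 2 * δ) ^ N) 0 by fun_prop) (by simpa using h0))).and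
      (gt_mem_nhds (by norm_num))).filter_mono nhdsWithin_le_nhds |>.and
      (self_mem_nhdsWithin (s := Set.Ioi (0 : ℝ)))).exists
  obtain ⟨ℓ, k, r, Γ0, u, hΓ0, hc, hinj, hu⟩ := exists_blocks hM.pos.ne' hs hs1 hδ (by linarith)
  choose γ Ls e hγ he hcard hdvd hD using fun c =>
    hb M (ℓ c) (k c) (r c) δ (hc c).1 (hc c).2.2.2.1 (hc c).2.2.2.2 hδ
  set β : ℕ → ℝ := fun j => (j : ℝ) ^ (-1 - s) * exp (u j) with hβ
  set g : _ → ℕ → ℝ := fun c j => γ c / (j : ℝ) ^ k c * if r c ∣ j then (ℓ c : ℝ) ^ k c else 1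
    with hg
  set Γ := (∏ c, γ c) * Γ0 with hΓ
  have hΓp : 0 < Γ := mul_pos (prod_pos fun c _ => hγ c) hΓ0
  have hβg : ∀ j ∈ M.divisors, β j ^ 2 * ∏ c, g c j = Γ * j := fun j hj => by
    rw [hΓ, mul_assoc, ← (hu j hj).2, mul_left_comm, ← prod_mul_distrib]
    congr 1
    exact prod_congr rfl fun c _ => by rw [hg]; ring
  set L := M.divisors.sigma fun j => Fintype.piFinset fun c => Ls c j with hL
  have hLm : ∀ l ∈ L, l.1 ∈ M.divisors ∧ ∀ c, l.2 c ∈ Ls c l.1 := fun l hl => by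
    simpa [hL, -Nat.mem_divisors] using hl
  obtain ⟨ρ, hρ⟩ := exists_weights (I := Σ c, Fin (k c)) L.offDiag
    (fun p i => (p.1.1 : ℤ) * p.2.2 i.1 i.2 - (p.2.1 : ℤ) * p.1.2 i.1 i.2) (by
      rintro ⟨⟨j, m⟩, ⟨j', m'⟩⟩ hp h
      obtain ⟨hl, hl', hne⟩ := mem_offDiag.1 hp
      obtain ⟨hj, hm⟩ := hLm _ hl
      obtain ⟨hj', hm'⟩ := hLm _ hl'
      have h3 : ∀ c i, j * m' c i = j' * m c i := fun c i => by
        exact_mod_cast sub_eq_zero.1 (congrFun h ⟨c, i⟩)
      have h4 : ∀ c, ∀ j ∈ M.divisors, ∀ a, ℓ c ∣ j * a ↔ ℓ c ∣ a := fun c j hj a =>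
        ⟨fun h => ((hc c).1.dvd_mul.1 h).resolve_left (Nat.not_dvd_of_pos_of_lt
          (Nat.pos_of_mem_divisors hj) ((Nat.divisor_le hj).trans_lt (hc c).2.1)),
          fun h => h.mul_left _⟩
      obtain rfl : j = j' := hinj j hj j' hj' fun c => by
        rw [hdvd c j hj _ (hm c), hdvd c j' hj' _ (hm' c)]
        exact forall_congr' fun i => by rw [← h4 c j' hj', ← h3, h4 c j hj]
      obtain rfl : m = m' := funext fun c => funext fun i =>
        (Nat.eq_of_mul_eq_mul_left (Nat.pos_of_mem_divisors hj) (h3 c i)).symm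
      exact hne rfl)
  set mm : (Σ _ : ℕ, ∀ c, Fin (k c) → ℕ) → ℤ := fun l => ∑ i : Σ c, Fin (k c), ρ i * l.2 i.1 i.2
    with hmm
  set co : (Σ _ : ℕ, ∀ c, Fin (k c) → ℕ) → ℂ := fun l =>
    (4 / π * β l.1 : ℝ) * -Complex.I * ∏ c, e c l.1 (l.2 c) with hco
  have hpi := pi_pos
  have hco2 : ∀ l ∈ L, ‖co l‖ ^ 2 = 16 / π ^ 2 * (Γ * l.1) := fun l hl => by
    obtain ⟨hj, hm⟩ := hLm _ hl
    rw [← hβg _ hj, hco]
    simp only [norm_mul, norm_neg, Complex.norm_I, mul_one, Complex.norm_real, Real.norm_eq_abs,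
      norm_prod, mul_pow, sq_abs, ← prod_pow]
    rw [prod_congr rfl fun c _ => he c _ hj _ (hm c)]
    ring
  set J : ℝ := ∑ l ∈ L, (l.1 : ℝ) with hJ
  have hJE : (1 - ε1) ^ 2 ≤ 8 / π ^ 2 * (Γ * J) := by
    have h3 : Γ * J = ∑ j ∈ M.divisors, β j ^ 2 * ∏ c, ((Ls c j).card * g c j) := by
      rw [hJ, hL, sum_sigma, mul_sum]
      refine sum_congr rfl fun j hj => ?_
      simp only [sum_const, Fintype.card_piFinset, nsmul_eq_mul, prod_mul_distrib]
      rw [mul_left_comm (β j ^ 2), hβg j hj]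
      push_cast
      ring
    have h4 : ∑ j ∈ M.divisors, (j : ℝ) ^ (-2 - 2 * s) * (exp (-(τ * δ)) * (1 - 2 * δ) ^ N) ≤
        Γ * J := by
      rw [h3]
      refine sum_le_sum fun j hj => ?_
      have hj0 : (0 : ℝ) < j := by exact_mod_cast Nat.pos_of_mem_divisors hj
      have h5 : β j ^ 2 = (j : ℝ) ^ (-2 - 2 * s) * exp (2 * u j) := by
        rw [hβ]
        simp only
        rw [mul_pow, ← rpow_natCast, ← rpow_mul hj0.le, ← exp_nat_mul]
        congr 2
        push_cast; ring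
      have h6 : (1 - 2 * δ) ^ N ≤ ∏ c, ((Ls c j).card * g c j) := by
        rw [hN, ← card_univ, ← prod_const]
        exact prod_le_prod (fun _ _ => by linarith) fun c _ =>
          le_trans (by linarith [(hc c).2.2.1]) (hcard c j hj)
      rw [h5, mul_assoc]
      have : 0 ≤ (1 - 2 * δ) ^ N := pow_nonneg (by linarith) _
      gcongr
      exact (abs_le.1 (hu j hj).1).1
    rw [← sum_mul] at h4
    have h5 : π ^ 2 / 8 * (1 - ε1) * (1 - ε1) ≤ Γ * J :=
      le_trans (mul_le_mul hE h2.le (by linarith) (sum_nonneg fun _ _ => by positivity)) h4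
    calc (1 - ε1) ^ 2 = 8 / π ^ 2 * (π ^ 2 / 8 * (1 - ε1) * (1 - ε1)) := by field_simp
      _ ≤ _ := by gcongr
  have hEp : 0 < 8 / π ^ 2 * (Γ * J) := lt_of_lt_of_le (pow_pos (by linarith) 2) hJE
  have hJp : 0 < J := by
    by_contra h3
    have : Γ * J ≤ 0 := mul_nonpos_of_nonneg_of_nonpos hΓp.le (not_lt.1 h3)
    have : 8 / π ^ 2 * (Γ * J) ≤ 0 := mul_nonpos_of_nonneg_of_nonpos (by positivity) this
    linarith
  have hFb : ∀ x y : ℝ, |(∑ l ∈ L, co l * ex (l.1 * x + mm l * y)).re| ≤ 1 + 2 * ε1 := by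
    intro x y
    choose D hD1 hD2 using fun c => hD c fun i => ρ ⟨c, i⟩ * y
    set B : _ → ℕ → ℂ := fun c j => ∑ m ∈ Ls c j, e c j m * ex (∑ i, (m i : ℝ) * (ρ ⟨c, i⟩ * y))
      with hB
    set b : ℕ → ℂ := fun j => (4 / π * (j : ℝ) ^ (-1 - s) : ℝ) * -Complex.I with hb
    have h3 : ∑ l ∈ L, co l * ex (l.1 * x + mm l * y) =
        ∑ j ∈ M.divisors, b j * (exp (u j) * ∏ c, B c j) * ex (j * x) := by
      rw [hL, sum_sigma]
      refine sum_congr rfl fun j _ => ?_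
      simp only [hB, prod_univ_sum, mul_sum, sum_mul]
      refine sum_congr rfl fun m _ => ?_
      have h4 : ((mm ⟨j, m⟩ : ℤ) : ℝ) * y = ∑ c, ∑ i, (m c i : ℝ) * (ρ ⟨c, i⟩ * y) := by
        rw [hmm]
        push_cast
        rw [sum_mul, Fintype.sum_sigma]
        exact sum_congr rfl fun c _ => sum_congr rfl fun i _ => by ring
      rw [ex_add, h4, ex_sum, prod_mul_distrib, hco, hb, hβ]
      push_cast
      ring
    have h4 := (Dom.prod univ fun c _ => hD1 c).2 b (1 + ε1) (fun x => by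
      have h5 : (∑ j ∈ M.divisors, b j * ex (j * x)).re =
          4 / π * ∑ j ∈ M.divisors, (j : ℝ) ^ (-1 - s) * sin (j * x) := by
        rw [Complex.re_sum, mul_sum]
        refine sum_congr rfl fun j _ => ?_
        rw [hb]
        simp only
        rw [mul_assoc, Complex.re_ofReal_mul]
        simp [mul_assoc]
      rw [h5, abs_mul, abs_of_pos (by positivity)]
      calc _ ≤ 4 / π * (π / 4 * (1 + ε1)) := by gcongr; exact hF x
        _ = _ := by field_simp) x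
    have h5 : ‖∑ j ∈ M.divisors, b j * (exp (u j) * ∏ c, B c j) * ex (j * x) -
        ∑ j ∈ M.divisors, b j * (∏ c, D c j) * ex (j * x)‖ ≤ ε1 := by
      rw [← sum_sub_distrib]
      refine (norm_sum_le _ _).trans ((sum_le_sum
        (g := fun _ => 2 * (exp (τ * δ) * (1 + δ) ^ N - 1)) fun j hj => ?_).trans ?_)
      · have hj1 : (1 : ℝ) ≤ j := by exact_mod_cast Nat.pos_of_mem_divisors hj
        rw [← sub_mul, ← mul_sub, norm_mul, norm_ex, mul_one, norm_mul]
        have h6 : ‖b j‖ ≤ 2 := by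
          rw [hb]
          simp only [norm_mul, norm_neg, Complex.norm_I, mul_one, Complex.norm_real]
          rw [Real.norm_of_nonneg (by positivity), Real.norm_of_nonneg (by positivity)]
          calc _ ≤ (2 : ℝ) * 1 := by
                gcongr
                · rw [div_le_iff₀ hpi]; linarith only [two_le_pi]
                · exact rpow_le_one_of_one_le_of_nonpos hj1 (by linarith)
            _ = 2 := mul_one _
        have h7 := Blkx.norm_prod_sub univ hδ.le (fun c => (hD1 c).1 j) fun c => hD2 c j hj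
        rw [card_univ, ← hN] at h7
        have h8 : ‖∏ c, D c j‖ ≤ 1 := (Dom.prod univ fun c _ => hD1 c).1 j
        have h9 := abs_le.1 (hu j hj).1
        have h10 : 0 ≤ τ * δ := by positivity
        have h11 : exp (u j) ≤ exp (τ * δ) := exp_le_exp.2 (by linarith [h9.2])
        have h12 : |exp (u j) - 1| ≤ exp (τ * δ) - 1 := by
          have h12 := add_one_le_exp (u j)
          have h13 := add_one_le_exp (τ * δ)
          rw [abs_le]
          constructor <;> linarith only [h9.1, h10, h11, h12, h13]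
        refine mul_le_mul h6 ?_ (norm_nonneg _) zero_le_two
        rw [show (exp (u j) : ℂ) * ∏ c, B c j - ∏ c, D c j = (exp (u j) : ℂ) *
          (∏ c, B c j - ∏ c, D c j) + ((exp (u j) - 1 : ℝ) : ℂ) * ∏ c, D c j by push_cast; ring]
        refine (norm_add_le _ _).trans ?_
        rw [norm_mul, norm_mul, Complex.norm_real, Complex.norm_real,
          Real.norm_of_nonneg (exp_pos _).le, Real.norm_eq_abs]
        calc _ ≤ exp (τ * δ) * ((1 + δ) ^ N - 1) + (exp (τ * δ) - 1) * 1 := by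
              gcongr
              exact (abs_nonneg _).trans h12
          _ = _ := by ring
      · rw [sum_const, nsmul_eq_mul, ← hτ]; linarith
    have h6 := (Complex.abs_re_le_norm _).trans h5
    rw [Complex.sub_re] at h6
    rw [h3]
    have := abs_sub_abs_le_abs_sub (∑ j ∈ M.divisors, b j * (exp (u j) * ∏ c, B c j) *
      ex (j * x)).re (∑ j ∈ M.divisors, b j * (∏ c, D c j) * ex (j * x)).re
    linarith
  have hsum : ∀ {A : Type} [AddCommMonoid A] (f : (Σ _ : ℕ, ∀ c, Fin (k c) → ℕ) → A),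
      ∑ i, f (L.equivFin.symm i) = ∑ l ∈ L, f l := fun f => by
    rw [← sum_coe_sort L, L.equivFin.symm.sum_comp fun l => f l]
  refine ⟨L.card, M, fun i => (L.equivFin.symm i).1.1, fun i => mm (L.equivFin.symm i),
    fun i => (co (L.equivFin.symm i)).arg, ?_, hM,
    fun i => Nat.dvd_of_mem_divisors (hLm _ (L.equivFin.symm i).2).1, fun i i' hi h => ?_,
    fun x y => ?_⟩
  · rw [card_pos]
    by_contra h3
    rw [hJ, not_nonempty_iff_eq_empty.1 h3] at hJp
    simp at hJp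
  · refine hρ ((L.equivFin.symm i).1, (L.equivFin.symm i').1) (mem_offDiag.2
      ⟨(L.equivFin.symm i).2, (L.equivFin.symm i').2,
        fun h3 => hi (L.equivFin.symm.injective (Subtype.ext h3))⟩) ?_
    simp only [hmm, mul_sum] at h
    simp only [mul_sub, sum_sub_distrib, mul_left_comm (ρ _), h, sub_self]
  · rw [hsum fun l => (l.1 : ℝ), ← hJ, hsum fun l => √(2 * (l.1 : ℝ) / J) *
      cos (l.1 * x + mm l * y + (co l).arg)]
    have h3 : ∑ l ∈ L, √(2 * (l.1 : ℝ) / J) * cos (l.1 * x + mm l * y + (co l).arg) =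
        (∑ l ∈ L, co l * ex (l.1 * x + mm l * y)).re / √(8 / π ^ 2 * (Γ * J)) := by
      rw [Complex.re_sum, sum_div]
      refine sum_congr rfl fun l hl => ?_
      have h4 : √(2 * (l.1 : ℝ) / J) = ‖co l‖ / √(8 / π ^ 2 * (Γ * J)) := by
        rw [← sqrt_sq (norm_nonneg (co l)), ← sqrt_div (sq_nonneg _), hco2 l hl]
        congr 1
        field_simp
        ring
      conv_rhs => rw [← Complex.norm_mul_exp_arg_mul_I (co l), ← ex_def, mul_assoc, ← ex_add,
        Complex.re_ofReal_mul, ex_re]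
      rw [h4, add_comm _ (co l).arg]
      ring
    rw [h3, abs_div, abs_of_nonneg (sqrt_nonneg _), div_le_iff₀ (sqrt_pos.2 hEp)]
    have h4 : 1 - ε1 ≤ √(8 / π ^ 2 * (Γ * J)) := le_sqrt_of_sq_le hJE
    have h5 : ε1 * (3 + ε) = ε := by rw [hε1]; field_simp
    have := hFb x y
    nlinarith

end Crest.Agent.H0100
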