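import Crest.Agent.H0100.Nib2

/-! The nibble: almost perfect matchings. -/

set_option autoImplicit false

namespace Crest.Agent.H0100.Nibx

open Finset

theorem step {V E : Type} [Fintype V] [Fintype E] [DecidableEq V] [DecidableEq E]
    (k : ℕ) (γ θ δ D c : ℝ) (hγ0 : 0 < γ) (hγ1 : γ < 1) (hθ : 0 < θ) (hδ0 : 0 < δ)
    (hL : ((2 * (k + 1) : ℕ) : ℝ) ^ 2 * δ ≤ 1 / 2) (hc : 0 ≤ c)
    (S : E → Finset V) (H : Finset E) (hD : 1 ≤ δ * D) (hS : ∀ e ∈ H, (S e).card = k + 1)
    (hdeg : ∀ v, ((H.filter (fun e => v ∈ S e)).card : ℝ) ≤ D)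
    (hcod : ∀ u v, u ≠ v → ((H.filter (fun e => u ∈ S e ∧ v ∈ S e)).card : ℝ) ≤ δ * D) :
    ∃ G ⊆ H, ∃ H' ⊆ H, (∀ e ∈ G, ∀ f ∈ G, e ≠ f → Disjoint (S e) (S f)) ∧
      (∀ g ∈ G, ∀ e ∈ H', Disjoint (S g) (S e)) ∧
      (∀ v, ((H'.filter (fun e => v ∈ S e)).card : ℝ) ≤ (1 + θ) * (1 - γ) ^ k * D) ∧
      (H.card : ℝ) * (γ * (1 - (k + 1) * γ) * ((1 + θ) * (1 - γ) ^ k) +
        c * ((1 - γ) ^ (k + 1) - (k + 1) * (1 + θ) *
          (2 * (((2 * (k + 1) : ℕ) : ℝ) ^ 2 * δ) + (k + 1) * δ) / (θ ^ 2 * (1 - γ) ^ k))) ≤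
        G.card * ((1 + θ) * (1 - γ) ^ k * D) + c * H'.card := by
  have hδ1 : δ ≤ 1 := by
    have : (1 : ℝ) ≤ ((2 * (k + 1) : ℕ) : ℝ) ^ 2 := one_le_pow₀ (by exact_mod_cast (by omega))
    nlinarith
  have hD0 : 0 < D := by
    by_contra h
    nlinarith [not_lt.1 h]
  have hD1 : 1 ≤ D := by nlinarith
  set q := 1 - γ with hq
  have hq0 : 0 < q := by linarith
  have hq1 : q ≤ 1 := by linarith
  set a := q ^ k with ha
  have ha0 : 0 < a := pow_pos hq0 k
  set p := γ / D with hp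
  have hp0 : 0 < p := div_pos hγ0 hD0
  have hpD : D * p = γ := by rw [hp]; field_simp
  have hp1 : p < 1 := by nlinarith
  set d : V → ℕ := fun v => (H.filter (fun e => v ∈ S e)).card with hd
  have hb : ∀ v, q ≤ (1 - p) ^ d v := by
    intro v
    have h1 : 1 + (d v : ℝ) * (-p) ≤ (1 + -p) ^ d v := one_add_mul_le_pow (by linarith) _
    have h2 : (d v : ℝ) * p ≤ D * p := mul_le_mul_of_nonneg_right (hdeg v) hp0.le
    rw [sub_eq_add_neg (1 : ℝ) p]
    linarith
  have hb0 : ∀ v, 0 < (1 - p) ^ d v := fun v => pow_pos (by linarith) _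
  set P : E ⊕ V → ℝ := Sum.elim (fun _ => p) (fun v => 1 - q / (1 - p) ^ d v) with hP
  have h0 : ∀ i, 0 ≤ P i := by
    rintro (e | v)
    · exact hp0.le
    · exact sub_nonneg.2 ((div_le_one (hb0 v)).2 (hb v))
  have h1 : ∀ i, P i ≤ 1 := by
    rintro (e | v)
    · exact hp1.le
    · exact sub_le_self _ (div_nonneg hq0.le (hb0 v).le)
  have hBq : ∀ v, ∏ i ∈ Bv S H v, (1 - P i) = q := by
    intro v
    have := (hb0 v).ne'
    simp only [Bv, prod_disjSum, hP, Sum.elim_inl, Sum.elim_inr, prod_const, prod_singleton,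
      sub_sub_cancel]
    change (1 - p) ^ d v * _ = q
    field_simp
  have hBδ : ∀ u v, u ≠ v → ∑ i ∈ Bv S H u ∩ Bv S H v, P i ≤ δ := by
    intro u v huv
    have e1 : Bv S H u ∩ Bv S H v = (H.filter (fun e => u ∈ S e ∧ v ∈ S e)).disjSum ∅ := by
      ext i
      rcases i with e | w
      · simp only [Bv, mem_inter, inl_mem_disjSum, mem_filter]; tauto
      · simp only [Bv, mem_inter, inr_mem_disjSum, mem_singleton, notMem_empty, iff_false]
        rintro ⟨rfl, h⟩; exact huv h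
    rw [e1, sum_disjSum, sum_empty, add_zero]
    simp only [hP, Sum.elim_inl, sum_const, nsmul_eq_mul]
    calc _ ≤ δ * D * p := mul_le_mul_of_nonneg_right (hcod u v huv) hp0.le
      _ = δ * γ := by rw [mul_assoc, hpD]
      _ ≤ δ := mul_le_of_le_one_right hδ0.le hγ1.le
  set D' := (1 + θ) * a * D with hD'
  have hD'0 : 0 < D' := by positivity
  set κ := 2 * (((2 * (k + 1) : ℕ) : ℝ) ^ 2 * δ) + (k + 1) * δ with hκ
  set C := (1 + θ) / (θ ^ 2 * a * D) with hC
  have hC0 : 0 ≤ C := by positivity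
  set H' : Finset (E ⊕ V) → Finset E := fun t =>
    (H0 S H t).filter (fun e => ∀ v ∈ S e, Y S H v t ≤ D') with hH'
  -- pointwise loss
  have loss : ∀ t, ((H0 S H t).card : ℝ) - C * ∑ v, Z S H (d v * a) v t ≤ (H' t).card := by
    intro t
    have l1 : ∀ v, (if Y S H v t ≤ D' then 0 else Y S H v t) ≤ C * Z S H (d v * a) v t := by
      intro v
      rcases Z_cases S H (d v * a) v t with ⟨h2, h3⟩ | h3
      · rw [h2, h3]; simp
      · rw [h3]
        split_ifs with h4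
        · positivity
        · push Not at h4
          set y := Y S H v t
          have h5 : (d v : ℝ) * a ≤ D * a := mul_le_mul_of_nonneg_right (hdeg v) ha0.le
          have hy : 0 < y := hD'0.trans h4
          have h6 : θ * y ≤ (1 + θ) * (y - d v * a) := by nlinarith
          have h7 : (θ * y) ^ 2 ≤ ((1 + θ) * (y - d v * a)) ^ 2 :=
            pow_le_pow_left₀ (by positivity) h6 2
          rw [hC, div_mul_eq_mul_div, le_div_iff₀ (by positivity)]
          have h8 : θ ^ 2 * y * D' ≤ θ ^ 2 * y * y :=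
            mul_le_mul_of_nonneg_left h4.le (by positivity)
          have h9 : (1 + θ) * (y * (θ ^ 2 * a * D)) ≤
              (1 + θ) * ((1 + θ) * (y - d v * a) ^ 2) := by
            calc (1 + θ) * (y * (θ ^ 2 * a * D)) = θ ^ 2 * y * D' := by rw [hD']; ring
              _ ≤ θ ^ 2 * y * y := h8
              _ = (θ * y) ^ 2 := by ring
              _ ≤ _ := h7
              _ = _ := by ring
          exact le_of_mul_le_mul_left h9 (by positivity)
    have l2 : H0 S H t ⊆ H' t ∪ (univ.filter (fun v => ¬ Y S H v t ≤ D')).biUnion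
        (fun v => (H0 S H t).filter (fun e => v ∈ S e)) := by
      intro e he
      by_cases h : ∀ v ∈ S e, Y S H v t ≤ D'
      · exact mem_union_left _ (mem_filter.2 ⟨he, h⟩)
      · push Not at h
        obtain ⟨v, hv, hv'⟩ := h
        exact mem_union_right _ (mem_biUnion.2 ⟨v, mem_filter.2 ⟨mem_univ _, not_le.2 hv'⟩,
          mem_filter.2 ⟨he, hv⟩⟩)
    have l3 : ((H0 S H t).card : ℝ) ≤ (H' t).card +
        ∑ v ∈ univ.filter (fun v => ¬ Y S H v t ≤ D'),
          (((H0 S H t).filter (fun e => v ∈ S e)).card : ℝ) := by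
      exact_mod_cast (card_le_card l2).trans ((card_union_le _ _).trans
        (Nat.add_le_add_left card_biUnion_le _))
    have l4 : ∑ v ∈ univ.filter (fun v => ¬ Y S H v t ≤ D'),
          (((H0 S H t).filter (fun e => v ∈ S e)).card : ℝ) ≤
        C * ∑ v, Z S H (d v * a) v t := by
      rw [sum_filter, mul_sum]
      refine sum_le_sum fun v _ => le_trans (le_of_eq ?_) (l1 v)
      rw [← Y_eq]
      split_ifs <;> rfl
    linarith
  -- expectation
  have E1 := Ex_good S H (k + 1) D p P h0 h1 (fun _ => rfl) hp0.le hS hdeg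
  have E2 := Ex_H0 S H (k + 1) q P h0 h1 hBq hS
  have E3 : Ex P (fun t => ∑ v, Z S H (d v * a) v t) ≤ (k + 1) * H.card * (D * κ) := by
    rw [Ex_sum]
    have := sum_deg S H (k + 1) hS
    push_cast at this
    rw [← this, sum_mul]
    refine sum_le_sum fun v _ => ?_
    rw [← mul_assoc]
    exact Ex_Z S H k q δ D P h0 h1 hq0.le hq1 hBq hBδ hδ0.le hL hS hdeg hcod v
  have E4 : Ex P (fun t => ((H0 S H t).card : ℝ)) -
      C * Ex P (fun t => ∑ v, Z S H (d v * a) v t) ≤ Ex P (fun t => ((H' t).card : ℝ)) := by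
    rw [← Ex_mul, ← Ex_sub]
    exact Ex_mono h0 h1 loss
  obtain ⟨t, ht⟩ := exists_Ex_le h0 h1
    (fun t => D' * ((Good S H t).card : ℝ) + c * ((H' t).card : ℝ))
  rw [Ex_add, Ex_mul, Ex_mul] at ht
  refine ⟨Good S H t, filter_subset _ _, H' t, (filter_subset _ _).trans (filter_subset _ _),
    good_matching S H t, fun g hg e he => good_H0 S H t g hg e (mem_filter.1 he).1, ?_, ?_⟩
  · intro v
    rcases ((H' t).filter (fun e => v ∈ S e)).eq_empty_or_nonempty with h | ⟨e, he⟩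
    · rw [h]; simpa using hD'0.le
    · obtain ⟨h2, h3⟩ := mem_filter.1 he
      refine le_trans ?_ ((mem_filter.1 h2).2 v h3)
      rw [Y_eq]
      exact_mod_cast card_le_card (filter_subset_filter _ (filter_subset _ _))
  · have f1 : D' * (H.card * (p * (1 - ((k + 1 : ℕ) : ℝ) * D * p))) ≤
        D' * Ex P (fun t => ((Good S H t).card : ℝ)) := mul_le_mul_of_nonneg_left E1 hD'0.le
    have f2 : C * Ex P (fun t => ∑ v, Z S H (d v * a) v t) ≤ C * ((k + 1) * H.card * (D * κ)) :=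
      mul_le_mul_of_nonneg_left E3 hC0
    have f3 : c * (H.card * q ^ (k + 1) - C * ((k + 1) * H.card * (D * κ))) ≤
        c * Ex P (fun t => ((H' t).card : ℝ)) := mul_le_mul_of_nonneg_left (by linarith) hc
    have f4 : D' * (H.card * (p * (1 - ((k + 1 : ℕ) : ℝ) * D * p))) =
        H.card * (γ * (1 - (k + 1) * γ) * ((1 + θ) * a)) := by
      rw [hD', ← hpD]; push_cast; ring
    have f5 : C * ((k + 1) * H.card * (D * κ)) =
        H.card * ((k + 1) * (1 + θ) * κ / (θ ^ 2 * a)) := by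
      rw [hC]; field_simp
    rw [f4] at f1
    rw [f5] at f3
    rw [mul_comm ((Good S H t).card : ℝ) D']
    nlinarith

/-- matchings of relative size `c` -/
def Pc (K : ℕ) (c : ℝ) : Prop := ∀ η : ℝ, 0 < η → ∃ δ : ℝ, 0 < δ ∧
  ∀ (V E : Type) [Fintype V] [Fintype E] [DecidableEq V] [DecidableEq E]
    (S : E → Finset V) (H : Finset E) (D : ℝ),
    1 ≤ δ * D → (∀ e ∈ H, (S e).card = K) →
    (∀ v, ((H.filter (fun e => v ∈ S e)).card : ℝ) ≤ D) →
    (∀ u v, u ≠ v → ((H.filter (fun e => u ∈ S e ∧ v ∈ S e)).card : ℝ) ≤ δ * D) →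
    ∃ M ⊆ H, (∀ e ∈ M, ∀ f ∈ M, e ≠ f → Disjoint (S e) (S f)) ∧
      (c - η) * (H.card : ℝ) ≤ (M.card : ℝ) * D

theorem Pc_zero (K : ℕ) : Pc K 0 := by
  intro η hη
  refine ⟨1, one_pos, fun V E _ _ _ _ S H D _ _ _ _ => ⟨∅, empty_subset _, by simp, ?_⟩⟩
  simp only [card_empty, Nat.cast_zero, zero_mul, zero_sub]
  exact mul_nonpos_of_nonpos_of_nonneg (by linarith) (Nat.cast_nonneg _)

theorem Pc_step (k : ℕ) (γ c : ℝ) (hγ0 : 0 < γ) (hγ1 : γ < 1) (hc0 : 0 ≤ c) (hc1 : c ≤ 1)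
    (h : Pc (k + 1) c) : Pc (k + 1) (γ * (1 - (k + 1) * γ) + (1 - γ) * c) := by
  intro η hη
  set q := 1 - γ with hq
  have hq0 : 0 < q := by linarith
  have hq1 : q ≤ 1 := by linarith
  set a := q ^ k with ha
  have ha0 : 0 < a := pow_pos hq0 k
  have ha1 : a ≤ 1 := pow_le_one₀ hq0.le hq1
  set θ := η / 3 with hθ
  have hθ0 : 0 < θ := by positivity
  obtain ⟨δ', hδ', h⟩ := h (θ * a) (by positivity)
  set L : ℝ := ((2 * (k + 1) : ℕ) : ℝ) ^ 2 with hL
  have hL0 : 0 < L := by positivity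
  set W : ℝ := (k + 1) * (1 + θ) * (2 * L + (k + 1)) / (θ ^ 2 * a) with hW
  have hW0 : 0 < W := by positivity
  refine ⟨min (δ' * a) (min (1 / (2 * L)) (θ * a / W)), by positivity, ?_⟩
  set δ := min (δ' * a) (min (1 / (2 * L)) (θ * a / W)) with hδ
  have hδ0 : 0 < δ := by positivity
  have d1 : δ ≤ δ' * a := min_le_left _ _
  have d2 : L * δ ≤ 1 / 2 := by
    have : δ ≤ 1 / (2 * L) := (min_le_right _ _).trans (min_le_left _ _)
    rw [le_div_iff₀ (by positivity)] at this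
    linarith
  have d3 : W * δ ≤ θ * a := by
    have : δ ≤ θ * a / W := (min_le_right _ _).trans (min_le_right _ _)
    rw [le_div_iff₀ hW0] at this
    linarith
  intro V E _ _ _ _ S H D hD hS hdeg hcod
  have hD0 : 0 < D := by
    by_contra h
    nlinarith [not_lt.1 h]
  obtain ⟨G, hG, H', hH', g1, g2, g3, g4⟩ :=
    step k γ θ δ D c hγ0 hγ1 hθ0 hδ0 d2 hc0 S H hD hS hdeg hcod
  rw [← hq, ← ha, ← hL] at g4
  rw [← hq, ← ha] at g3
  have d4 : δ * D ≤ δ' * ((1 + θ) * a * D) := by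
    have : δ * D ≤ δ' * a * D := mul_le_mul_of_nonneg_right d1 hD0.le
    have h2 : 0 ≤ θ * (δ' * a * D) := by positivity
    nlinarith
  obtain ⟨M, hM, m1, m2⟩ := h V E S H' ((1 + θ) * a * D) (hD.trans d4)
    (fun e he => hS e (hH' he)) g3 (fun u v huv => le_trans (by
      exact_mod_cast card_le_card (filter_subset_filter _ hH')) ((hcod u v huv).trans d4))
  have hdis : Disjoint G M := by
    rw [disjoint_left]
    intro e he he'
    have h2 := g2 e he e (hM he')
    rw [disjoint_self, bot_eq_empty] at h2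
    have h3 := hS e (hG he)
    rw [h2] at h3
    simp at h3
  refine ⟨G ∪ M, union_subset hG (hM.trans hH'), ?_, ?_⟩
  · intro e he f hf hef
    rcases mem_union.1 he with he | he <;> rcases mem_union.1 hf with hf | hf
    · exact g1 e he f hf hef
    · exact g2 e he f (hM hf)
    · exact (g2 f hf e (hM he)).symm
    · exact m1 e he f hf hef
  · rw [card_union_of_disjoint hdis]
    push_cast
    have e1 : (k + 1) * (1 + θ) * (2 * (L * δ) + (k + 1) * δ) / (θ ^ 2 * a) = W * δ := by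
      rw [hW]; field_simp
    rw [e1, pow_succ, ← ha] at g4
    have hH0 : (0 : ℝ) ≤ H.card := Nat.cast_nonneg _
    have hle : (H'.card : ℝ) ≤ H.card := by exact_mod_cast card_le_card hH'
    have e2 : θ * a * (H'.card : ℝ) ≤ θ * a * H.card :=
      mul_le_mul_of_nonneg_left hle (by positivity)
    have e3 : c * (W * δ) ≤ θ * a :=
      (mul_le_of_le_one_left (by positivity) hc1).trans d3
    have e4 : c * q * (θ * a) ≤ θ * a :=
      mul_le_of_le_one_left (by positivity) (mul_le_one₀ hc1 hq0.le hq1)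
    have e5 : (γ * (1 - (k + 1) * γ) + q * c - η) * ((1 + θ) * a) ≤
        γ * (1 - (k + 1) * γ) * ((1 + θ) * a) + c * (a * q - W * δ) - θ * a := by
      have : η = 3 * θ := by rw [hθ]; ring
      rw [this]
      have h5 : 0 ≤ θ * (θ * a) := by positivity
      nlinarith
    have e6 := mul_le_mul_of_nonneg_left e5 hH0
    have e7 : ((1 + θ) * a) * ((γ * (1 - (k + 1) * γ) + q * c - η) * H.card) ≤
        ((1 + θ) * a) * (((G.card : ℝ) + M.card) * D) := by nlinarith
    exact le_of_mul_le_mul_left e7 (by positivity)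

theorem Pc_iter (k : ℕ) (γ : ℝ) (hγ0 : 0 < γ) (hγ1 : (k + 1) * γ ≤ 1) (hγ2 : γ < 1) (n : ℕ) :
    Pc (k + 1) ((1 - (k + 1) * γ) * (1 - (1 - γ) ^ n)) := by
  induction n with
  | zero => simpa using Pc_zero (k + 1)
  | succ n ih =>
    have h1 : (1 - γ) ^ n ≤ 1 := pow_le_one₀ (by linarith) (by linarith)
    have h2 : 0 ≤ (1 - γ) ^ n := pow_nonneg (by linarith) _
    have h3 : 0 ≤ ((k : ℝ) + 1) * γ := by positivity
    have := Pc_step k γ _ hγ0 hγ2 (mul_nonneg (by linarith) (by linarith))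
      (mul_le_one₀ (by linarith) (by linarith) (by linarith)) ih
    convert this using 1
    ring

end Crest.Agent.H0100.Nibx

namespace Crest.Agent.H0100

open Nibx

theorem nib : Nib := by
  intro K ε hK hε
  obtain ⟨k, rfl⟩ : ∃ k, K = k + 1 := ⟨K - 1, by omega⟩
  set γ : ℝ := min (ε / 3) (1 / 2) / (k + 1) with hγ
  have hk : (1 : ℝ) ≤ k + 1 := by linarith [(Nat.cast_nonneg k : (0 : ℝ) ≤ k)]
  have hγ0 : 0 < γ := by positivity
  have h1 : (k + 1) * γ = min (ε / 3) (1 / 2) := by rw [hγ]; field_simp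
  have h2 : (k + 1) * γ ≤ ε / 3 := h1 ▸ min_le_left _ _
  have h3 : (k + 1) * γ ≤ 1 / 2 := h1 ▸ min_le_right _ _
  have h4 : γ < 1 := by nlinarith
  obtain ⟨n, hn⟩ := exists_pow_lt_of_lt_one (show 0 < ε / 3 by positivity)
    (show 1 - γ < 1 by linarith)
  obtain ⟨δ, hδ, h⟩ := Pc_iter k γ hγ0 (by linarith) h4 n (ε / 3) (by positivity)
  refine ⟨δ, hδ, fun V E _ _ _ _ S H D hD hS hdeg hcod => ?_⟩
  obtain ⟨M, hM, m1, m2⟩ := h V E S H D hD hS hdeg hcod
  refine ⟨M, hM, m1, le_trans (mul_le_mul_of_nonneg_right ?_ (Nat.cast_nonneg _)) m2⟩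
  have h5 : 0 ≤ (1 - γ) ^ n := pow_nonneg (by linarith) _
  have h6 : 0 ≤ ((k : ℝ) + 1) * γ := by positivity
  nlinarith [mul_nonneg h5 h6]

end Crest.Agent.H0100
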