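import Crest.Agent.H0100.Defs

/-! Random subsets with independent coins (finite sums only). -/

set_option autoImplicit false

namespace Crest.Agent.H0100.Nibx

open Finset

variable {I : Type} [Fintype I] [DecidableEq I]

/-- weight of the subset `t` -/
noncomputable def wt (p : I → ℝ) (t : Finset I) : ℝ :=
  (∏ i ∈ t, p i) * ∏ i ∈ univ \ t, (1 - p i)

/-- expectation -/
noncomputable def Ex (p : I → ℝ) (F : Finset I → ℝ) : ℝ := ∑ t : Finset I, wt p t * F t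

theorem wt_nonneg {p : I → ℝ} (h0 : ∀ i, 0 ≤ p i) (h1 : ∀ i, p i ≤ 1) (t : Finset I) :
    0 ≤ wt p t :=
  mul_nonneg (prod_nonneg fun i _ => h0 i) (prod_nonneg fun i _ => sub_nonneg.2 (h1 i))

theorem Ex_prod (p a b : I → ℝ) :
    Ex p (fun t => (∏ i ∈ t, a i) * ∏ i ∈ univ \ t, b i) = ∏ i, (p i * a i + (1 - p i) * b i) := by
  rw [prod_add, powerset_univ]
  refine sum_congr rfl fun t _ => ?_
  rw [wt, prod_mul_distrib, prod_mul_distrib]; ring

theorem Ex_one (p : I → ℝ) : Ex p (fun _ => 1) = 1 := by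
  have := Ex_prod p (fun _ => 1) (fun _ => 1)
  simpa using this

theorem Ex_avoid (p : I → ℝ) (B : Finset I) :
    Ex p (fun t => if Disjoint t B then 1 else 0) = ∏ i ∈ B, (1 - p i) := by
  have h := Ex_prod p (fun i => if i ∈ B then 0 else 1) (fun _ => 1)
  have e1 : ∀ t : Finset I, ((∏ i ∈ t, (if i ∈ B then (0 : ℝ) else 1)) *
      ∏ _i ∈ univ \ t, (1 : ℝ)) = if Disjoint t B then 1 else 0 := by
    intro t
    rw [prod_const_one, mul_one]
    split_ifs with hd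
    · exact prod_eq_one fun i hi => if_neg (disjoint_left.1 hd hi)
    · obtain ⟨i, hi, hi'⟩ := not_disjoint_iff.1 hd
      exact prod_eq_zero hi (if_pos hi')
  simp only [e1] at h
  rw [h, ← prod_filter_mul_prod_filter_not univ (fun i => i ∈ B)]
  rw [prod_eq_one (s := univ.filter (fun i => ¬ i ∈ B)) (fun i hi => by
    simp [(mem_filter.1 hi).2]), mul_one]
  have : univ.filter (fun i => i ∈ B) = B := by ext; simp
  rw [this]
  exact prod_congr rfl fun i hi => by simp [hi]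

theorem Ex_pick (p : I → ℝ) (B : Finset I) (e : I) (he : e ∉ B) :
    Ex p (fun t => if e ∈ t ∧ Disjoint t B then 1 else 0) = p e * ∏ i ∈ B, (1 - p i) := by
  have h1 := Ex_avoid p B
  have h2 := Ex_avoid p (insert e B)
  rw [prod_insert he] at h2
  have : Ex p (fun t => if e ∈ t ∧ Disjoint t B then 1 else 0) =
      Ex p (fun t => if Disjoint t B then 1 else 0) -
        Ex p (fun t => if Disjoint t (insert e B) then 1 else 0) := by
    simp only [Ex, ← sum_sub_distrib]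
    refine sum_congr rfl fun t _ => ?_
    rw [← mul_sub]; congr 1
    by_cases h3 : e ∈ t <;> by_cases h4 : Disjoint t B <;> simp [h3, h4]
  rw [this, h1, h2]; ring

theorem Ex_add (p : I → ℝ) (F G : Finset I → ℝ) :
    Ex p (fun t => F t + G t) = Ex p F + Ex p G := by
  simp only [Ex, mul_add, sum_add_distrib]

theorem Ex_sub (p : I → ℝ) (F G : Finset I → ℝ) :
    Ex p (fun t => F t - G t) = Ex p F - Ex p G := by
  simp only [Ex, mul_sub, sum_sub_distrib]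

theorem Ex_mul (p : I → ℝ) (c : ℝ) (F : Finset I → ℝ) :
    Ex p (fun t => c * F t) = c * Ex p F := by
  simp only [Ex, mul_sum]
  exact sum_congr rfl fun t _ => by ring

theorem Ex_sum {α : Type*} (p : I → ℝ) (s : Finset α) (F : α → Finset I → ℝ) :
    Ex p (fun t => ∑ a ∈ s, F a t) = ∑ a ∈ s, Ex p (F a) := by
  simp only [Ex, mul_sum]
  exact sum_comm

theorem Ex_mono {p : I → ℝ} (h0 : ∀ i, 0 ≤ p i) (h1 : ∀ i, p i ≤ 1) {F G : Finset I → ℝ}
    (h : ∀ t, F t ≤ G t) : Ex p F ≤ Ex p G :=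
  sum_le_sum fun t _ => mul_le_mul_of_nonneg_left (h t) (wt_nonneg h0 h1 t)

theorem exists_Ex_le {p : I → ℝ} (h0 : ∀ i, 0 ≤ p i) (h1 : ∀ i, p i ≤ 1) (F : Finset I → ℝ) :
    ∃ t, Ex p F ≤ F t := by
  obtain ⟨t, -, ht⟩ := exists_max_image (univ : Finset (Finset I)) F univ_nonempty
  refine ⟨t, ?_⟩
  calc Ex p F ≤ Ex p (fun _ => F t * 1) := Ex_mono h0 h1 fun s => by
        simpa using ht s (mem_univ _)
    _ = F t := by rw [Ex_mul, Ex_one, mul_one]

omit [Fintype I] in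
theorem one_sub_sum_le_prod {p : I → ℝ} (h0 : ∀ i, 0 ≤ p i) (h1 : ∀ i, p i ≤ 1) (B : Finset I) :
    1 - ∑ i ∈ B, p i ≤ ∏ i ∈ B, (1 - p i) := by
  induction B using Finset.induction_on with
  | empty => simp
  | insert a s ha ih =>
    rw [sum_insert ha, prod_insert ha]
    have h2 : 0 ≤ ∑ i ∈ s, p i := sum_nonneg fun i _ => h0 i
    have h3 := mul_le_mul_of_nonneg_left ih (sub_nonneg.2 (h1 a))
    nlinarith [mul_nonneg (h0 a) h2]

omit [Fintype I] in
theorem prod_biUnion_lower {V : Type} [DecidableEq V] {p : I → ℝ} (h0 : ∀ i, 0 ≤ p i)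
    (h1 : ∀ i, p i ≤ 1) (B : V → Finset I) {q : ℝ} (hq : ∀ v, ∏ i ∈ B v, (1 - p i) = q)
    (A : Finset V) : q ^ A.card ≤ ∏ i ∈ A.biUnion B, (1 - p i) := by
  induction A using Finset.induction_on with
  | empty => simp
  | insert a s ha ih =>
    rw [card_insert_of_notMem ha, biUnion_insert]
    have h2 := prod_union_inter (s₁ := B a) (s₂ := s.biUnion B) (f := fun i => 1 - p i)
    have hq0 : 0 ≤ q := hq a ▸ prod_nonneg fun i _ => sub_nonneg.2 (h1 i)
    have h3 : ∏ i ∈ B a ∩ s.biUnion B, (1 - p i) ≤ 1 :=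
      prod_le_one (fun i _ => sub_nonneg.2 (h1 i)) fun i _ => by linarith [h0 i]
    have h4 : 0 ≤ ∏ i ∈ B a ∪ s.biUnion B, (1 - p i) :=
      prod_nonneg fun i _ => sub_nonneg.2 (h1 i)
    calc q ^ (s.card + 1) = q * q ^ s.card := by ring
      _ ≤ q * ∏ i ∈ s.biUnion B, (1 - p i) := mul_le_mul_of_nonneg_left ih hq0
      _ = _ := by rw [h2, hq a]
      _ ≤ _ := mul_le_of_le_one_right h4 h3

omit [Fintype I] in
theorem sum_biUnion_le' {V : Type} [DecidableEq V] {p : I → ℝ} (h0 : ∀ i, 0 ≤ p i)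
    (B : V → Finset I) (s : Finset V) :
    ∑ i ∈ s.biUnion B, p i ≤ ∑ u ∈ s, ∑ i ∈ B u, p i := by
  induction s using Finset.induction_on with
  | empty => simp
  | insert a s ha ih =>
    rw [biUnion_insert, sum_insert ha]
    have h2 := sum_union_inter (s₁ := B a) (s₂ := s.biUnion B) (f := p)
    have h3 : 0 ≤ ∑ i ∈ B a ∩ s.biUnion B, p i := sum_nonneg fun i _ => h0 i
    linarith

omit [Fintype I] in
theorem prod_biUnion_upper_aux {V : Type} [DecidableEq V] {p : I → ℝ} (h0 : ∀ i, 0 ≤ p i)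
    (h1 : ∀ i, p i ≤ 1) (B : V → Finset I) {q δ : ℝ} (hq : ∀ v, ∏ i ∈ B v, (1 - p i) = q)
    (hδ : ∀ u v, u ≠ v → ∑ i ∈ B u ∩ B v, p i ≤ δ) (hδ0 : 0 ≤ δ) (L : ℕ) (hL : L * δ ≤ 1)
    (A : Finset V) (hA : A.card ≤ L) :
    (1 - L * δ) ^ A.card * ∏ i ∈ A.biUnion B, (1 - p i) ≤ q ^ A.card := by
  induction A using Finset.induction_on with
  | empty => simp
  | insert a s ha ih =>
    rw [card_insert_of_notMem ha] at hA ⊢
    rw [biUnion_insert]
    have ih' := ih (by omega)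
    have h2 := prod_union_inter (s₁ := B a) (s₂ := s.biUnion B) (f := fun i => 1 - p i)
    have hq0 : 0 ≤ q := hq a ▸ prod_nonneg fun i _ => sub_nonneg.2 (h1 i)
    have h3 : 1 - L * δ ≤ ∏ i ∈ B a ∩ s.biUnion B, (1 - p i) := by
      refine le_trans ?_ (one_sub_sum_le_prod h0 h1 _)
      have e : B a ∩ s.biUnion B = s.biUnion (fun u => B a ∩ B u) := by
        rw [inter_biUnion]
      have h5 : ∑ i ∈ s.biUnion (fun u => B a ∩ B u), p i ≤ ∑ u ∈ s, ∑ i ∈ B a ∩ B u, p i :=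
        sum_biUnion_le' h0 _ s
      have h6 : ∑ u ∈ s, ∑ i ∈ B a ∩ B u, p i ≤ ∑ _u ∈ s, δ :=
        sum_le_sum fun u hu => hδ a u (fun h => ha (h ▸ hu))
      rw [sum_const, nsmul_eq_mul] at h6
      have h7 : (s.card : ℝ) ≤ L := by exact_mod_cast (by omega : s.card ≤ L)
      rw [e]
      nlinarith
    have h4 : 0 ≤ ∏ i ∈ B a ∪ s.biUnion B, (1 - p i) :=
      prod_nonneg fun i _ => sub_nonneg.2 (h1 i)
    have h8 : 0 ≤ (1 - L * δ) ^ s.card := pow_nonneg (by linarith) _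
    calc (1 - L * δ) ^ (s.card + 1) * ∏ i ∈ B a ∪ s.biUnion B, (1 - p i)
        = (1 - L * δ) ^ s.card * ((∏ i ∈ B a ∪ s.biUnion B, (1 - p i)) * (1 - L * δ)) := by ring
      _ ≤ (1 - L * δ) ^ s.card * ((∏ i ∈ B a ∪ s.biUnion B, (1 - p i)) *
            ∏ i ∈ B a ∩ s.biUnion B, (1 - p i)) :=
          mul_le_mul_of_nonneg_left (mul_le_mul_of_nonneg_left h3 h4) h8
      _ = q * ((1 - L * δ) ^ s.card * ∏ i ∈ s.biUnion B, (1 - p i)) := by rw [h2, hq a]; ring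
      _ ≤ q * q ^ s.card := mul_le_mul_of_nonneg_left ih' hq0
      _ = _ := by ring

omit [Fintype I] in
theorem prod_biUnion_upper {V : Type} [DecidableEq V] {p : I → ℝ} (h0 : ∀ i, 0 ≤ p i)
    (h1 : ∀ i, p i ≤ 1) (B : V → Finset I) {q δ : ℝ}
    (hq : ∀ v, ∏ i ∈ B v, (1 - p i) = q)
    (hδ : ∀ u v, u ≠ v → ∑ i ∈ B u ∩ B v, p i ≤ δ) (hδ0 : 0 ≤ δ) (L : ℕ)
    (hL : (L : ℝ) ^ 2 * δ ≤ 1 / 2) (A : Finset V) (hA : A.card ≤ L) :
    ∏ i ∈ A.biUnion B, (1 - p i) ≤ q ^ A.card * (1 + 2 * ((L : ℝ) ^ 2 * δ)) := by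
  have hL1 : (L : ℝ) * δ ≤ (L : ℝ) ^ 2 * δ := by
    refine mul_le_mul_of_nonneg_right ?_ hδ0
    exact_mod_cast (by nlinarith [Nat.zero_le L] : L ≤ L ^ 2)
  have h2 := prod_biUnion_upper_aux h0 h1 B hq hδ hδ0 L (by linarith) A hA
  have h3 : 1 + (A.card : ℝ) * (-(L * δ)) ≤ (1 + -(L * δ)) ^ A.card :=
    one_add_mul_le_pow (by linarith) _
  have h4 : (A.card : ℝ) ≤ L := by exact_mod_cast hA
  have h5 : 0 ≤ (L : ℝ) * δ := by positivity
  have h6 : 1 - (L : ℝ) ^ 2 * δ ≤ (1 - L * δ) ^ A.card := by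
    have : (A.card : ℝ) * (L * δ) ≤ L * (L * δ) := mul_le_mul_of_nonneg_right h4 h5
    rw [sub_eq_add_neg (1 : ℝ) (L * δ)]
    nlinarith
  have h7 : 0 ≤ ∏ i ∈ A.biUnion B, (1 - p i) := prod_nonneg fun i _ => sub_nonneg.2 (h1 i)
  set P := ∏ i ∈ A.biUnion B, (1 - p i)
  set x := (L : ℝ) ^ 2 * δ
  have hx : 0 ≤ x := by positivity
  have h8 : (1 - x) * P ≤ q ^ A.card := (mul_le_mul_of_nonneg_right h6 h7).trans h2
  have h9 : 1 ≤ (1 - x) * (1 + 2 * x) := by nlinarith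
  calc P ≤ (1 - x) * (1 + 2 * x) * P := le_mul_of_one_le_left h7 h9
    _ = (1 - x) * P * (1 + 2 * x) := by ring
    _ ≤ _ := mul_le_mul_of_nonneg_right h8 (by linarith)

end Crest.Agent.H0100.Nibx
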