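import Crest.Agent.H0100.Nib1

/-! One nibble. -/

set_option autoImplicit false

namespace Crest.Agent.H0100.Nibx

open Finset

theorem card_filter_real {α : Type*} (s : Finset α) (p : α → Prop) [DecidablePred p] :
    ((s.filter p).card : ℝ) = ∑ a ∈ s, if p a then (1 : ℝ) else 0 := by
  rw [card_filter]; push_cast; rfl

variable {V E : Type} [Fintype V] [Fintype E] [DecidableEq V] [DecidableEq E]

omit [Fintype E] [DecidableEq E] in
theorem sum_deg (S : E → Finset V) (H : Finset E) (K : ℕ) (hS : ∀ e ∈ H, (S e).card = K) :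
    ∑ v, ((H.filter (fun e => v ∈ S e)).card : ℝ) = K * H.card := by
  simp only [card_filter_real]
  rw [sum_comm]
  have : ∀ e ∈ H, ∑ v, (if v ∈ S e then (1 : ℝ) else 0) = K := by
    intro e he
    rw [← card_filter_real]
    have : univ.filter (fun v => v ∈ S e) = S e := by ext; simp
    rw [this, hS e he]
  rw [sum_congr rfl this, sum_const, nsmul_eq_mul, mul_comm]

/-- the coins which kill the vertex `v` -/
def Bv (S : E → Finset V) (H : Finset E) (v : V) : Finset (E ⊕ V) :=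
  (H.filter (fun e => v ∈ S e)).disjSum {v}

/-- indicator that all of `A` survives -/
noncomputable def ind (S : E → Finset V) (H : Finset E) (A : Finset V) (t : Finset (E ⊕ V)) : ℝ :=
  if Disjoint t (A.biUnion (Bv S H)) then 1 else 0

omit [Fintype V] [Fintype E] in
theorem ind_mul (S : E → Finset V) (H : Finset E) (A A' : Finset V) (t : Finset (E ⊕ V)) :
    ind S H A t * ind S H A' t = ind S H (A ∪ A') t := by
  unfold ind
  rw [union_biUnion]
  by_cases h1 : Disjoint t (A.biUnion (Bv S H)) <;>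
    by_cases h2 : Disjoint t (A'.biUnion (Bv S H)) <;> simp [h1, h2]

theorem Ex_ind (S : E → Finset V) (H : Finset E) (P : E ⊕ V → ℝ) (A : Finset V) :
    Ex P (ind S H A) = ∏ i ∈ A.biUnion (Bv S H), (1 - P i) := Ex_avoid P _

/-- surviving edges -/
def H0 (S : E → Finset V) (H : Finset E) (t : Finset (E ⊕ V)) : Finset E :=
  H.filter (fun e => Disjoint t ((S e).biUnion (Bv S H)))

/-- neighbours of an edge -/
def Nb (S : E → Finset V) (H : Finset E) (e : E) : Finset (E ⊕ V) :=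
  (H.filter (fun f => f ≠ e ∧ ¬ Disjoint (S e) (S f))).disjSum ∅

/-- isolated picked edges -/
def Good (S : E → Finset V) (H : Finset E) (t : Finset (E ⊕ V)) : Finset E :=
  H.filter (fun e => Sum.inl e ∈ t ∧ Disjoint t (Nb S H e))

omit [Fintype V] [Fintype E] in
theorem good_matching (S : E → Finset V) (H : Finset E) (t : Finset (E ⊕ V)) :
    ∀ e ∈ Good S H t, ∀ f ∈ Good S H t, e ≠ f → Disjoint (S e) (S f) := by
  intro e he f hf hef
  by_contra hd
  obtain ⟨-, -, h2⟩ := mem_filter.1 he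
  obtain ⟨h3, h4, -⟩ := mem_filter.1 hf
  refine disjoint_left.1 h2 h4 ?_
  simp only [Nb, inl_mem_disjSum, mem_filter]
  exact ⟨h3, hef.symm, hd⟩

omit [Fintype V] [Fintype E] in
theorem good_H0 (S : E → Finset V) (H : Finset E) (t : Finset (E ⊕ V)) :
    ∀ g ∈ Good S H t, ∀ e ∈ H0 S H t, Disjoint (S g) (S e) := by
  intro g hg e he
  rw [disjoint_left]
  intro v hv hv'
  obtain ⟨h1, h2, -⟩ := mem_filter.1 hg
  obtain ⟨-, h4⟩ := mem_filter.1 he
  refine disjoint_left.1 h4 h2 (mem_biUnion.2 ⟨v, hv', ?_⟩)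
  simp only [Bv, inl_mem_disjSum, mem_filter]
  exact ⟨h1, hv⟩

theorem Ex_good (S : E → Finset V) (H : Finset E) (K : ℕ) (D p : ℝ) (P : E ⊕ V → ℝ)
    (h0 : ∀ i, 0 ≤ P i) (h1 : ∀ i, P i ≤ 1) (hP : ∀ e, P (Sum.inl e) = p) (hp : 0 ≤ p)
    (hS : ∀ e ∈ H, (S e).card = K)
    (hdeg : ∀ v, ((H.filter (fun e => v ∈ S e)).card : ℝ) ≤ D) :
    H.card * (p * (1 - K * D * p)) ≤ Ex P (fun t => ((Good S H t).card : ℝ)) := by
  simp only [Good, card_filter_real]
  rw [Ex_sum, ← nsmul_eq_mul, ← sum_const]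
  refine sum_le_sum fun e he => ?_
  rw [Ex_pick P (Nb S H e) (Sum.inl e) (by simp [Nb]), hP]
  refine mul_le_mul_of_nonneg_left (le_trans ?_ (one_sub_sum_le_prod h0 h1 _)) hp
  have e1 : ∑ i ∈ Nb S H e, P i =
      ((H.filter (fun f => f ≠ e ∧ ¬ Disjoint (S e) (S f))).card : ℝ) * p := by
    simp [Nb, hP]
  have e2 : H.filter (fun f => f ≠ e ∧ ¬ Disjoint (S e) (S f)) ⊆
      (S e).biUnion (fun v => H.filter (fun f => v ∈ S f)) := by
    intro f hf
    obtain ⟨h3, -, h5⟩ := mem_filter.1 hf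
    obtain ⟨v, hv, hv'⟩ := not_disjoint_iff.1 h5
    exact mem_biUnion.2 ⟨v, hv, mem_filter.2 ⟨h3, hv'⟩⟩
  have e3 : ((H.filter (fun f => f ≠ e ∧ ¬ Disjoint (S e) (S f))).card : ℝ) ≤ K * D := by
    calc _ ≤ (((S e).biUnion (fun v => H.filter (fun f => v ∈ S f))).card : ℝ) := by
          exact_mod_cast card_le_card e2
      _ ≤ ∑ v ∈ S e, ((H.filter (fun f => v ∈ S f)).card : ℝ) := by
          exact_mod_cast card_biUnion_le
      _ ≤ ∑ _v ∈ S e, D := sum_le_sum fun v _ => hdeg v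
      _ = K * D := by rw [sum_const, hS e he, nsmul_eq_mul]
  rw [e1]
  nlinarith

theorem Ex_H0 (S : E → Finset V) (H : Finset E) (K : ℕ) (q : ℝ) (P : E ⊕ V → ℝ)
    (h0 : ∀ i, 0 ≤ P i) (h1 : ∀ i, P i ≤ 1) (hq : ∀ v, ∏ i ∈ Bv S H v, (1 - P i) = q)
    (hS : ∀ e ∈ H, (S e).card = K) :
    H.card * q ^ K ≤ Ex P (fun t => ((H0 S H t).card : ℝ)) := by
  simp only [H0, card_filter_real]
  rw [Ex_sum, ← nsmul_eq_mul, ← sum_const]
  refine sum_le_sum fun e he => ?_
  rw [Ex_avoid, ← hS e he]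
  exact prod_biUnion_lower h0 h1 _ hq _

/-- degree in the surviving hypergraph -/
noncomputable def Y (S : E → Finset V) (H : Finset E) (v : V) (t : Finset (E ⊕ V)) : ℝ :=
  ∑ e ∈ H.filter (fun e => v ∈ S e), ind S H (S e) t

omit [Fintype V] [Fintype E] in
theorem Y_eq (S : E → Finset V) (H : Finset E) (v : V) (t : Finset (E ⊕ V)) :
    Y S H v t = (((H0 S H t).filter (fun e => v ∈ S e)).card : ℝ) := by
  rw [H0, filter_comm, card_filter_real]; rfl

/-- squared deviation of the degree of a surviving vertex -/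
noncomputable def Z (S : E → Finset V) (H : Finset E) (m : ℝ) (v : V) (t : Finset (E ⊕ V)) : ℝ :=
  Y S H v t ^ 2 - 2 * m * Y S H v t + m ^ 2 * ind S H {v} t

omit [Fintype V] [Fintype E] in
theorem Z_cases (S : E → Finset V) (H : Finset E) (m : ℝ) (v : V) (t : Finset (E ⊕ V)) :
    (Y S H v t = 0 ∧ Z S H m v t = 0) ∨ Z S H m v t = (Y S H v t - m) ^ 2 := by
  by_cases h : Disjoint t (({v} : Finset V).biUnion (Bv S H))
  · right
    rw [Z, ind, if_pos h]; ring
  · left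
    have hY : Y S H v t = 0 := by
      refine sum_eq_zero fun e he => ?_
      rw [ind, if_neg]
      intro hd
      exact h (hd.mono_right (biUnion_subset_biUnion_of_subset_left _
        (singleton_subset_iff.2 (mem_filter.1 he).2)))
    refine ⟨hY, ?_⟩
    rw [Z, hY, ind, if_neg h]; ring

theorem Ex_Z (S : E → Finset V) (H : Finset E) (k : ℕ) (q δ D : ℝ) (P : E ⊕ V → ℝ)
    (h0 : ∀ i, 0 ≤ P i) (h1 : ∀ i, P i ≤ 1) (hq0 : 0 ≤ q) (hq1 : q ≤ 1)
    (hq : ∀ v, ∏ i ∈ Bv S H v, (1 - P i) = q)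
    (hδ : ∀ u v, u ≠ v → ∑ i ∈ Bv S H u ∩ Bv S H v, P i ≤ δ) (hδ0 : 0 ≤ δ)
    (hL : ((2 * (k + 1) : ℕ) : ℝ) ^ 2 * δ ≤ 1 / 2)
    (hS : ∀ e ∈ H, (S e).card = k + 1)
    (hdeg : ∀ v, ((H.filter (fun e => v ∈ S e)).card : ℝ) ≤ D)
    (hcod : ∀ u v, u ≠ v → ((H.filter (fun e => u ∈ S e ∧ v ∈ S e)).card : ℝ) ≤ δ * D) (v : V) :
    Ex P (Z S H ((H.filter (fun e => v ∈ S e)).card * q ^ k) v) ≤
      (H.filter (fun e => v ∈ S e)).card * D *
        (2 * (((2 * (k + 1) : ℕ) : ℝ) ^ 2 * δ) + (k + 1) * δ) := by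
  set Hv := H.filter (fun e => v ∈ S e) with hHv
  set κ := 2 * (((2 * (k + 1) : ℕ) : ℝ) ^ 2 * δ) with hκ
  have hκ0 : 0 ≤ κ := by positivity
  have hD : 0 ≤ D := le_trans (Nat.cast_nonneg _) (hdeg v)
  have a1 : (Hv.card : ℝ) * q ^ (k + 1) ≤ Ex P (Y S H v) := by
    unfold Y
    rw [Ex_sum, ← nsmul_eq_mul, ← sum_const]
    refine sum_le_sum fun e he => ?_
    rw [Ex_ind, ← hS e (mem_filter.1 he).1]
    exact prod_biUnion_lower h0 h1 _ hq _
  have a2 : Ex P (ind S H {v}) = q := by rw [Ex_ind, singleton_biUnion, hq]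
  have a3 : Ex P (fun t => Y S H v t ^ 2) ≤
      (Hv.card : ℝ) * (Hv.card * (q ^ (2 * k + 1) * (1 + κ)) + (k + 1) * (δ * D)) := by
    have e1 : (fun t => Y S H v t ^ 2) =
        fun t => ∑ e ∈ Hv, ∑ f ∈ Hv, ind S H (S e ∪ S f) t := by
      funext t
      rw [sq, Y, sum_mul_sum]
      simp only [ind_mul]
      rfl
    rw [e1, Ex_sum, ← nsmul_eq_mul, ← sum_const]
    refine sum_le_sum fun e he => ?_
    rw [Ex_sum]
    obtain ⟨heH, hev⟩ := mem_filter.1 he
    have b1 : ∀ f ∈ Hv, Ex P (ind S H (S e ∪ S f)) ≤ q ^ (2 * k + 1) * (1 + κ) +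
        ∑ u ∈ (S e).erase v, if u ∈ S f then (1 : ℝ) else 0 := by
      intro f hf
      obtain ⟨hfH, hfv⟩ := mem_filter.1 hf
      rw [Ex_ind]
      by_cases hb : ∃ u ∈ (S e).erase v, u ∈ S f
      · obtain ⟨u, hu, hu'⟩ := hb
        have c1 : ∏ i ∈ (S e ∪ S f).biUnion (Bv S H), (1 - P i) ≤ 1 :=
          prod_le_one (fun i _ => sub_nonneg.2 (h1 i)) fun i _ => by linarith [h0 i]
        have c2 : (if u ∈ S f then (1 : ℝ) else 0) ≤
            ∑ u ∈ (S e).erase v, if u ∈ S f then (1 : ℝ) else 0 :=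
          single_le_sum (f := fun u => if u ∈ S f then (1 : ℝ) else 0)
            (fun i _ => by positivity) hu
        rw [if_pos hu'] at c2
        have c3 : 0 ≤ q ^ (2 * k + 1) * (1 + κ) := by positivity
        linarith
      · have c1 : S e ∩ S f = {v} := by
          ext u
          rw [mem_inter, mem_singleton]
          constructor
          · rintro ⟨h3, h4⟩
            by_contra h5
            exact hb ⟨u, mem_erase.2 ⟨h5, h3⟩, h4⟩
          · rintro rfl; exact ⟨hev, hfv⟩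
        have c2 := card_union_add_card_inter (S e) (S f)
        rw [c1, hS e heH, hS f hfH, card_singleton] at c2
        have c3 : (S e ∪ S f).card = 2 * k + 1 := by omega
        have c4 := prod_biUnion_upper h0 h1 (Bv S H) hq hδ hδ0 (2 * (k + 1)) hL (S e ∪ S f)
          (by omega)
        rw [c3] at c4
        have c5 : 0 ≤ ∑ u ∈ (S e).erase v, if u ∈ S f then (1 : ℝ) else 0 :=
          sum_nonneg fun i _ => by positivity
        linarith
    refine (sum_le_sum b1).trans ?_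
    rw [sum_add_distrib, sum_const, nsmul_eq_mul, sum_comm]
    refine add_le_add le_rfl ?_
    have b2 : ∀ u ∈ (S e).erase v, ∑ f ∈ Hv, (if u ∈ S f then (1 : ℝ) else 0) ≤ δ * D := by
      intro u hu
      rw [← card_filter_real, hHv, filter_filter]
      exact hcod v u (mem_erase.1 hu).1.symm
    refine (sum_le_sum b2).trans ?_
    rw [sum_const, nsmul_eq_mul, card_erase_of_mem hev, hS e heH]
    refine mul_le_mul_of_nonneg_right ?_ (by positivity)
    simp
  have e2 : Ex P (Z S H (Hv.card * q ^ k) v) = Ex P (fun t => Y S H v t ^ 2) -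
      2 * (Hv.card * q ^ k) * Ex P (Y S H v) + (Hv.card * q ^ k) ^ 2 * Ex P (ind S H {v}) := by
    rw [← Ex_mul, ← Ex_mul, ← Ex_sub, ← Ex_add]; rfl
  rw [e2, a2]
  set d : ℝ := (Hv.card : ℝ)
  have hd0 : 0 ≤ d := Nat.cast_nonneg _
  have hdD : d ≤ D := hdeg v
  have a4 : 2 * (d * q ^ k) * (d * q ^ (k + 1)) ≤ 2 * (d * q ^ k) * Ex P (Y S H v) :=
    mul_le_mul_of_nonneg_left a1 (by positivity)
  have a5 : q ^ (2 * k + 1) ≤ 1 := pow_le_one₀ hq0 hq1
  have a6 : d * (d * (q ^ (2 * k + 1) * κ)) ≤ d * (D * κ) := by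
    refine mul_le_mul_of_nonneg_left (mul_le_mul hdD ?_ (by positivity) hD) hd0
    exact mul_le_of_le_one_left hκ0 a5
  have a7 : q ^ (2 * k + 1) = q ^ k * q ^ k * q := by ring
  have a8 : q ^ (k + 1) = q ^ k * q := by ring
  rw [a7] at a3 a6
  rw [a8] at a4
  nlinarith

end Crest.Agent.H0100.Nibx
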