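import Crest.Agent.H0100.Defs

set_option autoImplicit false

namespace Crest.Agent.H0100

open Finset Real

namespace Roundx

lemma orth {M : ℕ} {d : ℤ} (h : |d| < M) : ∑ g ∈ range M, ex (d * (2 * π * g / M)) = if d = 0 then (M : ℂ) else 0 := by
  have M0 : M ≠ 0 := by rintro rfl; exact (abs_nonneg d).not_gt h
  split_ifs with e
  · simp [e]
  have p := Complex.isPrimitiveRoot_exp M M0
  have : ∀ g : ℕ, ex (d * (2 * π * g / M)) = (Complex.exp (2 * π * Complex.I / M) ^ d) ^ g := fun g => by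
    rw [← Complex.exp_int_mul, ← Complex.exp_nat_mul, ex]; congr 1; push_cast; ring
  simp only [this]
  rw [geom_sum_eq fun c => e (Int.eq_zero_of_abs_lt_dvd ((p.zpow_eq_one_iff_dvd d).1 c) h), ← zpow_natCast, ← zpow_mul,
    mul_comm d, zpow_mul, zpow_natCast, p.pow_eq_one]
  simp

lemma pars {M n : ℕ} (h : n ≤ M) (θ : ℝ) : ∑ g ∈ range M, ‖∑ b ∈ range n, ex (b * (θ - 2 * π * g / M))‖ ^ 2 = M * n := by
  apply Complex.ofReal_injective
  push_cast
  simp only [← Complex.conj_mul', map_sum, conj_ex, sum_mul_sum]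
  rw [sum_comm]
  refine (sum_congr rfl fun a ha => (?_ : _ = (M : ℂ))).trans (by simp [mul_comm])
  rw [sum_comm, sum_eq_single_of_mem a ha fun b hb e => ?_]
  · simp [← ex_add]
  · have := orth (M := M) (d := a - b) (by rw [mem_range] at ha hb; rw [abs_lt]; omega)
    rw [if_neg (by omega)] at this
    rw [← mul_zero (ex ((b - a) * θ)), ← this, mul_sum]
    exact sum_congr rfl fun g _ => by rw [← ex_add, ← ex_add]; congr 1; push_cast; ring

lemma grid {N : ℕ} (r : Fin N → ℂ) {B : ℝ} (B0 : 0 ≤ B)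
    (h : ∀ g ∈ range (2 * N), ‖∑ k, r k * ex ((k : ℕ) * (2 * π * g / (2 * N : ℕ)))‖ ≤ B) (θ : ℝ) :
    ‖∑ k, r k * ex ((k : ℕ) * θ)‖ ≤ 3 / 2 * B := by
  rcases N.eq_zero_or_pos with rfl | N0
  · simp; positivity
  have N1 : (0 : ℝ) < N := by exact_mod_cast N0
  have A : (2 * N * N : ℝ) * ∑ k, r k * ex ((k : ℕ) * θ) = ∑ g ∈ range (2 * N), (∑ k, r k * ex ((k : ℕ) * (2 * π * g / (2 * N : ℕ)))) *
      (starRingEnd ℂ (∑ a ∈ range N, ex (a * (θ - 2 * π * g / (2 * N : ℕ)))) *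
        ∑ b ∈ range (2 * N), ex (b * (θ - 2 * π * g / (2 * N : ℕ)))) := by
    simp only [map_sum, conj_ex, sum_mul_sum, sum_mul]
    simp only [mul_sum]
    rw [sum_comm]
    refine sum_congr rfl fun k _ => ?_
    rw [sum_comm]
    refine Eq.trans ?_ (sum_congr rfl fun a ha => (?_ : (2 * N : ℕ) * (r k * ex ((k : ℕ) * θ)) = _))
    · simp; ring
    rw [mem_range] at ha
    have E : ∀ b ∈ range (2 * N), ∑ g ∈ range (2 * N), r k * ex ((k : ℕ) * (2 * π * g / (2 * N : ℕ))) *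
        (ex (-(a * (θ - 2 * π * g / (2 * N : ℕ)))) * ex (b * (θ - 2 * π * g / (2 * N : ℕ)))) =
        r k * ex ((b - a) * θ) * if ((k : ℕ) + a - b : ℤ) = 0 then ((2 * N : ℕ) : ℂ) else 0 := fun b hb => by
      rw [mem_range] at hb
      rw [← orth (by rw [abs_lt]; omega), mul_sum]
      exact sum_congr rfl fun g _ => by simp only [mul_assoc, ← ex_add]; congr 2; push_cast; ring
    rw [sum_comm, sum_congr rfl E, sum_eq_single_of_mem (k + a) (mem_range.2 (by omega)) fun b _ e => by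
      rw [if_neg (by omega), mul_zero]]
    simp [mul_comm]
  have C := congrArg norm A
  rw [norm_mul, Complex.norm_real, Real.norm_of_nonneg (by positivity)] at C
  refine le_of_mul_le_mul_left (C.trans_le ((norm_sum_le_of_le _ fun (g : ℕ) hg => (?_ : _ ≤ B / 2 *
    (‖∑ a ∈ range N, ex (a * (θ - 2 * π * g / (2 * N : ℕ)))‖ ^ 2 +
      ‖∑ b ∈ range (2 * N), ex (b * (θ - 2 * π * g / (2 * N : ℕ)))‖ ^ 2))).trans_eq ?_)) (by positivity)
  · rw [norm_mul, norm_mul, Complex.norm_conj]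
    refine (mul_le_mul_of_nonneg_right (h g hg) (by positivity)).trans ?_
    nlinarith [mul_nonneg B0 (sq_nonneg (‖∑ a ∈ range N, ex (a * (θ - 2 * π * g / (2 * N : ℕ)))‖ -
      ‖∑ b ∈ range (2 * N), ex (b * (θ - 2 * π * g / (2 * N : ℕ)))‖))]
  · rw [← mul_sum, sum_add_distrib, pars (by omega), pars le_rfl]; push_cast; ring

lemma rnd (h : Spen) : ∃ C : ℝ, 0 < C ∧ ∀ (ι κ : Type) [Fintype ι] [Fintype κ] (v : ι → κ → ℝ) (σ : ℝ) (L : ℕ) (q : κ → ℕ),
    (∀ i k, |v i k| ≤ 1) → Fintype.card κ ≤ Fintype.card ι → 0 ≤ σ → (∀ k, q k ≤ 2 ^ L) → (∑ k, (q k : ℝ)) ≤ 2 ^ L * σ →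
    ∃ z : κ → ℕ, (∀ k, z k ≤ 1) ∧ ∀ i, |∑ k, v i k * (z k - q k / 2 ^ L)| ≤
      C * (σ ^ (1 / 6 : ℝ) * (Fintype.card ι : ℝ) ^ (1 / 3 : ℝ)) := by
  obtain ⟨C, C0, hC⟩ := h
  set t : ℝ := 2 ^ (1 / 6 : ℝ) / 2
  have t0 : 0 ≤ t := by positivity
  have t1 : t < 1 := (div_lt_one two_pos).2 (rpow_lt_self_of_one_lt one_lt_two (by norm_num))
  refine ⟨C * (1 - t)⁻¹, by have := sub_pos.2 t1; positivity, fun ι κ _ _ v σ L q hv hκ σ0 hq hs => ?_⟩
  classical
  suffices ∃ z : κ → ℕ, (∀ k, z k ≤ 1) ∧ ∀ i, |∑ k, v i k * (z k - q k / 2 ^ L)| ≤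
      C * (∑ j ∈ range (L + 1), t ^ j) * (σ ^ (1 / 6 : ℝ) * (Fintype.card ι : ℝ) ^ (1 / 3 : ℝ)) by
    obtain ⟨z, h1, h2⟩ := this
    refine ⟨z, h1, fun i => (h2 i).trans ?_⟩
    gcongr
    exact ((summable_geometric_of_lt_one t0 t1).sum_le_tsum _ fun _ _ => by positivity).trans_eq (tsum_geometric_of_lt_one t0 t1)
  induction L generalizing q with
  | zero => exact ⟨q, hq, fun i => by simp; positivity⟩
  | succ L ih =>
  set S : Finset κ := {k | q k % 2 = 1}
  obtain ⟨χ, c1, c2, c3⟩ : ∃ χ : κ → ℝ, (∀ k, χ k = 1 ∨ χ k = -1) ∧ ∑ k ∈ S, χ k ≤ 0 ∧ ∀ i, |∑ k ∈ S, v i k * χ k| ≤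
      C * ((S.card : ℝ) ^ (1 / 6 : ℝ) * (Fintype.card ι : ℝ) ^ (1 / 3 : ℝ)) := by
    obtain ⟨χ, c1, c2⟩ := hC ι κ v S hv ((card_le_univ S).trans hκ)
    rcases le_total (∑ k ∈ S, χ k) 0 with c | c
    exacts [⟨χ, c1, c, c2⟩, ⟨fun k => -χ k, fun k => by rcases c1 k with e | e <;> simp [e], by simpa, by simpa only [mul_neg, sum_neg_distrib, abs_neg]⟩]
  let q' : κ → ℕ := fun k => if χ k = 1 then (q k + 1) / 2 else q k / 2
  have e : ∀ k, (q' k : ℝ) * 2 = q k + if k ∈ S then χ k else 0 := fun k => by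
    simp only [q', S, mem_filter, mem_univ, true_and]
    rcases c1 k with c | c <;> rw [c] <;> [rw [if_pos rfl]; rw [if_neg (by norm_num)]] <;> split_ifs <;>
      rw [← sub_eq_iff_eq_add] <;> simp only [sub_neg_eq_add, sub_zero, sub_eq_iff_eq_add] <;> norm_cast <;> omega
  obtain ⟨z, z1, z2⟩ := ih q' (fun k => by have := hq k; simp only [q']; split_ifs <;> omega) (by
    have := sum_congr rfl fun k (_ : k ∈ univ) => e k
    rw [← sum_mul, sum_add_distrib, sum_ite_mem, univ_inter] at this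
    rw [pow_succ] at hs; linarith)
  refine ⟨z, z1, fun i => ?_⟩
  have A : ∑ k, v i k * (z k - q k / 2 ^ (L + 1)) = ∑ k, v i k * (z k - q' k / 2 ^ L) + (∑ k ∈ S, v i k * χ k) / 2 ^ (L + 1) := by
    rw [← univ_inter S, ← sum_ite_mem, sum_div, ← sum_add_distrib]
    refine sum_congr rfl fun k _ => ?_
    have := e k
    split_ifs at this ⊢ <;> rw [← sub_eq_iff_eq_add] at this <;> rw [← this] <;> field_simp <;> ring
  have B : (S.card : ℝ) ^ (1 / 6 : ℝ) ≤ t ^ (L + 1) * 2 ^ (L + 1) * σ ^ (1 / 6 : ℝ) := by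
    rw [← mul_pow, div_mul_cancel₀ _ two_ne_zero, rpow_pow_comm two_pos.le, ← mul_rpow (by positivity) σ0]
    refine rpow_le_rpow (by positivity) (le_trans ?_ hs) (by norm_num)
    rw [card_eq_sum_ones, Nat.cast_sum]
    exact (sum_le_sum fun k hk => by have := (mem_filter.1 hk).2; norm_cast; omega).trans
      (sum_le_univ_sum_of_nonneg fun _ => by positivity)
  rw [A, sum_range_succ, mul_add, add_mul]
  refine (abs_add_le _ _).trans (add_le_add (z2 i) ?_)
  rw [abs_div, abs_of_pos (by positivity : (0 : ℝ) < 2 ^ (L + 1)), div_le_iff₀ (by positivity)]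
  exact (c3 i).trans ((mul_le_mul_of_nonneg_left (mul_le_mul_of_nonneg_right B (by positivity)) C0.le).trans_eq (by ring))

end Roundx

open Roundx in
theorem round (h : Spen) : Round := by
  obtain ⟨C, C0, hC⟩ := rnd h
  refine ⟨3 / 2 * (4 * (4 * C + 1)), by positivity, fun N η a η0 ha hs => ?_⟩
  rcases N.eq_zero_or_pos with rfl | N0
  · exact ⟨fun _ => 1, by simp⟩
  have N1 : (0 : ℝ) < N := by exact_mod_cast N0
  obtain ⟨L, hL⟩ := exists_pow_lt_of_lt_one (by positivity : 0 < η ^ (1 / 6 : ℝ) * √(N : ℝ) / N) one_half_lt_one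
  let s : Fin N → ℤˣ := fun k => if 0 ≤ a k then 1 else -1
  let p : Fin N → ℝ := fun k => (1 - |a k|) / 2
  have p0 : ∀ k, 0 ≤ 2 ^ L * p k := fun k => by have := sub_nonneg.2 (ha k); positivity
  let v : Fin (2 * N) × Bool → Fin N → ℝ := fun i k => (s k : ℤ) * if i.2 then cos ((k : ℕ) * (2 * π * i.1 / (2 * N : ℕ))) else
    sin ((k : ℕ) * (2 * π * i.1 / (2 * N : ℕ)))
  have hv : ∀ i k, |v i k| ≤ 1 := fun i k => by
    simp only [v, s]; split_ifs <;> simp [abs_cos_le_one, abs_sin_le_one]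
  obtain ⟨z, z1, z2⟩ := hC _ _ v (η * N) L (fun k => ⌊2 ^ L * p k⌋₊) hv (by simp; omega) (by positivity)
    (fun k => Nat.floor_le_of_le (by
      push_cast; exact mul_le_of_le_one_right (by positivity) (by simp only [p]; linarith [abs_nonneg (a k)])))
    ((sum_le_sum fun k _ => Nat.floor_le (p0 k)).trans (by
      rw [← mul_sum]
      refine mul_le_mul_of_nonneg_left (le_trans (sum_le_sum fun k _ => ?_) hs) (by positivity)
      simp only [p]; nlinarith [sq_abs (a k), abs_nonneg (a k), ha k]))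
  have A : ∀ i, |∑ k, v i k * (z k - p k)| ≤ (4 * C + 1) * (η ^ (1 / 6 : ℝ) * √(N : ℝ)) := fun i => by
    have B : (η * N) ^ (1 / 6 : ℝ) * (Fintype.card (Fin (2 * N) × Bool) : ℝ) ^ (1 / 3 : ℝ) ≤ 4 * (η ^ (1 / 6 : ℝ) * √(N : ℝ)) := by
      rw [show (Fintype.card (Fin (2 * N) × Bool) : ℝ) = 4 * N by simp; ring, mul_rpow η0.le N1.le, mul_rpow (by norm_num) N1.le,
        sqrt_eq_rpow, show (1 / 2 : ℝ) = 1 / 6 + 1 / 3 by norm_num, rpow_add N1]
      refine le_trans (le_of_eq (by ring)) (mul_le_mul_of_nonneg_right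
        (rpow_le_self_of_one_le (by norm_num : (1 : ℝ) ≤ 4) (by norm_num : (1 / 3 : ℝ) ≤ 1)) (by positivity))
    have D : |∑ k, v i k * (⌊2 ^ L * p k⌋₊ / 2 ^ L - p k)| ≤ N * (1 / 2) ^ L := by
      refine (abs_sum_le_sum_abs _ _).trans ((sum_le_card_nsmul _ _ ((1 / 2) ^ L) fun k _ => ?_).trans_eq (by simp))
      rw [abs_mul, ← mul_div_cancel_left₀ (p k) (by positivity : (2 : ℝ) ^ L ≠ 0), mul_div_cancel₀ _ (by positivity), ← sub_div,
        abs_div, one_div_pow, abs_of_pos (by positivity : (0 : ℝ) < 2 ^ L)]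
      refine (mul_le_of_le_one_left (by positivity) (hv i k)).trans (div_le_div_of_nonneg_right ?_ (by positivity))
      exact abs_le.2 ⟨by linarith [Nat.lt_floor_add_one (2 ^ L * p k)], by linarith [Nat.floor_le (p0 k)]⟩
    have E := (abs_add_le _ _).trans (add_le_add ((z2 i).trans (mul_le_mul_of_nonneg_left B C0.le)) D)
    simp only [← sum_add_distrib, ← mul_add, sub_add_sub_cancel] at E
    rw [lt_div_iff₀ N1] at hL
    linarith
  refine ⟨fun k => if z k = 0 then s k else -s k, fun θ => ?_⟩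
  rw [mul_assoc]
  refine grid _ (by positivity) (fun g hg => ?_) θ
  have e : ∀ k, (((if z k = 0 then s k else -s k : ℤˣ) : ℤ) : ℝ) - a k = -2 * ((s k : ℤ) * (z k - p k)) := fun k => by
    have := z1 k
    simp only [s, p]
    by_cases c : 0 ≤ a k <;> [rw [abs_of_nonneg c]; rw [abs_of_neg (not_le.1 c)]] <;>
      interval_cases z k <;> simp [c] <;> ring
  have a1 := A (⟨g, mem_range.1 hg⟩, true)
  have a2 := A (⟨g, mem_range.1 hg⟩, false)
  refine (Complex.norm_le_abs_re_add_abs_im _).trans ?_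
  simp only [e, Complex.re_sum, Complex.im_sum, Complex.re_ofReal_mul, Complex.im_ofReal_mul, ex_re, ex_im, mul_assoc (-2 : ℝ),
    ← mul_sum, abs_mul, mul_right_comm _ (_ - p _)]
  simp only [v, if_true, Bool.false_eq_true, if_false] at a1 a2
  norm_num at a1 a2 ⊢
  linarith

end Crest.Agent.H0100
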