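import Crest.Agent.H0100.Defs

set_option autoImplicit false

namespace Crest.Agent.H0100

open Real Set intervalIntegral MeasureTheory Filter

theorem vdc1 : VdC1 := fun φ φ1 φ2 a b μ hab μ0 h1 h2 c2 hs hμ => by
  have n0 : ∀ x ∈ Icc a b, φ1 x ≠ 0 := fun x hx => abs_pos.1 (μ0.trans_le (hμ x hx))
  have c0 : ContinuousOn φ (Icc a b) := HasDerivAt.continuousOn h1
  have c1 : ContinuousOn φ1 (Icc a b) := HasDerivAt.continuousOn h2
  have c3 : ContinuousOn (fun x => -φ2 x / φ1 x ^ 2) (Icc a b) := c2.neg.div (c1.pow 2) fun x hx => pow_ne_zero _ (n0 x hx)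
  have c4 : ContinuousOn (fun x => ex (φ x)) (Icc a b) := continuous_ex.comp_continuousOn c0
  have c5 : ContinuousOn (fun x => ((-φ2 x / φ1 x ^ 2 : ℝ) : ℂ) * ex (φ x)) (Icc a b) :=
    (Complex.continuous_ofReal.comp_continuousOn c3).mul c4
  have c6 : ContinuousOn (fun x => ex (φ x) * Complex.I) (Icc a b) := c4.mul continuousOn_const
  have u := uIcc_of_le hab
  have A := integral_eq_sub_of_hasDerivAt (a := a) (b := b) (fun x hx => (h2 x (u ▸ hx)).inv (n0 x (u ▸ hx)))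
    (c3.intervalIntegrable_of_Icc hab)
  have B := integral_eq_sub_of_hasDerivAt (a := a) (b := b) (f := fun x => ((φ1 x)⁻¹ : ℝ) * ex (φ x))
    (f' := fun x => (-φ2 x / φ1 x ^ 2 : ℝ) * ex (φ x) + ex (φ x) * Complex.I) (fun x hx => by
      rw [u] at hx
      exact (((h2 x hx).inv (n0 x hx)).ofReal_comp.mul ((hasDerivAt_ex _).scomp x (h1 x hx))).congr_deriv
        (by simp [← mul_assoc, n0 x hx])) ((c5.add c6).intervalIntegrable_of_Icc hab)
  rw [integral_add (c5.intervalIntegrable_of_Icc hab) (c6.intervalIntegrable_of_Icc hab),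
    intervalIntegral.integral_mul_const, ← eq_sub_iff_add_eq'] at B
  have C : ∀ x ∈ Icc a b, |(φ1 x)⁻¹| ≤ 1 / μ := fun x hx => by rw [abs_inv, one_div]; exact inv_anti₀ μ0 (hμ x hx)
  have Ca := C a ⟨le_rfl, hab⟩
  have Cb := C b ⟨hab, le_rfl⟩
  have D : ∫ x in a..b, ‖((-φ2 x / φ1 x ^ 2 : ℝ) : ℂ) * ex (φ x)‖ ≤ 2 / μ := by
    simp only [norm_mul, norm_ex, mul_one, Complex.norm_real, Real.norm_eq_abs]
    have := (abs_sub _ _).trans (add_le_add Cb Ca)
    rw [← add_div, one_add_one_eq_two] at this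
    rcases hs with hs | hs
    · rw [integral_congr fun x hx => abs_of_nonpos (div_nonpos_of_nonpos_of_nonneg (neg_nonpos.2 (hs x (u ▸ hx))) (sq_nonneg _)),
        intervalIntegral.integral_neg, A]
      exact (neg_le_abs _).trans this
    · rw [integral_congr fun x hx => abs_of_nonneg (div_nonneg (neg_nonneg.2 (hs x (u ▸ hx))) (sq_nonneg _)), A]
      exact (le_abs_self _).trans this
  have E := (norm_sub_le _ _).trans (add_le_add (norm_sub_le (((φ1 b)⁻¹ : ℝ) * ex (φ b)) (((φ1 a)⁻¹ : ℝ) * ex (φ a)))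
    ((intervalIntegral.norm_integral_le_integral_norm hab).trans D))
  rw [← B] at E
  simp only [norm_mul, norm_ex, mul_one, Complex.norm_real, Real.norm_eq_abs, Complex.norm_I] at E
  linear_combination E + Ca + Cb

namespace SPx

lemma grow {f g : ℝ → ℝ} {a b c : ℝ} (h : ∀ x ∈ Icc a b, HasDerivAt f (g x) x) (hc : ∀ x ∈ Icc a b, c ≤ g x) {x y : ℝ}
    (hx : x ∈ Icc a b) (hy : y ∈ Icc a b) (hxy : x ≤ y) : c * (y - x) ≤ f y - f x :=
  (convex_Icc a b).mul_sub_le_image_sub_of_le_deriv (HasDerivAt.continuousOn h)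
    (fun x hx => (h x (interior_subset hx)).differentiableAt.differentiableWithinAt)
    (fun x hx => (h x (interior_subset hx)).deriv ▸ hc x (interior_subset hx)) x hx y hy hxy

lemma split {f : ℝ → ℝ} {a b : ℝ} (hab : a ≤ b) (hf : ContinuousOn f (Icc a b)) (hm : MonotoneOn f (Icc a b)) (t : ℝ) :
    ∃ c ∈ Icc a b, (c ≠ a → ∀ x ∈ Icc a c, f x ≤ t) ∧ (c ≠ b → ∀ x ∈ Icc c b, t ≤ f x) := by
  by_cases h : t ≤ f a
  · exact ⟨a, ⟨le_rfl, hab⟩, fun h => (h rfl).elim, fun _ x hx => h.trans (hm ⟨le_rfl, hab⟩ hx hx.1)⟩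
  by_cases h' : f b ≤ t
  · exact ⟨b, ⟨hab, le_rfl⟩, fun _ x hx => (hm hx ⟨hab, le_rfl⟩ hx.2).trans h', fun h => (h rfl).elim⟩
  obtain ⟨c, hc, rfl⟩ := intermediate_value_Icc hab hf ⟨(not_le.1 h).le, (not_le.1 h').le⟩
  exact ⟨c, hc, fun _ x hx => hm ⟨hx.1, hx.2.trans hc.2⟩ hc hx.2, fun _ x hx => hm hc ⟨hc.1.trans hx.1, hx.2⟩ hx.1⟩

lemma vdc2' {φ φ1 φ2 : ℝ → ℝ} {a b lam : ℝ} (hab : a ≤ b) (l0 : 0 < lam) (h1 : ∀ x ∈ Icc a b, HasDerivAt φ (φ1 x) x)
    (h2 : ∀ x ∈ Icc a b, HasDerivAt φ1 (φ2 x) x) (c2 : ContinuousOn φ2 (Icc a b)) (hs : ∀ x ∈ Icc a b, lam ≤ φ2 x) :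
    ‖∫ x in a..b, ex (φ x)‖ ≤ 10 / √lam := by
  have s0 := Real.sqrt_pos.2 l0
  have c1 : ContinuousOn φ1 (Icc a b) := HasDerivAt.continuousOn h2
  have hm : MonotoneOn φ1 (Icc a b) := fun x hx y hy h => by nlinarith [grow h2 hs hx hy h]
  obtain ⟨c, hc, c3, c4⟩ := split hab c1 hm (-√lam)
  have s1 := Icc_subset_Icc_left (b := b) hc.1
  obtain ⟨d, hd, d3, d4⟩ := split hc.2 (c1.mono s1) (hm.mono s1) √lam
  have V : ∀ x ∈ Icc a b, ∀ y ∈ Icc a b, x ≤ y → (x ≠ y → ∀ z ∈ Icc x y, √lam ≤ |φ1 z|) →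
      ‖∫ z in x..y, ex (φ z)‖ ≤ 4 / √lam := fun x hx y hy h H => by
    rcases eq_or_ne x y with rfl | e
    · simp; positivity
    have s := Icc_subset_Icc hx.1 hy.2
    exact vdc1 φ φ1 φ2 x y _ h s0 (fun z hz => h1 z (s hz)) (fun z hz => h2 z (s hz)) (c2.mono s)
      (.inl fun z hz => l0.le.trans (hs z (s hz))) (H e)
  have I : ∀ x ∈ Icc a b, ∀ y ∈ Icc a b, IntervalIntegrable (fun z => ex (φ z)) volume x y := fun x hx y hy =>
    ((continuous_ex.comp_continuousOn (HasDerivAt.continuousOn h1)).mono (uIcc_subset_Icc hx hy)).intervalIntegrable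
  have ha : a ∈ Icc a b := ⟨le_rfl, hab⟩
  have hb : b ∈ Icc a b := ⟨hab, le_rfl⟩
  have A := V a ha c hc hc.1 fun e z hz => (le_neg.1 (c3 e.symm z hz)).trans (neg_le_abs _)
  have B := V d (s1 hd) b hb hd.2 fun e z hz => (d4 e z hz).trans (le_abs_self _)
  have C : ‖∫ z in c..d, ex (φ z)‖ ≤ 2 / √lam := by
    refine (intervalIntegral.norm_integral_le_of_norm_le_const fun z _ => (norm_ex _).le).trans ?_
    rcases hd.1.eq_or_lt with rfl | e
    · simp; positivity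
    have := grow h2 hs hc (s1 hd) hd.1
    rw [one_mul, abs_of_pos (sub_pos.2 e), le_div_iff₀ s0]
    refine le_of_mul_le_mul_right ?_ s0
    rw [mul_assoc, Real.mul_self_sqrt l0.le]
    linarith [c4 (e.trans_le hd.2).ne c ⟨le_rfl, hc.2⟩, d3 e.ne' d ⟨hd.1, le_rfl⟩]
  rw [← integral_add_adjacent_intervals (I a ha c hc) (I c hc b hb),
    ← integral_add_adjacent_intervals (I c hc d (s1 hd)) (I d (s1 hd) b hb)]
  linear_combination norm_add_le_of_le A (norm_add_le_of_le C B)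

end SPx

open SPx

theorem vdc2 : VdC2 := fun φ φ1 φ2 a b lam hab l0 h1 h2 c2 hs => by
  rcases hs with hs | hs
  · exact vdc2' hab l0 h1 h2 c2 hs
  have := vdc2' hab l0 (fun x hx => (h1 x hx).neg) (fun x hx => (h2 x hx).neg) c2.neg fun x hx => le_neg.1 (hs x hx)
  simp only [Pi.neg_apply, ← conj_ex] at this
  rwa [integral_of_le hab, integral_conj, Complex.norm_conj, ← integral_of_le hab] at this

namespace SPx

lemma tail {b : ℂ} (hb : 0 ≤ b.re) (hb' : 1 ≤ ‖2 * b‖) {R T : ℝ} (R0 : 0 < R) (h : R ≤ T) :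
    ‖∫ x in R..T, Complex.exp (-b * (x : ℂ) ^ 2)‖ ≤ 2 / R := by
  have u := uIcc_of_le h
  have n0 : ∀ x ∈ Icc R T, x ≠ 0 := fun x hx => (R0.trans_le hx.1).ne'
  have c3 : ContinuousOn (fun x : ℝ => -1 / x ^ 2) (Icc R T) := continuousOn_const.div (by fun_prop) fun x hx => pow_ne_zero _ (n0 x hx)
  have c4 : Continuous fun x : ℝ => Complex.exp (-b * (x : ℂ) ^ 2) := by fun_prop
  have c5 : ContinuousOn (fun x : ℝ => ((-1 / x ^ 2 : ℝ) : ℂ) * Complex.exp (-b * (x : ℂ) ^ 2)) (Icc R T) :=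
    (Complex.continuous_ofReal.comp_continuousOn c3).mul c4.continuousOn
  have c6 : Continuous fun x : ℝ => Complex.exp (-b * (x : ℂ) ^ 2) * -(2 * b) := by fun_prop
  have A := integral_eq_sub_of_hasDerivAt (a := R) (b := T) (fun x hx => (hasDerivAt_id x).inv (n0 x (u ▸ hx)))
    (c3.intervalIntegrable_of_Icc h)
  have B := integral_eq_sub_of_hasDerivAt (a := R) (b := T) (f := fun x => (x⁻¹ : ℝ) * Complex.exp (-b * (x : ℂ) ^ 2))
    (f' := fun x => (-1 / x ^ 2 : ℝ) * Complex.exp (-b * (x : ℂ) ^ 2) + Complex.exp (-b * (x : ℂ) ^ 2) * -(2 * b)) (fun x hx => by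
      rw [u] at hx
      have : (x : ℂ) ≠ 0 := by exact_mod_cast n0 x hx
      exact (((hasDerivAt_id x).inv (n0 x hx)).ofReal_comp.mul
        ((((hasDerivAt_id x).ofReal_comp.pow 2).const_mul (-b)).cexp)).congr_deriv (by simp; field_simp))
    ((c5.add c6.continuousOn).intervalIntegrable_of_Icc h)
  rw [integral_add (c5.intervalIntegrable_of_Icc h) (c6.intervalIntegrable _ _),
    intervalIntegral.integral_mul_const, ← eq_sub_iff_add_eq'] at B
  have C : ∀ x : ℝ, ‖Complex.exp (-b * (x : ℂ) ^ 2)‖ ≤ 1 := fun x => by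
    rw [Complex.norm_exp, ← Complex.ofReal_pow, Complex.re_mul_ofReal, Real.exp_le_one_iff, Complex.neg_re, neg_mul, neg_nonpos]
    positivity
  have D : ∀ x : ℝ, 0 < x → ‖(x⁻¹ : ℝ) * Complex.exp (-b * (x : ℂ) ^ 2)‖ ≤ x⁻¹ := fun x hx => by
    rw [norm_mul, Complex.norm_real, Real.norm_of_nonneg (by positivity)]; exact mul_le_of_le_one_right (by positivity) (C x)
  have E := (norm_sub_le _ _).trans (add_le_add (norm_sub_le_of_le (D T (R0.trans_le h)) (D R R0))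
    (norm_integral_le_of_norm_le (μ := volume) (f := fun x => (-1 / x ^ 2 : ℝ) * Complex.exp (-b * (x : ℂ) ^ 2)) h
      (.of_forall fun x _ => by
        rw [norm_mul, Complex.norm_real, Real.norm_eq_abs, abs_of_nonpos (div_nonpos_of_nonpos_of_nonneg (by simp) (sq_nonneg _))]
        exact mul_le_of_le_one_right (neg_nonneg.2 (div_nonpos_of_nonpos_of_nonneg (by simp) (sq_nonneg _))) (C x))
      (c3.neg.intervalIntegrable_of_Icc h)))
  simp only [id, Pi.inv_apply, Pi.neg_apply] at A E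
  rw [← B, norm_mul, norm_neg, intervalIntegral.integral_neg, A] at E
  rw [div_eq_mul_inv]
  linarith [le_mul_of_one_le_right (norm_nonneg (∫ x in R..T, Complex.exp (-b * (x : ℂ) ^ 2))) hb']

lemma gauss {b : ℂ} (hb : 0 < b.re) (hb' : 1 ≤ ‖2 * b‖) {R : ℝ} (R0 : 0 < R) :
    ‖∫ x in -R..R, Complex.exp (-b * (x : ℂ) ^ 2)‖ ≤ √(2 * π) + 4 / R := by
  have A : ‖∫ x : ℝ, Complex.exp (-b * (x : ℂ) ^ 2)‖ ≤ √(2 * π) := Real.le_sqrt_of_sq_le (by
    rw [← norm_pow, integral_gaussian_sq_complex hb, norm_div, Complex.norm_real, Real.norm_of_nonneg pi_pos.le,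
      div_le_iff₀ (norm_pos_iff.2 fun h => by simp [h] at hb)]
    rw [norm_mul, Complex.norm_two] at hb'
    nlinarith [pi_pos])
  refine le_trans (ge_of_tendsto ((intervalIntegral_tendsto_integral (integrable_cexp_neg_mul_sq hb)
    tendsto_neg_atTop_atBot tendsto_id).norm.add_const (4 / R)) ?_) (add_le_add_left A _)
  filter_upwards [eventually_ge_atTop R] with T hT
  have c4 : Continuous fun x : ℝ => Complex.exp (-b * (x : ℂ) ^ 2) := by fun_prop
  have B := tail hb.le hb' R0 hT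
  have C := integral_comp_neg (a := R) (b := T) fun x : ℝ => Complex.exp (-b * (x : ℂ) ^ 2)
  simp only [Complex.ofReal_neg, neg_sq] at C
  rw [id, ← integral_add_adjacent_intervals (c4.intervalIntegrable (-T) (-R)) (c4.intervalIntegrable _ T),
    ← integral_add_adjacent_intervals (c4.intervalIntegrable (-R) R) (c4.intervalIntegrable R T), ← C]
  generalize ∫ x in R..T, Complex.exp (-b * (x : ℂ) ^ 2) = s at *
  generalize ∫ x in -R..R, Complex.exp (-b * (x : ℂ) ^ 2) = t at *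
  have := norm_sub_le_of_le (norm_sub_le_of_le (le_refl ‖s + (t + s)‖) B) B
  rw [add_sub_cancel_left, add_sub_cancel_right] at this
  linear_combination this

lemma fres {R : ℝ} (R0 : 0 < R) : ‖∫ x in -R..R, ex (x ^ 2 / 2)‖ ≤ √(2 * π) + 4 / R := by
  have c : Continuous fun δ : ℝ => ‖∫ x in -R..R, Complex.exp (-((δ - Complex.I) / 2) * (x : ℂ) ^ 2)‖ :=
    (continuous_parametric_intervalIntegral_of_continuous' (by fun_prop) _ _).norm
  have := le_of_tendsto ((c.tendsto 0).mono_left (nhdsWithin_le_nhds (s := Ioi 0))) (eventually_mem_nhdsWithin.mono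
    fun δ h => gauss (by simpa using h) (by
      rw [mul_div_cancel₀ _ two_ne_zero]; simpa using Complex.abs_im_le_norm (δ - Complex.I)) R0)
  refine le_trans (le_of_eq (congrArg _ (integral_congr fun x _ => ?_))) this
  simp only [ex]; congr 1; push_cast; ring

lemma inner {Φ Φ1 Φ2 : ℝ → ℝ} (h1 : ∀ v, HasDerivAt Φ (Φ1 v) v) (h2 : ∀ v, HasDerivAt Φ1 (Φ2 v) v) {u a L R ε : ℝ}
    (a0 : 0 < a) (L0 : 0 < L) (R0 : 0 < R) (h : ∀ v, |v - u| ≤ R / (L * a) → |Φ2 v - a ^ 2| ≤ ε) :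
    ‖(L : ℂ) * (∫ v in u - R / (L * a)..u + R / (L * a), ex (L ^ 2 * (Φ v - Φ1 u * v))) -
      (a⁻¹ : ℝ) * (∫ x in -R..R, ex (x ^ 2 / 2)) * ex (L ^ 2 * (Φ u - Φ1 u * u))‖ ≤ 2 * ε * (R / a) ^ 3 := by
  set r := R / (L * a) with hr
  have r0 : 0 < r := by positivity
  have cv := convex_closedBall u r
  have A : ∀ v ∈ Metric.closedBall u r, ‖Φ1 v - a ^ 2 * v - (Φ1 u - a ^ 2 * u)‖ ≤ ε * r := fun v hv =>
    (cv.norm_image_sub_le_of_norm_hasDerivWithin_le (fun x _ => ((h2 x).sub ((hasDerivAt_id x).const_mul (a ^ 2))).hasDerivWithinAt)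
      (fun x hx => by simpa using h x hx) (Metric.mem_closedBall_self r0.le) hv).trans
      (mul_le_mul_of_nonneg_left hv ((abs_nonneg _).trans (h u (by simpa using r0.le))))
  have B : ∀ v ∈ Metric.closedBall u r, ‖Φ v - Φ1 u * v - a ^ 2 * (v - u) ^ 2 / 2 - (Φ u - Φ1 u * u - a ^ 2 * (u - u) ^ 2 / 2)‖ ≤
      ε * r * r := fun v hv =>
    (cv.norm_image_sub_le_of_norm_hasDerivWithin_le (fun x _ => (((h1 x).sub ((hasDerivAt_id x).const_mul (Φ1 u))).sub
      (((((hasDerivAt_id x).sub_const u).pow 2).const_mul (a ^ 2)).div_const 2)).hasDerivWithinAt)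
      (fun x hx => le_trans (le_of_eq (congrArg _ (by simp; ring))) (A x hx)) (Metric.mem_closedBall_self r0.le) hv).trans
      (mul_le_mul_of_nonneg_left hv ((norm_nonneg _).trans (A v hv)))
  have C := integral_comp_mul_sub (a := u - r) (b := u + r) (fun x => ex (x ^ 2 / 2)) (mul_pos L0 a0).ne' (L * a * u)
  rw [show L * a * (u - r) - L * a * u = -R by rw [hr]; field_simp; ring,
    show L * a * (u + r) - L * a * u = R by rw [hr]; field_simp; ring] at C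
  have cΦ : Continuous Φ := continuous_iff_continuousAt.2 fun v => (h1 v).continuousAt
  rw [show ((a⁻¹ : ℝ) : ℂ) * ∫ x in -R..R, ex (x ^ 2 / 2) = L * ∫ x in u - r..u + r, ex ((L * a * x - L * a * u) ^ 2 / 2) by
      rw [C, Complex.real_smul, ← mul_assoc, ← Complex.ofReal_mul]; congr 2; field_simp,
    mul_assoc, ← mul_sub, ← intervalIntegral.integral_mul_const, ← integral_sub (Continuous.intervalIntegrable (by fun_prop) _ _)
      (Continuous.intervalIntegrable (by fun_prop) _ _), norm_mul, Complex.norm_real, Real.norm_of_nonneg L0.le]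
  refine (mul_le_mul_of_nonneg_left (intervalIntegral.norm_integral_le_of_norm_le_const (C := L ^ 2 * (ε * r * r)) fun v hv => ?_) L0.le).trans_eq ?_
  · rw [← ex_add]
    rw [uIoc_of_le (by linarith)] at hv
    refine (norm_ex_sub_ex _ _).trans (le_trans (le_of_eq ?_) (mul_le_mul_of_nonneg_left (B v (abs_le.2
      (⟨by linarith [hv.1], by linarith [hv.2]⟩ : -r ≤ v - u ∧ v - u ≤ r))) (sq_nonneg L)))
    rw [Real.norm_eq_abs, ← abs_of_nonneg (sq_nonneg L), ← abs_mul, abs_of_nonneg (sq_nonneg L)]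
    congr 1; ring
  · rw [abs_of_pos (by linarith), hr]; field_simp; ring

lemma main {Φ Φ1 Φ2 : ℝ → ℝ} (h1 : ∀ v, HasDerivAt Φ (Φ1 v) v) (h2 : ∀ v, HasDerivAt Φ1 (Φ2 v) v) (c2 : Continuous Φ2)
    {c Λ ξ A R η : ℝ} (c0 : 0 < c) (hc : ∀ v, c ^ 2 ≤ Φ2 v) (Λ0 : 0 < Λ) (ξ0 : 0 < ξ) (ξ1 : ξ ≤ 1)
    (hΛ : ∀ v, v ≤ ξ ∨ 1 - ξ ≤ v → Λ ^ 2 ≤ Φ2 v) (hA : ∀ v ∈ Icc (0 : ℝ) 1, √(Φ2 v) ≤ A) (R0 : 0 < R) (η0 : 0 < η)
    (e1 : 10 / Λ ≤ η) (e2 : 4 * A / (c ^ 2 * R) ≤ η) : ∃ L0 : ℝ, 0 < L0 ∧ ∀ L : ℝ, L0 ≤ L →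
      (∀ y, y ≤ Φ1 0 ∨ Φ1 1 ≤ y → ‖(L : ℂ) * ∫ v in (0 : ℝ)..1, ex (L ^ 2 * (Φ v - y * v))‖ ≤ 2 * η) ∧
      ∀ u ∈ Icc (0 : ℝ) 1, ‖(L : ℂ) * (∫ v in (0 : ℝ)..1, ex (L ^ 2 * (Φ v - Φ1 u * v))) -
        ((√(Φ2 u))⁻¹ : ℝ) * (∫ x in -R..R, ex (x ^ 2 / 2)) * ex (L ^ 2 * (Φ u - Φ1 u * u))‖ ≤ 5 * η := by
  obtain ⟨ρ, ρ0, hρ⟩ := Metric.uniformContinuousOn_iff_le.1
    ((isCompact_Icc (a := (-1 : ℝ)) (b := 2)).uniformContinuousOn_of_continuous c2.continuousOn) (η / (2 * (R / c) ^ 3))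
    (by positivity)
  refine ⟨R / c + R / (c * ρ) + 4 / (c ^ 2 * ξ * η), by positivity, fun L hL => ?_⟩
  have p1 : 0 < R / c := by positivity
  have p2 : 0 < R / (c * ρ) := by positivity
  have p3 : 0 < 4 / (c ^ 2 * ξ * η) := by positivity
  have L0 : 0 < L := by linarith
  have cΦ : Continuous Φ := continuous_iff_continuousAt.2 fun v => (h1 v).continuousAt
  have d1 : ∀ y v, HasDerivAt (fun v => L ^ 2 * (Φ v - y * v)) (L ^ 2 * (Φ1 v - y)) v := fun y v => by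
    simpa using ((h1 v).sub ((hasDerivAt_id v).const_mul y)).const_mul (L ^ 2)
  have d2 : ∀ y v, HasDerivAt (fun v => L ^ 2 * (Φ1 v - y)) (L ^ 2 * Φ2 v) v := fun y v => ((h2 v).sub_const y).const_mul _
  have G : ∀ x y, x ≤ y → c ^ 2 * (y - x) ≤ Φ1 y - Φ1 x := fun x y h =>
    grow (fun v _ => h2 v) (fun v _ => hc v) ⟨le_rfl, h⟩ ⟨h, le_rfl⟩ h
  have V1 : ∀ y a b μ, a ≤ b → 0 < μ → (∀ v ∈ Icc a b, μ ≤ |Φ1 v - y|) → 4 / (L * μ) ≤ η →
      ‖(L : ℂ) * ∫ v in a..b, ex (L ^ 2 * (Φ v - y * v))‖ ≤ η := fun y a b μ hab μ0 h e => by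
    rw [norm_mul, Complex.norm_real, Real.norm_of_nonneg L0.le]
    refine (mul_le_mul_of_nonneg_left (vdc1 _ _ _ a b (L ^ 2 * μ) hab (by positivity) (fun v _ => d1 y v) (fun v _ => d2 y v)
      (by fun_prop) (.inl fun v _ => mul_nonneg (sq_nonneg _) ((sq_nonneg _).trans (hc v))) fun v hv => by
        rw [abs_mul, abs_of_nonneg (sq_nonneg L)]; exact mul_le_mul_of_nonneg_left (h v hv) (sq_nonneg _)) L0.le).trans
      (le_trans (le_of_eq ?_) e)
    field_simp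
  have V2 : ∀ y a b, a ≤ b → b ≤ ξ ∨ 1 - ξ ≤ a → ‖(L : ℂ) * ∫ v in a..b, ex (L ^ 2 * (Φ v - y * v))‖ ≤ η := fun y a b hab h => by
    rw [norm_mul, Complex.norm_real, Real.norm_of_nonneg L0.le]
    refine (mul_le_mul_of_nonneg_left (vdc2' (lam := (L * Λ) ^ 2) hab (by positivity) (fun v _ => d1 y v) (fun v _ => d2 y v)
      (by fun_prop) fun v hv => (mul_pow _ _ _).trans_le (mul_le_mul_of_nonneg_left
        (hΛ v (h.imp hv.2.trans (·.trans hv.1))) (sq_nonneg _))) L0.le).trans (le_trans (le_of_eq ?_) e1)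
    rw [Real.sqrt_sq (by positivity)]; field_simp
  have I : ∀ y a b d : ℝ, (L : ℂ) * ∫ v in a..d, ex (L ^ 2 * (Φ v - y * v)) =
      (L : ℂ) * (∫ v in a..b, ex (L ^ 2 * (Φ v - y * v))) + L * ∫ v in b..d, ex (L ^ 2 * (Φ v - y * v)) := fun y a b d => by
    rw [← mul_add, integral_add_adjacent_intervals] <;> exact Continuous.intervalIntegrable (by fun_prop) _ _
  have e3 : 4 / (L * (c ^ 2 * ξ)) ≤ η := by
    have : 4 / (c ^ 2 * ξ * η) ≤ L := by linarith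
    rw [div_le_iff₀ (by positivity)] at this ⊢; linarith
  refine ⟨fun y hy => ?_, fun u hu => ?_⟩
  · rw [two_mul]
    rcases hy with hy | hy
    · rw [I y 0 ξ]
      exact norm_add_le_of_le (V2 _ _ _ ξ0.le (.inl le_rfl)) (V1 _ _ _ _ ξ1 (by positivity) (fun v hv => le_abs.2 (.inl (by
        nlinarith [G 0 v (ξ0.le.trans hv.1), hv.1, sq_nonneg c]))) e3)
    · rw [I y 0 (1 - ξ)]
      exact norm_add_le_of_le (V1 _ _ _ _ (by linarith) (by positivity) (fun v hv => le_abs.2 (.inr (by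
        nlinarith [G v 1 (by linarith [hv.2]), hv.2, sq_nonneg c]))) e3) (V2 _ _ _ (by linarith) (.inr le_rfl))
  have a1 : c ≤ √(Φ2 u) := Real.le_sqrt_of_sq_le (hc u)
  have a2 := Real.sq_sqrt ((sq_nonneg _).trans (hc u))
  have a3 := hA u hu
  set a := √(Φ2 u)
  have a0 := c0.trans_le a1
  have r0 : 0 < R / (L * a) := by positivity
  have r1 : R / (L * a) ≤ 1 := by
    rw [div_le_one (by positivity)]
    nlinarith [(div_le_iff₀ c0).1 (by linarith : R / c ≤ L)]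
  have r2 : R / (L * a) ≤ ρ := by
    rw [div_le_iff₀ (by positivity)]
    nlinarith [(div_le_iff₀ (mul_pos c0 ρ0)).1 (by linarith : R / (c * ρ) ≤ L), mul_pos L0 ρ0]
  have e4 : 4 / (L * (c ^ 2 * (R / (L * a)))) ≤ η :=
    le_trans (le_of_eq (by field_simp)) ((div_le_div_of_nonneg_right (mul_le_mul_of_nonneg_left a3 (by norm_num : (0 : ℝ) ≤ 4))
      (by positivity : 0 ≤ c ^ 2 * R)).trans e2)
  have M := (inner h1 h2 a0 L0 R0 fun v hv => a2 ▸ hρ v (by
    rw [abs_le] at hv; constructor <;> linarith [hv.1, hv.2, hu.1, hu.2]) u ⟨by linarith [hu.1], by linarith [hu.2]⟩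
    (hv.trans r2)).trans (show _ ≤ η from le_trans (by gcongr) (le_of_eq (by field_simp) :
      2 * (η / (2 * (R / c) ^ 3)) * (R / c) ^ 3 ≤ η))
  set r := R / (L * a)
  have A1 := V2 (Φ1 u) (-1) 0 (by norm_num) (.inl ξ0.le)
  have A2 := V2 (Φ1 u) 1 2 (by norm_num) (.inr (by linarith))
  have A3 := V1 (Φ1 u) (-1) (u - r) _ (by linarith [hu.1]) (by positivity) (fun v hv => le_abs.2 (.inr (by
    nlinarith [G v u (by linarith [hv.2]), hv.2, sq_nonneg c]))) e4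
  have A4 := V1 (Φ1 u) (u + r) 2 _ (by linarith [hu.2]) (by positivity) (fun v hv => le_abs.2 (.inl (by
    nlinarith [G u v (by linarith [hv.1]), hv.1, sq_nonneg c]))) e4
  refine le_trans (le_of_eq (congrArg _ ?_)) ((norm_sub_le_of_le (norm_sub_le_of_le (norm_add_le_of_le
    (norm_add_le_of_le M A3) A4) A1) A2).trans_eq (by ring))
  linear_combination I (Φ1 u) (-1) (u - r) 2 + I (Φ1 u) (u - r) (u + r) 2 - I (Φ1 u) (-1) 0 2 - I (Φ1 u) 0 1 2

end SPx

theorem sp : SP := fun η η0 => by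
  set c := (1 + η / 2)⁻¹ with hc
  have c0 : 0 < c := by positivity
  have c1 : c ^ 2 < 1 := pow_lt_one₀ c0.le (inv_lt_one_of_one_lt₀ (by linarith)) two_ne_zero
  set Λ := 50 / η
  obtain ⟨n, hn⟩ := exists_nat_ge (4 * Λ ^ 2 / (1 - c ^ 2))
  rw [div_le_iff₀ (by linarith)] at hn
  let Φ2 : ℝ → ℝ := fun v => c ^ 2 + 2 * Λ ^ 2 * (v ^ (2 * n) + (1 - v) ^ (2 * n))
  let Φ1 : ℝ → ℝ := fun v => c ^ 2 * v + 2 * Λ ^ 2 * ((v ^ (2 * n + 1) + (1 - (1 - v) ^ (2 * n + 1))) / (2 * n + 1))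
  have k1 : Continuous Φ1 := by fun_prop
  have k2 : Continuous Φ2 := by fun_prop
  have h1 := fun v => (k1.integral_hasStrictDerivAt 0 v).hasDerivAt
  have h2 : ∀ v, HasDerivAt Φ1 (Φ2 v) v := fun v => (((hasDerivAt_id v).const_mul _).add (((((hasDerivAt_id v).pow _).add
    ((((hasDerivAt_id v).const_sub 1).pow _).const_sub 1)).div_const _).const_mul _)).congr_deriv (by simp [Φ2]; left; field_simp)
  have ev : ∀ x : ℝ, 0 ≤ x ^ (2 * n) := fun x => (even_two_mul n).pow_nonneg x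
  have l2 : ∀ v, c ^ 2 ≤ Φ2 v := fun v => le_add_of_nonneg_right (by have := ev v; have := ev (1 - v); positivity)
  have z0 : Φ1 0 = 0 := by simp [Φ1]
  have z1 : Φ1 1 ≤ 1 := by
    have : 2 * Λ ^ 2 * (2 / (2 * n + 1)) ≤ 1 - c ^ 2 := by
      rw [← mul_div_assoc, div_le_iff₀ (by positivity)]; nlinarith [(Nat.cast_nonneg n : (0 : ℝ) ≤ n)]
    simp only [Φ1]; norm_num; linarith
  have mo : ∀ x y, x ≤ y → Φ1 x ≤ Φ1 y := fun x y h => by
    nlinarith [grow (fun v _ => h2 v) (fun v _ => l2 v) ⟨le_rfl, h⟩ ⟨h, le_rfl⟩ h, sq_nonneg c]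
  set A := √(1 + 4 * Λ ^ 2)
  set R := 20 * A / (c ^ 2 * η) + 8 / (c * η) with hR
  have R0 : 0 < R := by positivity
  have B : ∀ x : ℝ, 1 - 1 / (4 * n + 1) ≤ x → 1 / 2 ≤ x ^ (2 * n) := fun x hx => by
    have p : (1 : ℝ) / (4 * n + 1) ≤ 1 := (div_le_one (by positivity)).2 (by simp)
    have := one_add_mul_le_pow (a := -(1 / (4 * n + 1) : ℝ)) (by linarith) (2 * n)
    refine le_trans ?_ (this.trans (pow_le_pow_left₀ (by linarith) (by linarith) _))
    have : ((2 * n : ℕ) : ℝ) * (1 / (4 * n + 1)) ≤ 1 / 2 := by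
      rw [mul_one_div, div_le_iff₀ (by positivity)]; push_cast; linarith
    linarith
  obtain ⟨L0, l0, H⟩ := main h1 h2 k2 (Λ := Λ) (ξ := 1 / (4 * n + 1)) (A := A) (R := R) (η := η / 5) c0 l2 (by positivity)
    (by positivity) ((div_le_one (by positivity)).2 (by simp)) (fun v hv => by
      have := sq_nonneg c
      rcases hv with hv | hv <;> simp only [Φ2]
      · nlinarith [B (1 - v) (by linarith), ev v, sq_nonneg Λ]
      · nlinarith [B v hv, ev (1 - v), sq_nonneg Λ])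
    (fun v hv => Real.sqrt_le_sqrt (by
      simp only [Φ2]
      nlinarith [pow_le_one₀ (n := 2 * n) hv.1 hv.2, pow_le_one₀ (n := 2 * n) (sub_nonneg.2 hv.2) (sub_le_self 1 hv.1), sq_nonneg Λ]))
    R0 (by positivity) (le_of_eq (by simp only [Λ]; field_simp; norm_num)) (by
      rw [div_le_iff₀ (by positivity), hR, show η / 5 * (c ^ 2 * (20 * A / (c ^ 2 * η) + 8 / (c * η))) = 4 * A + 8 * c / 5 by
        field_simp; ring]
      linarith)
  have U : ∀ y, ∃ u ∈ Icc (0 : ℝ) 1, y ∈ Ico 0 (Φ1 1) → Φ1 u = y := fun y => by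
    by_cases h : y ∈ Ico 0 (Φ1 1)
    · obtain ⟨u, hu, e⟩ := intermediate_value_Icc zero_le_one k1.continuousOn (z0.symm ▸ Ico_subset_Icc_self h)
      exact ⟨u, hu, fun _ => e⟩
    · exact ⟨0, by simp, fun c => (h c).elim⟩
  choose u hu hu' using U
  set F := ∫ x in -R..R, ex (x ^ 2 / 2)
  have s1 : 1 ≤ √(2 * π) := Real.one_le_sqrt.2 (by linarith [pi_gt_three])
  refine ⟨_, Φ1, Φ2, fun y => if y ∈ Ico 0 (Φ1 1) then (√(2 * π))⁻¹ * ((√(Φ2 (u y)))⁻¹ * ‖F‖) else 0,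
    fun y => (∫ x in (0 : ℝ)..u y, Φ1 x) - y * u y, F.arg, L0 ^ 2, h1, h2, k2, fun v => (sq_nonneg _).trans (l2 v),
    fun v hv => ⟨z0 ▸ mo _ _ hv.1, (mo _ _ hv.2).trans z1⟩, fun y => ?_, fun y hy => if_neg fun c => hy ⟨c.1, c.2.trans_le z1⟩,
    by positivity, fun lam hl y => ?_⟩
  · dsimp only
    split_ifs
    · refine ⟨by positivity, (inv_mul_le_iff₀ (by positivity)).2 ((mul_le_mul (inv_anti₀ c0 (Real.le_sqrt_of_sq_le (l2 _)))
        (fres R0) (norm_nonneg _) (by positivity)).trans ?_)⟩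
      have : c⁻¹ * (4 / R) ≤ η / 2 := by
        rw [← mul_div_assoc, div_le_iff₀ R0, hR, mul_add, show η / 2 * (8 / (c * η)) = c⁻¹ * 4 by field_simp; norm_num]
        exact le_add_of_nonneg_left (by positivity)
      rw [mul_add, hc, inv_inv] at *
      nlinarith
    · exact ⟨le_rfl, by positivity⟩
  have l1 : 0 ≤ lam := (sq_nonneg _).trans hl
  obtain ⟨H1, H2⟩ := H √lam (Real.le_sqrt_of_sq_le hl)
  rw [Real.sq_sqrt l1] at H1 H2
  have N : ∀ z : ℂ, ‖z‖ ≤ η → ‖((√(2 * π))⁻¹ : ℝ) * z‖ ≤ η := fun z hz => by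
    rw [norm_mul, Complex.norm_real, Real.norm_of_nonneg (by positivity)]
    exact (mul_le_of_le_one_left (norm_nonneg _) (inv_le_one_of_one_le₀ s1)).trans hz
  rw [Real.sqrt_div l1, div_eq_inv_mul]
  dsimp only
  split_ifs with h
  · refine le_trans (le_of_eq (congrArg _ ?_)) (N _ ((H2 _ (hu y)).trans_eq (by ring)))
    rw [hu' y h, ex_add]
    conv_rhs => rw [← Complex.norm_mul_exp_arg_mul_I F, ← ex_def]
    push_cast; ring
  · refine le_trans (le_of_eq (congrArg _ ?_)) (N _ ((H1 y (by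
      rw [z0]; by_contra! c; exact h ⟨c.1.le, c.2⟩)).trans (by linarith)))
    push_cast; ring

end Crest.Agent.H0100
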