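import Crest.Agent.H0100.Defs

/-! From a locally linear phase to a flat polynomial with real coefficients. -/

set_option autoImplicit false

namespace Crest.Agent.H0100.Smoothx

open Finset Real Crest.Agent.H0100

theorem ex_add_ex_neg (x : ℝ) : ex x + ex (-x) = 2 * ((cos x : ℝ) : ℂ) := by
  apply Complex.ext
  · simp [-Complex.ofReal_cos]; ring
  · simp [-Complex.ofReal_cos]

theorem ex_add_int (t : ℝ) (n : ℤ) : ex (t + n * (2 * π)) = ex t := by
  rw [ex_add, ex_int_two_pi, mul_one]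

theorem norm_ex_sub_one (s : ℝ) : ‖ex s - 1‖ = 2 * |sin (s / 2)| := by
  rw [ex_def, mul_comm, Complex.norm_exp_I_mul_ofReal_sub_one]
  simp

theorem geom_bound (n : ℕ) (s : ℝ) (hs : |s| ≤ π) :
    ‖∑ a ∈ range n, ex (a * s)‖ * |s| ≤ π := by
  have h1 : (∑ a ∈ range n, ex (a * s)) * (ex s - 1) = ex s ^ n - 1 := by
    simp only [ex_nat_mul]; exact geom_sum_mul _ _
  have h2 : ‖ex s ^ n - 1‖ ≤ 2 := by
    refine (norm_sub_le _ _).trans ?_
    simp; norm_num
  have h3 : 2 / π * |s / 2| ≤ |sin (s / 2)| :=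
    Real.mul_abs_le_abs_sin (by rw [abs_div, abs_two]; linarith)
  rw [abs_div, abs_two] at h3
  have h4 : |s| ≤ π * |sin (s / 2)| := by
    have := mul_le_mul_of_nonneg_left h3 pi_pos.le
    have e : π * (2 / π * (|s| / 2)) = |s| := by field_simp
    linarith
  rw [← h1, norm_mul, norm_ex_sub_one] at h2
  calc _ ≤ ‖∑ a ∈ range n, ex (a * s)‖ * (π * |sin (s / 2)|) :=
        mul_le_mul_of_nonneg_left h4 (norm_nonneg _)
    _ = π / 2 * (‖∑ a ∈ range n, ex (a * s)‖ * (2 * |sin (s / 2)|)) := by ring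
    _ ≤ π / 2 * 2 := mul_le_mul_of_nonneg_left h2 (by positivity)
    _ = π := by ring

/-- trapezoidal multiplier -/
noncomputable def vv (r q k : ℕ) : ℝ :=
  (((range r ×ˢ range q).filter (fun p => p.1 + p.2 = k)).card : ℝ) / r

/-- the kernel -/
noncomputable def VV (r q : ℕ) (s : ℝ) : ℂ :=
  (r : ℂ)⁻¹ * ((∑ a ∈ range r, ex (a * s)) * ∑ b ∈ range q, ex (b * s))

theorem vv_nonneg (r q k : ℕ) : 0 ≤ vv r q k := by unfold vv; positivity

theorem vv_le_one (r q k : ℕ) : vv r q k ≤ 1 := by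
  unfold vv
  refine div_le_one_of_le₀ ?_ (Nat.cast_nonneg _)
  have : ((range r ×ˢ range q).filter (fun p => p.1 + p.2 = k)).card ≤ (range r).card := by
    refine card_le_card_of_injOn (fun p => p.1) ?_ ?_
    · intro p hp
      simp only [coe_filter, mem_product, Set.mem_ofPred_eq] at hp
      exact mem_coe.2 hp.1.1
    · intro p hp p' hp' h
      simp only [coe_filter, mem_product, Set.mem_ofPred_eq] at hp hp'
      have h1 : p.1 = p'.1 := h
      exact Prod.ext h1 (by omega)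
  rw [card_range] at this
  exact_mod_cast this

theorem vv_eq_one {r q k : ℕ} (hr : 0 < r) (h1 : r ≤ k + 1) (h2 : k < q) : vv r q k = 1 := by
  unfold vv
  have hr' : (r : ℝ) ≠ 0 := by exact_mod_cast hr.ne'
  rw [div_eq_one_iff_eq hr']
  congr 1
  conv_rhs => rw [← card_range r]
  refine card_bij (fun p _ => p.1) ?_ ?_ ?_
  · intro p hp
    simp only [mem_filter, mem_product] at hp
    exact hp.1.1
  · intro p hp p' hp' h
    simp only [mem_filter, mem_product] at hp hp'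
    exact Prod.ext h (by omega)
  · intro a ha
    simp only [mem_range] at ha
    refine ⟨(a, k - a), ?_, rfl⟩
    simp only [mem_filter, mem_product, mem_range]
    omega

theorem VV_eq {r q N : ℕ} (h : r + q ≤ N + 1) (s : ℝ) :
    VV r q s = ∑ k ∈ range N, (vv r q k : ℂ) * ex (k * s) := by
  unfold VV vv
  rw [sum_mul_sum, ← sum_product']
  rw [← sum_fiberwise_of_maps_to (s := range r ×ˢ range q) (t := range N)
    (g := fun p => p.1 + p.2) (by
      intro p hp
      simp only [mem_product, mem_range] at hp ⊢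
      omega), mul_sum]
  refine sum_congr rfl fun k _ => ?_
  rw [sum_congr rfl (g := fun _ => ex (k * s))]
  · rw [sum_const, nsmul_eq_mul]; push_cast; ring
  · intro p hp
    simp only [mem_filter] at hp
    rw [← ex_add, ← hp.2]; push_cast; ring_nf

theorem norm_VV_le (r q : ℕ) (s : ℝ) : ‖VV r q s‖ ≤ q := by
  unfold VV
  have h : ∀ n : ℕ, ‖∑ a ∈ range n, ex (a * s)‖ ≤ n := fun n =>
    (norm_sum_le _ _).trans (by simp)
  rw [norm_mul, norm_mul, norm_inv, Complex.norm_natCast]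
  rcases Nat.eq_zero_or_pos r with rfl | hr
  · simp
  have hr' : (0 : ℝ) < r := by exact_mod_cast hr
  rw [inv_mul_le_iff₀ hr']
  exact mul_le_mul (h r) (h q) (norm_nonneg _) hr'.le

theorem norm_VV_far (r q : ℕ) (s : ℝ) (hs : |s| ≤ π) : ‖VV r q s‖ * s ^ 2 ≤ π ^ 2 / r := by
  unfold VV
  rw [norm_mul, norm_mul, norm_inv, Complex.norm_natCast, ← sq_abs s, div_eq_inv_mul, mul_assoc]
  refine mul_le_mul_of_nonneg_left ?_ (by positivity)
  have := mul_le_mul (geom_bound r s hs) (geom_bound q s hs) (by positivity) pi_pos.le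
  nlinarith

theorem VV_periodic (r q : ℕ) (s : ℝ) : VV r q (s - 2 * π) = VV r q s := by
  unfold VV
  have : ∀ a : ℕ, ex (a * (s - 2 * π)) = ex (a * s) := fun a => by
    rw [← ex_add_int (a * s) (-a)]; congr 1; push_cast; ring
  simp only [this]

@[fun_prop] theorem continuous_VV (r q : ℕ) : Continuous (VV r q) := by unfold VV; fun_prop

/-- pointwise majorant -/
theorem major {r q : ℕ} {N D0 e0 s : ℝ} (hq : (q : ℝ) ≤ N) (hD : 0 < D0) (he : 0 ≤ e0)
    (hs : |s| ≤ π) {z : ℂ} (hz : ‖z‖ ≤ 2) (hz' : |s| ≤ D0 → ‖z‖ ≤ e0) :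
    ‖z * VV r q s‖ ≤ (2 * N * e0 * D0 ^ 2 + 4 * π ^ 2 / r) / (D0 ^ 2 + s ^ 2) := by
  have hN : 0 ≤ N := (Nat.cast_nonneg _).trans hq
  rw [le_div_iff₀ (by positivity), norm_mul]
  by_cases h : |s| ≤ D0
  · have h1 : ‖z‖ * ‖VV r q s‖ ≤ e0 * N :=
      mul_le_mul (hz' h) ((norm_VV_le r q s).trans hq) (norm_nonneg _) he
    have h2 : D0 ^ 2 + s ^ 2 ≤ 2 * D0 ^ 2 := by
      have := sq_le_sq' (neg_le_of_abs_le h) (le_of_abs_le h); linarith
    have h3 := mul_le_mul h1 h2 (by positivity) (by positivity)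
    have : 0 ≤ 4 * π ^ 2 / r := by positivity
    nlinarith
  · push Not at h
    have h2 : D0 ^ 2 + s ^ 2 ≤ 2 * s ^ 2 := by
      have : D0 ^ 2 ≤ |s| ^ 2 := by gcongr
      rw [sq_abs] at this; linarith
    have h3 := norm_VV_far r q s hs
    have h4 : ‖z‖ * ‖VV r q s‖ * (D0 ^ 2 + s ^ 2) ≤ 2 * ‖VV r q s‖ * (2 * s ^ 2) := by gcongr
    have : 0 ≤ 2 * N * e0 * D0 ^ 2 := by positivity
    have e : 4 * π ^ 2 / r = 4 * (π ^ 2 / r) := by ring
    nlinarith

theorem integral_major {D0 : ℝ} (hD : 0 < D0) (c : ℝ) :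
    ∫ u in (0 : ℝ)..π, 1 / (D0 ^ 2 + (u - c) ^ 2) ≤ π / D0 := by
  have hd : ∀ u ∈ Set.uIcc (0 : ℝ) π, HasDerivAt (fun u => arctan ((u - c) / D0) / D0)
      (1 / (D0 ^ 2 + (u - c) ^ 2)) u := by
    intro u _
    have h1 : HasDerivAt (fun u => (u - c) / D0) (1 / D0) u :=
      ((hasDerivAt_id u).sub_const c).div_const D0
    have h2 := (h1.arctan).div_const D0
    refine h2.congr_deriv ?_
    have : D0 ^ 2 + (u - c) ^ 2 ≠ 0 := by positivity
    have : 1 + ((u - c) / D0) ^ 2 = (D0 ^ 2 + (u - c) ^ 2) / D0 ^ 2 := by field_simp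
    rw [this]
    field_simp
  rw [intervalIntegral.integral_eq_sub_of_hasDerivAt hd]
  · have h1 := arctan_lt_pi_div_two ((π - c) / D0)
    have h2 := neg_pi_div_two_lt_arctan ((0 - c) / D0)
    rw [← sub_div]
    gcongr
    linarith
  · refine Continuous.intervalIntegrable ?_ _ _
    refine continuous_const.div (by fun_prop) fun u => by positivity

theorem integral_cos_int (n : ℤ) (hn : n ≠ 0) : ∫ u in (0 : ℝ)..π, cos (n * u) = 0 := by
  have hn' : (n : ℝ) ≠ 0 := by exact_mod_cast hn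
  rw [intervalIntegral.integral_comp_mul_left (fun x => cos x) hn']
  simp [Real.sin_int_mul_pi]

/-- the smoothing operator -/
noncomputable def Aop (r q : ℕ) (Θ : ℝ → ℝ) (θ : ℝ) : ℂ :=
  ∫ u in (0 : ℝ)..π, (ex (Θ u) * VV r q (θ - u) + ex (-Θ u) * VV r q (θ + u))

theorem Aop_eq {r q N : ℕ} (h : r + q ≤ N + 1) {Θ : ℝ → ℝ} (hΘ : Continuous Θ) (θ : ℝ) :
    Aop r q Θ θ = ∑ k ∈ range N,
      ((2 * vv r q k * ∫ u in (0 : ℝ)..π, cos (Θ u - k * u) : ℝ) : ℂ) * ex (k * θ) := by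
  unfold Aop
  have e : ∀ u, ex (Θ u) * VV r q (θ - u) + ex (-Θ u) * VV r q (θ + u) =
      ∑ k ∈ range N, (2 * (vv r q k : ℂ) * ex (k * θ)) * ((cos (Θ u - k * u) : ℝ) : ℂ) := by
    intro u
    rw [VV_eq h, VV_eq h, mul_sum, mul_sum, ← sum_add_distrib]
    refine sum_congr rfl fun k _ => ?_
    have h1 : ex (Θ u) * ex (k * (θ - u)) = ex (k * θ) * ex (Θ u - k * u) := by
      rw [← ex_add, ← ex_add]; congr 1; ring
    have h2 : ex (-Θ u) * ex (k * (θ + u)) = ex (k * θ) * ex (-(Θ u - k * u)) := by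
      rw [← ex_add, ← ex_add]; congr 1; ring
    have h3 := ex_add_ex_neg (Θ u - k * u)
    linear_combination (vv r q k : ℂ) * h1 + (vv r q k : ℂ) * h2 + (vv r q k : ℂ) * ex (k * θ) * h3
  simp only [e]
  rw [intervalIntegral.integral_finsetSum]
  · refine sum_congr rfl fun k _ => ?_
    rw [intervalIntegral.integral_const_mul, intervalIntegral.integral_ofReal]
    push_cast; ring
  · intro k _
    exact Continuous.intervalIntegrable (by fun_prop) _ _

theorem Aop_lin {r q N k0 : ℕ} (h : r + q ≤ N + 1) (hk : k0 < N) (hv : vv r q k0 = 1) (θ : ℝ) :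
    Aop r q (fun u => k0 * u) θ = 2 * π * ex (k0 * θ) := by
  rw [Aop_eq h (by fun_prop), sum_eq_single k0]
  · simp [hv]
  · intro k _ hk
    have : ∫ u in (0 : ℝ)..π, cos (k0 * u - k * u) = 0 := by
      refine Eq.trans ?_ (integral_cos_int ((k0 : ℤ) - k) (by omega))
      congr 1; funext u; congr 1; push_cast; ring
    simp [this]
  · intro h; exact absurd (mem_range.2 hk) h

theorem ex_neg_of_sin {x : ℝ} (h : sin x = 0) : ex (-x) = ex x := by
  apply Complex.ext <;> simp [h]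

theorem Aop_close {r q N k0 : ℕ} (h : r + q ≤ N + 1) (hq : q ≤ N) (hk : k0 < N)
    (hv : vv r q k0 = 1) {Θ : ℝ → ℝ} (hΘ : Continuous Θ) (h0 : sin (Θ 0) = 0)
    (hπ : sin (Θ π) = 0) {θ D0 e : ℝ} (hθ : θ ∈ Set.Icc 0 π) (hD : 0 < D0) (he : 0 ≤ e)
    (hloc : ∀ u ∈ Set.Icc 0 π, |u - θ| ≤ D0 → |Θ u - Θ θ - k0 * (u - θ)| ≤ e) :
    ‖Aop r q Θ θ - 2 * π * ex (Θ θ)‖ ≤
      3 * ((2 * N * (3 * e) * D0 ^ 2 + 4 * π ^ 2 / r) * (π / D0)) := by
  set K : ℝ := 2 * N * (3 * e) * D0 ^ 2 + 4 * π ^ 2 / r with hK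
  have hK0 : 0 ≤ K := by positivity
  have hqN : (q : ℝ) ≤ N := by exact_mod_cast hq
  have e1 : 2 * π * ex (Θ θ) = ex (Θ θ - k0 * θ) * Aop r q (fun u => k0 * u) θ := by
    rw [Aop_lin h hk hv, mul_left_comm, ← ex_add]; congr 2; ring
  rw [e1]
  unfold Aop
  rw [← intervalIntegral.integral_const_mul, ← intervalIntegral.integral_sub
    (Continuous.intervalIntegrable (by fun_prop) _ _)
    (Continuous.intervalIntegrable (by fun_prop) _ _)]
  have hc : ∀ c : ℝ, Continuous fun u : ℝ => 1 / (D0 ^ 2 + (u - c) ^ 2) := fun c =>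
    continuous_const.div (by fun_prop) fun u => by positivity
  have hb : ∀ u ∈ Set.Ioc (0 : ℝ) π,
      ‖ex (Θ u) * VV r q (θ - u) + ex (-Θ u) * VV r q (θ + u) -
        ex (Θ θ - k0 * θ) * (ex (k0 * u) * VV r q (θ - u) + ex (-(k0 * u)) * VV r q (θ + u))‖ ≤
      K * (1 / (D0 ^ 2 + (u - θ) ^ 2)) + K * (1 / (D0 ^ 2 + (u - (-θ)) ^ 2)) +
        K * (1 / (D0 ^ 2 + (u - (2 * π - θ)) ^ 2)) := by
    intro u hu
    have hu' : u ∈ Set.Icc (0 : ℝ) π := ⟨hu.1.le, hu.2⟩
    have e2 : ex (Θ u) * VV r q (θ - u) + ex (-Θ u) * VV r q (θ + u) -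
        ex (Θ θ - k0 * θ) * (ex (k0 * u) * VV r q (θ - u) + ex (-(k0 * u)) * VV r q (θ + u)) =
        (ex (Θ u) - ex (Θ θ - k0 * θ + k0 * u)) * VV r q (θ - u) +
          (ex (-Θ u) - ex (Θ θ - k0 * θ + -(k0 * u))) * VV r q (θ + u) := by
      rw [ex_add, ex_add]; ring
    have n2 : ∀ x y : ℝ, ‖ex x - ex y‖ ≤ 2 := fun x y =>
      (norm_sub_le _ _).trans (by simp; norm_num)
    rw [e2]
    refine (norm_add_le _ _).trans ?_
    rw [add_assoc]
    refine add_le_add ?_ ?_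
    · have := major (r := r) (s := θ - u) hqN hD (by positivity : 0 ≤ 3 * e)
        (abs_le.2 ⟨by linarith [hθ.1, hu.2], by linarith [hθ.2, hu.1]⟩)
        (n2 (Θ u) (Θ θ - k0 * θ + k0 * u)) (fun hs => by
          refine (norm_ex_sub_ex _ _).trans ?_
          have := hloc u hu' (by rwa [abs_sub_comm])
          rw [show Θ u - (Θ θ - k0 * θ + k0 * u) = Θ u - Θ θ - k0 * (u - θ) by ring]
          linarith)
      rw [mul_one_div, show (u - θ) ^ 2 = (θ - u) ^ 2 by ring]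
      exact this
    · by_cases hs : θ + u ≤ π
      · have := major (r := r) (s := θ + u) hqN hD (by positivity : 0 ≤ 3 * e)
          (abs_le.2 ⟨by linarith [hθ.1, hu.1, pi_pos], hs⟩)
          (n2 (-Θ u) (Θ θ - k0 * θ + -(k0 * u))) (fun hs => by
            rw [abs_of_nonneg (by linarith [hθ.1, hu.1])] at hs
            have a1 := hloc u hu' (abs_le.2 ⟨by linarith [hθ.1, hu.1], by linarith [hθ.1, hu.1]⟩)
            have a2 := hloc 0 ⟨le_rfl, pi_pos.le⟩
              (abs_le.2 ⟨by linarith [hθ.1, hu.1], by linarith [hθ.1, hu.1]⟩)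
            have e3 : ex (-Θ u) = ex (-Θ u + 2 * Θ 0) := by
              rw [show -Θ u = -Θ u + Θ 0 + -Θ 0 by ring, ex_add, ex_neg_of_sin h0, ← ex_add]
              congr 1; ring
            rw [e3]
            refine (norm_ex_sub_ex _ _).trans ?_
            rw [abs_le] at a1 a2 ⊢
            constructor <;> nlinarith [a1.1, a1.2, a2.1, a2.2])
        have h5 : 0 ≤ K * (1 / (D0 ^ 2 + (u - (2 * π - θ)) ^ 2)) := by positivity
        rw [mul_one_div K, show (u - -θ) ^ 2 = (θ + u) ^ 2 by ring]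
        linarith
      · push Not at hs
        have := major (r := r) (s := θ + u - 2 * π) hqN hD (by positivity : 0 ≤ 3 * e)
          (abs_le.2 ⟨by linarith, by linarith [hθ.2, hu.2, pi_pos]⟩)
          (n2 (-Θ u) (Θ θ - k0 * θ + -(k0 * u))) (fun hs => by
            rw [abs_of_nonpos (by linarith [hθ.2, hu.2])] at hs
            have a1 := hloc u hu' (abs_le.2 ⟨by linarith [hθ.2, hu.2], by linarith [hθ.2, hu.2]⟩)
            have a2 := hloc π ⟨pi_pos.le, le_rfl⟩
              (abs_le.2 ⟨by linarith [hθ.2, hu.2], by linarith [hθ.2, hu.2]⟩)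
            have e3 : ex (-Θ u) = ex (-Θ u + 2 * Θ π + (-(k0 : ℤ) : ℤ) * (2 * π)) := by
              rw [ex_add_int, show -Θ u = -Θ u + Θ π + -Θ π by ring, ex_add, ex_neg_of_sin hπ,
                ← ex_add]
              congr 1; ring
            rw [e3]
            refine (norm_ex_sub_ex _ _).trans ?_
            push_cast
            rw [abs_le] at a1 a2 ⊢
            constructor <;> nlinarith [a1.1, a1.2, a2.1, a2.2])
        rw [VV_periodic] at this
        have h5 : 0 ≤ K * (1 / (D0 ^ 2 + (u - -θ) ^ 2)) := by positivity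
        rw [mul_one_div K (D0 ^ 2 + (u - (2 * π - θ)) ^ 2),
          show (u - (2 * π - θ)) ^ 2 = (θ + u - 2 * π) ^ 2 by ring]
        linarith
  refine (intervalIntegral.norm_integral_le_of_norm_le pi_pos.le
    (Filter.Eventually.of_forall hb) ?_).trans ?_
  · exact Continuous.intervalIntegrable
      (((continuous_const.mul (hc _)).add (continuous_const.mul (hc _))).add
        (continuous_const.mul (hc _))) _ _
  · have i : ∀ c : ℝ, IntervalIntegrable (fun u : ℝ => K * (1 / (D0 ^ 2 + (u - c) ^ 2)))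
        MeasureTheory.volume 0 π := fun c =>
      Continuous.intervalIntegrable (continuous_const.mul (hc _)) _ _
    rw [intervalIntegral.integral_add ((i _).add (i _)) (i _),
      intervalIntegral.integral_add (i _) (i _)]
    simp only [intervalIntegral.integral_const_mul]
    have j1 := mul_le_mul_of_nonneg_left (integral_major hD θ) hK0
    have j2 := mul_le_mul_of_nonneg_left (integral_major hD (-θ)) hK0
    have j3 := mul_le_mul_of_nonneg_left (integral_major hD (2 * π - θ)) hK0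
    linarith

theorem norm_reduce {N : ℕ} (a : Fin N → ℝ) (θ : ℝ) : ∃ θ' ∈ Set.Icc (0 : ℝ) π,
    ‖∑ k : Fin N, (a k : ℂ) * ex ((k : ℕ) * θ)‖ = ‖∑ k : Fin N, (a k : ℂ) * ex ((k : ℕ) * θ')‖ := by
  set t := toIocMod two_pi_pos (-π) θ with ht
  have hm := toIocMod_mem_Ioc two_pi_pos (-π) θ
  rw [← ht] at hm
  have e : θ = t + toIocDiv two_pi_pos (-π) θ * (2 * π) := by
    have := toIocMod_add_toIocDiv_zsmul two_pi_pos (-π) θ
    rw [zsmul_eq_mul] at this
    linarith
  have e1 : ∀ k : ℕ, ex (k * θ) = ex (k * t) := fun k => by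
    rw [← ex_add_int (k * t) (k * toIocDiv two_pi_pos (-π) θ)]
    congr 1
    conv_lhs => rw [e]
    push_cast; ring
  simp only [e1]
  by_cases h : 0 ≤ t
  · exact ⟨t, ⟨h, by linarith [hm.2]⟩, rfl⟩
  · refine ⟨-t, ⟨by linarith, by linarith [hm.1]⟩, ?_⟩
    rw [← Complex.norm_conj, map_sum]
    congr 1
    refine sum_congr rfl fun k _ => ?_
    rw [map_mul, Complex.conj_ofReal, conj_ex]; congr 2; ring

end Crest.Agent.H0100.Smoothx

namespace Crest.Agent.H0100

open Finset Real Smoothx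

theorem smooth : Smooth := by
  intro δ ρ hδ hρ
  set R : ℝ := (3 / 2) * (6 + 8 * π ^ 2 / δ) / ρ with hR
  have hR0 : 0 < R := by positivity
  refine ⟨R, hR0, ⌈2 / δ⌉₊, fun N hN Θ B hL hB => ?_⟩
  obtain ⟨hΘ, h0, hπ, hloc⟩ := hL
  have hN2 : 2 ≤ δ * N := by
    have : 2 / δ ≤ N := (Nat.le_ceil _).trans (by exact_mod_cast hN)
    rwa [div_le_iff₀' hδ] at this
  have hN0 : (0 : ℝ) < N := by
    by_contra h
    have : (N : ℝ) = 0 := le_antisymm (not_lt.1 h) (Nat.cast_nonneg _)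
    rw [this] at hN2; linarith
  set r : ℕ := ⌊δ * N⌋₊ with hr
  have hr1 : (r : ℝ) ≤ δ * N := Nat.floor_le (by positivity)
  have hr2 : δ * N / 2 ≤ r := by have := Nat.lt_floor_add_one (δ * N); linarith
  have hr0 : 0 < r := by
    have : (0 : ℝ) < r := by linarith
    exact_mod_cast this
  have hrN : r ≤ N := by
    obtain ⟨k0, h1, h2, -⟩ := hloc 0 ⟨le_rfl, pi_pos.le⟩
    have : (r : ℝ) ≤ N := by nlinarith
    exact_mod_cast this
  set q : ℕ := N - r + 1 with hq
  have hrq : r + q ≤ N + 1 := by omega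
  refine ⟨fun k => vv r q k * (√(N : ℝ) / π * ∫ u in (0 : ℝ)..π, cos (Θ u - (k : ℕ) * u)),
    fun k => ?_, fun θ => ?_⟩
  · rw [abs_mul, abs_of_nonneg (vv_nonneg _ _ _)]
    have := hB k k.isLt
    calc _ ≤ 1 * B := mul_le_mul (vv_le_one _ _ _) this (abs_nonneg _) zero_le_one
      _ = B := one_mul _
  · obtain ⟨θ', hθ', e⟩ := norm_reduce (fun k : Fin N =>
      vv r q k * (√(N : ℝ) / π * ∫ u in (0 : ℝ)..π, cos (Θ u - (k : ℕ) * u))) θ
    rw [e]
    obtain ⟨k0, h1, h2, h3⟩ := hloc θ' hθ'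
    have hk1 : r ≤ k0 := by exact_mod_cast hr1.trans h1
    have hk2 : k0 + r ≤ N := by
      have : (k0 : ℝ) + r ≤ N := by linarith
      exact_mod_cast this
    have hc := Aop_close hrq (by omega) (show k0 < N by omega)
      (vv_eq_one hr0 (by omega) (by omega)) hΘ h0 hπ hθ' (div_pos hR0 hN0) (by positivity) h3
    have e2 : ∑ k : Fin N, ((vv r q k * (√(N : ℝ) / π *
        ∫ u in (0 : ℝ)..π, cos (Θ u - (k : ℕ) * u)) : ℝ) : ℂ) * ex ((k : ℕ) * θ') =
        ((√(N : ℝ) / (2 * π) : ℝ) : ℂ) * Aop r q Θ θ' := by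
      rw [Aop_eq hrq hΘ, mul_sum, ← Fin.sum_univ_eq_sum_range (fun k : ℕ =>
        ((√(N : ℝ) / (2 * π) : ℝ) : ℂ) * (((2 * vv r q k *
          ∫ u in (0 : ℝ)..π, cos (Θ u - k * u) : ℝ) : ℂ) * ex (k * θ')))]
      refine sum_congr rfl fun k _ => ?_
      rw [← mul_assoc ((√(N : ℝ) / (2 * π) : ℝ) : ℂ), ← Complex.ofReal_mul]
      congr 2
      field_simp
    rw [e2, norm_mul, Complex.norm_real, Real.norm_of_nonneg (by positivity)]
    have n1 : ‖(2 * π * ex (Θ θ') : ℂ)‖ = 2 * π := by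
      simp [abs_of_pos pi_pos]
    have h4 := (abs_norm_sub_norm_le _ _).trans hc
    rw [n1] at h4
    have h5 : 3 * ((2 * N * (3 * (1 / R ^ 2)) * (R / N) ^ 2 + 4 * π ^ 2 / r) * (π / (R / N))) ≤
        2 * π * ρ := by
      have hrpos : (0 : ℝ) < r := by exact_mod_cast hr0
      have b1 : 4 * π ^ 2 / r ≤ 8 * π ^ 2 / (δ * N) := by
        rw [div_le_div_iff₀ hrpos (by positivity)]
        nlinarith [sq_nonneg π]
      calc _ ≤ 3 * ((2 * N * (3 * (1 / R ^ 2)) * (R / N) ^ 2 + 8 * π ^ 2 / (δ * N)) *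
            (π / (R / N))) := by gcongr
        _ = 2 * π * ((3 / 2) * (6 + 8 * π ^ 2 / δ) / R) := by field_simp; ring
        _ = 2 * π * ρ := by rw [hR]; field_simp
    have e3 : √(N : ℝ) / (2 * π) * ‖Aop r q Θ θ'‖ - √(N : ℝ) =
        √(N : ℝ) / (2 * π) * (‖Aop r q Θ θ'‖ - 2 * π) := by field_simp
    rw [e3, abs_mul, abs_of_nonneg (by positivity)]
    calc _ ≤ √(N : ℝ) / (2 * π) * (2 * π * ρ) := by gcongr; exact h4.trans h5
      _ = ρ * √(N : ℝ) := by field_simp

end Crest.Agent.H0100
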