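import Crest.Agent.H0100.Defs

set_option autoImplicit false

namespace Crest.Agent.H0100

open Finset Real

namespace Spenx

noncomputable def sg (b : Bool) : ℝ := if b then 1 else -1

variable {κ : Type} [Fintype κ] [DecidableEq κ]

lemma ppc {ι : Type} [Fintype ι] {f : ι → ℝ} {c : ℝ} (h0 : ∀ i, 0 ≤ f i) (h : ∀ i, f i ≤ c) : ∏ i, f i ≤ c ^ Fintype.card ι :=
  (prod_le_prod (fun i _ => h0 i) fun i _ => h i).trans_eq (by simp)

lemma mgf {u : κ → ℝ} {t : ℝ} (h : ∀ k, u k ^ 2 ≤ t) : ∑ χ : κ → Bool, exp (∑ k, u k * sg (χ k)) ≤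
    2 ^ Fintype.card κ * exp (Fintype.card κ * (t / 2)) := by
  simp only [exp_sum]
  rw [← Fintype.piFinset_univ, ← prod_univ_sum (fun _ => univ) fun k b => exp (u k * sg b), exp_nat_mul, ← mul_pow]
  refine ppc (fun _ => by positivity) fun k => ?_
  have := (cosh_le_exp_half_sq (u k)).trans (exp_le_exp.2 (by linarith [h k] : _ ≤ t / 2))
  rw [cosh_eq] at this
  simp [sg]; linarith

lemma m4 {v : κ → ℝ} (h : ∀ k, |v k| ≤ 1) (n0 : 0 < Fintype.card κ) :
    ∑ χ : κ → Bool, (∑ k, v k * sg (χ k)) ^ 4 ≤ 96 * (Fintype.card κ : ℝ) ^ 2 * 2 ^ Fintype.card κ := by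
  have n1 : (0 : ℝ) < Fintype.card κ := by exact_mod_cast n0
  set n : ℝ := (Fintype.card κ : ℝ) with hn
  have s0 := sqrt_pos.2 n1
  have A : ∀ k, (v k / √n) ^ 2 ≤ 1 / n := fun k => by
    rw [div_pow, sq_sqrt n1.le]; gcongr; exact sq_le_one_iff_abs_le_one _ |>.2 (h k)
  have B := add_le_add (mgf A) (mgf (u := fun k => -(v k / √n)) fun k => (neg_sq _).trans_le (A k))
  have C : exp (n * (1 / n / 2)) ≤ 2 := by
    rw [show n * (1 / n / 2) = 1 / 2 by field_simp]
    exact (exp_bound_div_one_sub_of_interval (by norm_num) (by norm_num)).trans_eq (by norm_num)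
  rw [← sum_add_distrib, ← hn] at B
  refine (sum_le_sum fun χ _ => ?_).trans ((mul_sum _ _ _).ge.trans ((mul_le_mul_of_nonneg_left B
    (by positivity : 0 ≤ 24 * n ^ 2)).trans ?_))
  swap
  · linarith [mul_le_mul_of_nonneg_left C (by positivity : (0 : ℝ) ≤ n ^ 2 * 2 ^ Fintype.card κ)]
  simp only [neg_mul, sum_neg_distrib, div_mul_eq_mul_div, ← sum_div]
  generalize ∑ k, v k * sg (χ k) = X
  have D := pow_div_factorial_le_exp _ (abs_nonneg (X / √n)) 4
  have E : exp |X / √n| ≤ exp (X / √n) + exp (-(X / √n)) := by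
    rcases abs_choice (X / √n) with e | e <;> rw [e] <;> linarith [exp_pos (X / √n), exp_pos (-(X / √n))]
  rw [Even.pow_abs (by decide), div_pow, show √n ^ 4 = n ^ 2 by rw [show 4 = 2 * 2 from rfl, pow_mul, sq_sqrt n1.le],
    div_div, div_le_iff₀ (by positivity)] at D
  norm_num [Nat.factorial] at D
  nlinarith [mul_le_mul_of_nonneg_left E (by positivity : 0 ≤ 24 * n ^ 2)]

lemma ball (χ : κ → Bool) (F : Finset (κ → Bool)) (h : ∀ ψ ∈ F, (#{k | χ k ≠ ψ k} : ℝ) ≤ Fintype.card κ / 10) :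
    (#F : ℝ) ≤ exp (Fintype.card κ / 10) * (3 / 2) ^ Fintype.card κ := by
  have A : ∑ ψ : κ → Bool, ∏ k, (if χ k ≠ ψ k then exp (-1) else 1) ≤ (3 / 2) ^ Fintype.card κ := by
    rw [← Fintype.piFinset_univ, ← prod_univ_sum (fun _ => univ) fun k b => if χ k ≠ b then exp (-1) else 1]
    refine ppc (fun _ => by positivity) fun k => ?_
    have := exp_neg_one_lt_d9
    cases χ k <;> simp <;> linarith
  refine le_trans ?_ (mul_le_mul_of_nonneg_left ((sum_le_univ_sum_of_nonneg (s := F) fun _ => by positivity).trans A) (exp_pos _).le)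
  rw [mul_sum, card_eq_sum_ones, Nat.cast_sum]
  refine sum_le_sum fun ψ hψ => ?_
  rw [prod_ite, prod_const_one, prod_const, mul_one, ← exp_nat_mul, ← exp_add]
  simpa using h ψ hψ

lemma part : ∃ C : ℝ, 0 < C ∧ ∀ (ι κ : Type) [Fintype ι] [Fintype κ] [DecidableEq κ] (v : ι → κ → ℝ), (∀ i k, |v i k| ≤ 1) →
    0 < Fintype.card κ → Fintype.card κ ≤ Fintype.card ι → ∃ χ ψ : κ → Bool, (Fintype.card κ / 10 : ℝ) < #{k | χ k ≠ ψ k} ∧
      ∀ i, |∑ k, v i k * sg (χ k) - ∑ k, v i k * sg (ψ k)| ≤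
        C * ((Fintype.card κ : ℝ) ^ (1 / 6 : ℝ) * (Fintype.card ι : ℝ) ^ (1 / 3 : ℝ)) := by
  have A : Summable fun n : ℕ => exp (-n) := summable_exp_neg_nat
  have B : Summable fun n : ℤ => exp (-|(n : ℝ)|) := .of_nat_of_neg (by simpa using A) (by simpa using A)
  obtain ⟨G, G1, hG⟩ : ∃ G : ℝ, 1 ≤ G ∧ ∀ F : Finset ℤ, ∑ b ∈ F, exp (-|(b : ℝ)|) ≤ G :=
    ⟨_, by simpa using B.le_tsum 0 fun _ _ => (exp_pos _).le, fun F => B.sum_le_tsum F fun _ _ => (exp_pos _).le⟩
  set C := 30720 * (20 * G + 4)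
  refine ⟨C, by positivity, fun ι κ _ _ _ v hv n0 hn => ?_⟩
  classical
  have n1 : (0 : ℝ) < Fintype.card κ := by exact_mod_cast n0
  have hn' : (Fintype.card κ : ℝ) ≤ Fintype.card ι := by exact_mod_cast hn
  have M4 := fun i => m4 (hv i) n0
  have Bl := @ball κ _ _
  set a := (Fintype.card κ : ℝ) ^ (1 / 6 : ℝ)
  set b := (Fintype.card ι : ℝ) ^ (1 / 3 : ℝ)
  have a0 : 0 < a := by positivity
  have b0 : 0 < b := rpow_pos_of_pos (by linarith) _
  have ha : a ^ 6 = Fintype.card κ := by rw [← rpow_natCast, ← rpow_mul n1.le]; norm_num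
  have hb : b ^ 3 = Fintype.card ι := by rw [← rpow_natCast, ← rpow_mul (by linarith)]; norm_num
  have r1 : 1 ≤ b / a ^ 2 := (one_le_div (by positivity)).2 (le_of_pow_le_pow_left₀ three_ne_zero b0.le
    (by rw [← pow_mul, hb]; exact ha.trans_le hn'))
  set Δ := C * (a * b) with hΔ
  have Δ0 : 0 < Δ := by positivity
  set ζ := (20 * G * (b / a ^ 2) ^ 3)⁻¹ with hζ
  have ζ0 : 0 < ζ := by positivity
  have L : -log ζ + 1 ≤ (20 * G + 4) * (b / a ^ 2) := by
    rw [hζ, log_inv, neg_neg, log_mul (by positivity) (by positivity), log_pow]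
    have := log_le_sub_one_of_pos (by positivity : 0 < 20 * G)
    have := log_le_sub_one_of_pos (by positivity : 0 < b / a ^ 2)
    push_cast; nlinarith
  have L0 : 0 ≤ -log ζ := neg_nonneg.2 (log_nonpos ζ0.le (inv_le_one_of_one_le₀ (by nlinarith [one_le_pow₀ (n := 3) r1])))
  let β : (κ → Bool) → ι → ℤ := fun χ i => round ((∑ k, v i k * sg (χ k)) / Δ)
  let c : ℤ → ℝ := fun z => if z = 0 then 0 else -log ζ + |(z : ℝ)|
  by_contra! H
  have S1 : ∑ χ, ∑ i, c (β χ i) ≤ 2 ^ Fintype.card κ * (Fintype.card κ / 20) := by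
    rw [sum_comm]
    refine (sum_le_card_nsmul _ _ _ fun i _ => (sum_le_sum fun χ _ => (?_ : _ ≤ (20 * G + 4) * (b / a ^ 2) * (2 / Δ) ^ 4 *
      (∑ k, v i k * sg (χ k)) ^ 4)).trans ((mul_sum _ _ _).ge.trans (mul_le_mul_of_nonneg_left (M4 i) (by positivity)))).trans ?_
    · simp only [c, β]
      generalize ∑ k, v i k * sg (χ k) = X
      split_ifs with h
      · positivity
      have h1 : (1 : ℝ) ≤ |(round (X / Δ) : ℝ)| := by exact_mod_cast Int.one_le_abs h
      have h2 := abs_sub_round (X / Δ)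
      have h3 := abs_sub_abs_le_abs_sub (round (X / Δ) : ℝ) (X / Δ)
      rw [abs_sub_comm] at h3
      have h4 : 1 ≤ 2 * |X / Δ| := by linarith
      have h5 := le_self_pow₀ h4 four_ne_zero
      rw [mul_assoc, ← mul_pow, show (2 / Δ * X) ^ 4 = (2 * |X / Δ|) ^ 4 by
        rw [mul_pow 2, Even.pow_abs (by decide)]; ring]
      nlinarith [mul_le_mul_of_nonneg_left (h4.trans h5) L0]
    · have C1 : 1 ≤ C := by simp only [C]; linarith
      rw [nsmul_eq_mul, card_univ, ← hb, ← ha, show b ^ 3 * ((20 * G + 4) * (b / a ^ 2) * (2 / Δ) ^ 4 * (96 * (a ^ 6) ^ 2 *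
        2 ^ Fintype.card κ)) = 2 ^ Fintype.card κ * (a ^ 6 / 20) * (C / C ^ 4) by rw [hΔ]; simp only [C]; field_simp; ring]
      exact mul_le_of_le_one_right (by positivity) ((div_le_one (by positivity)).2 (le_self_pow₀ C1 four_ne_zero))
  have S2 : 2 ^ Fintype.card κ * exp (-(Fintype.card κ / 20)) ≤ ∑ χ, ∏ i, exp (-c (β χ i)) := by
    refine le_trans ?_ (sum_le_sum fun χ _ => (?_ : exp (-(Fintype.card κ / 20)) * (Fintype.card κ / 20 - ∑ i, c (β χ i) + 1) ≤ _))
    · rw [← mul_sum, mul_comm, sum_add_distrib, sum_sub_distrib]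
      simp only [sum_const, card_univ, Fintype.card_fun, Fintype.card_bool, nsmul_eq_mul]
      push_cast; gcongr; linarith
    · refine (mul_le_mul_of_nonneg_left (add_one_le_exp _) (exp_pos _).le).trans_eq ?_
      rw [← exp_add, ← exp_sum, sum_neg_distrib]; congr 1; ring
  obtain ⟨F, hF⟩ : ∃ F : Finset ℤ, ∀ χ i, β χ i ∈ F :=
    ⟨(univ : Finset ((κ → Bool) × ι)).image fun x => β x.1 x.2, fun χ i => mem_image.2 ⟨(χ, i), mem_univ _, rfl⟩⟩
  have S3 : ∑ χ, ∏ i, exp (-c (β χ i)) ≤ exp (Fintype.card κ / 10) * (3 / 2) ^ Fintype.card κ * exp (Fintype.card κ / 20) := by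
    rw [← sum_fiberwise_of_maps_to (g := β) (t := Fintype.piFinset fun _ => F) fun χ _ =>
      Fintype.mem_piFinset.2 fun i => hF χ i]
    refine (sum_le_sum fun p _ => (?_ : _ ≤ exp (Fintype.card κ / 10) * (3 / 2) ^ Fintype.card κ * ∏ i, exp (-c (p i)))).trans ?_
    · rw [sum_congr rfl fun χ hχ => by rw [(mem_filter.1 hχ).2], sum_const, nsmul_eq_mul]
      refine mul_le_mul_of_nonneg_right ?_ (by positivity)
      rcases ({χ | β χ = p} : Finset _).eq_empty_or_nonempty with e | ⟨χ, hχ⟩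
      · rw [e]; simp only [card_empty, Nat.cast_zero]; positivity
      refine Bl χ _ fun ψ hψ => le_of_not_gt fun d => ?_
      obtain ⟨i, hi⟩ := H χ ψ d
      have e : (β χ i : ℝ) = β ψ i := by rw [(mem_filter.1 hχ).2, (mem_filter.1 hψ).2]
      have h1 := abs_le.1 (abs_sub_round ((∑ k, v i k * sg (χ k)) / Δ))
      have h2 := abs_le.1 (abs_sub_round ((∑ k, v i k * sg (ψ k)) / Δ))
      rw [← one_lt_div Δ0, ← abs_of_pos Δ0, ← abs_div, sub_div] at hi
      exact hi.not_ge (abs_le.2 ⟨by linarith, by linarith⟩)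
    rw [← mul_sum, ← prod_univ_sum (fun _ => F) fun _ z => exp (-c z)]
    refine mul_le_mul_of_nonneg_left ((ppc (c := exp (ζ * G)) (fun _ => by positivity) fun i => ?_).trans_eq ?_) (by positivity)
    · refine (sum_le_sum fun (z : ℤ) _ => (?_ : _ ≤ ζ * exp (-|(z : ℝ)|) + if z = 0 then 1 else 0)).trans ?_
      · simp only [c]; split_ifs
        · simp; positivity
        · rw [neg_add, neg_neg, exp_add, exp_log ζ0, add_zero]
      · rw [sum_add_distrib, ← mul_sum, sum_ite_eq']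
        refine le_trans (add_le_add (mul_le_mul_of_nonneg_left (hG F) ζ0.le) ?_) (add_one_le_exp _)
        split_ifs <;> norm_num
    · rw [← exp_nat_mul, ← hb, ← ha, hζ]; congr 1; field_simp
  have S4 := mul_le_mul_of_nonneg_right (S2.trans S3) (exp_pos (Fintype.card κ / 20)).le
  rw [mul_assoc, ← exp_add, neg_add_cancel, exp_zero, mul_one, mul_comm (exp _), mul_assoc, mul_assoc, ← exp_add, ← exp_add,
    show (Fintype.card κ / 10 + (Fintype.card κ / 20 + Fintype.card κ / 20) : ℝ) = Fintype.card κ * (1 / 5) by ring,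
    exp_nat_mul, ← mul_pow] at S4
  have := exp_bound_div_one_sub_of_interval (x := 1 / 5) (by norm_num) (by norm_num)
  exact S4.not_gt (pow_lt_pow_left₀ (by linarith) (by positivity) n0.ne')

end Spenx

open Spenx in
theorem spen : Spen := by
  obtain ⟨C, C0, hC⟩ := part
  set q : ℝ := (9 / 10) ^ (1 / 6 : ℝ)
  have q1 : 0 < 1 - q := sub_pos.2 (rpow_lt_one (by norm_num) (by norm_num) (by norm_num))
  have main : ∀ (ι : Type) [Fintype ι] (n : ℕ) (κ : Type) [Fintype κ] [DecidableEq κ] (v : ι → κ → ℝ), Fintype.card κ = n →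
      (∀ i k, |v i k| ≤ 1) → n ≤ Fintype.card ι → ∃ χ : κ → ℝ, (∀ k, χ k = 1 ∨ χ k = -1) ∧ ∀ i, |∑ k, v i k * χ k| ≤
      C / (1 - q) * ((n : ℝ) ^ (1 / 6 : ℝ) * (Fintype.card ι : ℝ) ^ (1 / 3 : ℝ)) := fun ι _ n => by
    induction n using Nat.strong_induction_on with
    | _ n ih =>
    intro κ _ _ v hn hv hι
    rcases n.eq_zero_or_pos with rfl | n0
    · have := Fintype.card_eq_zero_iff.1 hn
      exact ⟨fun _ => 1, by simp, by simp⟩
    subst hn
    obtain ⟨χ, ψ, h1, h2⟩ := hC ι κ v hv n0 hι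
    have e : (Fintype.card {k // χ k = ψ k} : ℝ) + #{k | χ k ≠ ψ k} = Fintype.card κ := by
      rw [Fintype.card_subtype]; exact_mod_cast card_filter_add_card_filter_not _
    have n1 : (0 : ℝ) < Fintype.card κ := by exact_mod_cast n0
    have lt : Fintype.card {k // χ k = ψ k} < Fintype.card κ := by rify; linarith
    obtain ⟨ω, w1, w2⟩ := ih _ lt {k // χ k = ψ k} (fun i k => v i k) rfl (fun i k => hv i k) (lt.le.trans hι)
    refine ⟨fun k => if h : χ k = ψ k then ω ⟨k, h⟩ else sg (χ k), fun k => ?_, fun i => ?_⟩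
    · dsimp only; split_ifs
      · exact w1 _
      · cases χ k <;> simp [sg]
    have : ∑ k, v i k * (if h : χ k = ψ k then ω ⟨k, h⟩ else sg (χ k)) =
        ∑ k : {k // χ k = ψ k}, v i k * ω k + (∑ k, v i k * sg (χ k) - ∑ k, v i k * sg (ψ k)) / 2 := by
      rw [← sum_sub_distrib, sum_div, ← Fintype.sum_subtype_add_sum_subtype (fun k => χ k = ψ k),
        ← Fintype.sum_subtype_add_sum_subtype (fun k => χ k = ψ k) fun k => _ / 2, ← add_assoc, ← sum_add_distrib]
      congr 1 <;> refine sum_congr rfl fun ⟨k, hk⟩ _ => ?_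
      · simp [hk]
      · rw [dif_neg hk]; dsimp only; rw [Bool.eq_not_of_ne hk]; cases ψ k <;> simp [sg]; ring
    rw [this]
    have A : (Fintype.card {k // χ k = ψ k} : ℝ) ^ (1 / 6 : ℝ) ≤ q * (Fintype.card κ : ℝ) ^ (1 / 6 : ℝ) := by
      rw [← mul_rpow (by norm_num) n1.le]; gcongr; linarith
    refine (abs_add_le _ _).trans ((add_le_add ((w2 i).trans (mul_le_mul_of_nonneg_left (mul_le_mul_of_nonneg_right A
      (by positivity)) (by positivity))) (le_trans ?_ (h2 i))).trans_eq (by field_simp; ring))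
    rw [abs_div, abs_two]; exact half_le_self (abs_nonneg _)
  refine ⟨C / (1 - q), by positivity, fun ι κ _ _ _ v S hv hS => ?_⟩
  obtain ⟨χ, h1, h2⟩ := main ι _ S (fun i k => v i k) (Fintype.card_coe S) (fun i k => hv i k) hS
  refine ⟨fun k => if h : k ∈ S then χ ⟨k, h⟩ else 1, fun k => ?_, fun i => le_trans (le_of_eq ?_) (h2 i)⟩
  · dsimp only; split_ifs
    exacts [h1 _, .inl rfl]
  · rw [← sum_coe_sort]; simp

end Crest.Agent.H0100
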