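import Crest.Agent.H0100.Tile3

/-! Almost tilings of half of `ℤ / P`. -/

set_option autoImplicit false

namespace Crest.Agent.H0100

open Finset Tilex

theorem Tilex.pack {I : Type} [Fintype I] [DecidableEq I] (P : ℕ) (c j : I → ℕ)
    (h1 : ∀ i, j i < 2 * c i ∧ 2 * c i + j i ≤ P)
    (h2 : ∀ i i', i ≠ i' → 2 * c i + j i + j i' ≤ 2 * c i' ∨ 2 * c i' + j i + j i' ≤ 2 * c i) :
    2 * ∑ i, j i ≤ P := by
  have h3 : (univ.biUnion (fun i => Ico (2 * c i - j i) (2 * c i + j i))).card =
      ∑ i, (Ico (2 * c i - j i) (2 * c i + j i)).card := by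
    refine card_biUnion fun i _ i' _ hne => ?_
    have := h2 i i' hne
    refine disjoint_left.2 fun x hx hx' => ?_
    rw [mem_Ico] at hx hx'
    omega
  have h4 : univ.biUnion (fun i => Ico (2 * c i - j i) (2 * c i + j i)) ⊆ range P := by
    intro x hx
    obtain ⟨i, -, hi⟩ := mem_biUnion.1 hx
    rw [mem_Ico] at hi
    have := h1 i
    rw [mem_range]; omega
  have h5 := card_le_card h4
  rw [h3, card_range] at h5
  rw [mul_sum]
  refine le_trans (le_of_eq (sum_congr rfl fun i _ => ?_)) h5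
  have := h1 i
  rw [Nat.card_Ico]; omega

theorem tile (hN : Nib) : Tile := by
  intro K M j m ε hK hM hj hdet hε
  have : Nonempty (Fin K) := ⟨⟨0, hK⟩⟩
  have hM0 : 0 < M := hM.pos
  have hj0 : ∀ l, 0 < j l := fun l => Nat.pos_of_dvd_of_pos (hj l) hM0
  have hjM : ∀ l, j l ≤ M := fun l => Nat.le_of_dvd hM0 (hj l)
  set J : ℝ := ∑ l, (j l : ℝ) with hJ
  have hJ1 : 1 ≤ J := by
    refine le_trans ?_ (single_le_sum (f := fun l => (j l : ℝ)) (fun i _ => Nat.cast_nonneg _)
      (mem_univ ⟨0, hK⟩))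
    exact_mod_cast hj0 _
  set ε' := min ε 1 / 2 with hε'
  have hε0 : 0 < ε' := by positivity
  have hε1 : ε' ≤ 1 / 2 := by rw [hε']; linarith [min_le_right ε 1]
  have hε2 : 2 * ε' ≤ ε := by rw [hε']; linarith [min_le_left ε 1]
  set C : ℕ := M * (2 * M * (2 * M)) with hC
  have hC1 : (1 : ℝ) ≤ C := by
    have : 0 < C := by positivity
    exact_mod_cast this
  obtain ⟨D1, hD1⟩ := lab_match hN (π := fun l => (j l : ℝ) / J)
    (fun l => div_pos (by exact_mod_cast hj0 l) (by linarith))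
    (by rw [← sum_div, div_self (by linarith)]) C ε' hC1 hε0
  set B : ℕ := K * (M * 2) + K * K * (2 * C) with hB
  obtain ⟨P', hP', hP⟩ := Nat.exists_infinite_primes
    (3 + ⌈D1⌉₊ + ⌈B / ε'⌉₊ + ∑ x : Fin K × Fin K, ((j x.1 : ℤ) * m x.2 - j x.2 * m x.1).natAbs)
  have hP3 : 3 ≤ P' := by omega
  have hPodd : Odd P' := hP.odd_of_ne_two (by omega)
  have : NeZero (M * P') := ⟨by positivity⟩
  have hdet' : ∀ l l', l ≠ l' → ¬ (P' : ℤ) ∣ j l * m l' - j l' * m l := by
    intro l l' hne hd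
    refine hdet l l' hne (sub_eq_zero.1 (Int.eq_zero_of_abs_lt_dvd hd ?_))
    have := single_le_sum (f := fun x : Fin K × Fin K =>
      ((j x.1 : ℤ) * m x.2 - j x.2 * m x.1).natAbs) (fun i _ => Nat.zero_le _) (mem_univ (l, l'))
    simp only at this
    rw [Int.abs_eq_natAbs]
    exact_mod_cast (by omega)
  have hPD : D1 ≤ 2 * J * P' := by
    have h1 : (⌈D1⌉₊ : ℝ) ≤ P' := by exact_mod_cast (by omega)
    have h2 := Nat.le_ceil D1
    have h3 : (0 : ℝ) ≤ P' := Nat.cast_nonneg _
    nlinarith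
  have hPB : (B : ℝ) ≤ ε' * (M * P') := by
    have h1 : (⌈B / ε'⌉₊ : ℝ) ≤ P' := by exact_mod_cast (by omega)
    have h2 := (Nat.le_ceil (B / ε')).trans h1
    rw [div_le_iff₀ hε0] at h2
    have h3 : (1 : ℝ) ≤ M := by exact_mod_cast hM0
    have h4 : (0 : ℝ) ≤ P' * ε' := by positivity
    nlinarith
  set v : ZMod (M * P') × Fin P' → Fin K → Fin (M * P') :=
    fun e l => can (xx M P' (j l) (m l) e) with hv
  set E0 : Finset (ZMod (M * P') × Fin P') := univ.filter (fun e =>
    (∀ l l', site M P' (v e l) = site M P' (v e l') → l = l') ∧ ∀ l, v e l ≠ 0) with hE0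
  have hcod : ∀ l l' σ σ', l ≠ l' → (univ.filter (fun e => site M P' (v e l) = σ ∧
      site M P' (v e l') = σ')).card ≤ C := fun l l' σ σ' hne =>
    (count_cod hP (hj0 l) (hdet' l l' hne) σ σ').trans (Nat.mul_le_mul_right _ (hjM l))
  obtain ⟨Mt, hMt, m1, m2, m3⟩ := hD1 _ _ _ (site M P') v E0 (2 * J * P') hPD
    (fun e he l l' h => (mem_filter.1 he).2.1 l l' h)
    (fun l x => by
      have h1 : (E0.filter (fun e => v e l = x)).card ≤ j l * P' * 2 :=
        (card_le_card (filter_subset_filter _ (subset_univ _))).trans (count_deg' (hj0 l) (m l) x)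
      have h2 : (j l : ℝ) / J * (2 * J * P') = ((j l * P' * 2 : ℕ) : ℝ) := by
        push_cast; field_simp
      rw [h2]
      exact_mod_cast h1)
    (fun l l' σ σ' hne => by
      exact_mod_cast (card_le_card (filter_subset_filter _ (subset_univ _))).trans
        (hcod l l' σ σ' hne))
  -- counting the degenerate edges
  have hE : M * P' * P' ≤ E0.card + B * P' := by
    have h1 : (univ : Finset (ZMod (M * P') × Fin P')) ⊆ E0 ∪
        ((univ.biUnion fun l => univ.filter (fun e => v e l = 0)) ∪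
          (univ.filter (fun x : Fin K × Fin K => x.1 ≠ x.2)).biUnion fun x => univ.biUnion fun σ =>
            univ.filter (fun e => site M P' (v e x.1) = σ ∧ site M P' (v e x.2) = σ)) := by
      intro e _
      by_cases h2 : ∀ l, v e l ≠ 0
      · by_cases h3 : ∀ l l', site M P' (v e l) = site M P' (v e l') → l = l'
        · exact mem_union_left _ (mem_filter.2 ⟨mem_univ _, h3, h2⟩)
        · push Not at h3
          obtain ⟨l, l', h4, h5⟩ := h3
          exact mem_union_right _ (mem_union_right _ (mem_biUnion.2 ⟨(l, l'),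
            mem_filter.2 ⟨mem_univ _, h5⟩, mem_biUnion.2 ⟨_, mem_univ _,
              mem_filter.2 ⟨mem_univ _, rfl, h4.symm⟩⟩⟩))
      · push Not at h2
        obtain ⟨l, hl⟩ := h2
        exact mem_union_right _ (mem_union_left _ (mem_biUnion.2 ⟨l, mem_univ _,
          mem_filter.2 ⟨mem_univ _, hl⟩⟩))
    have h2 := (card_le_card h1).trans ((card_union_le _ _).trans
      (Nat.add_le_add_left (card_union_le _ _) _))
    have h3 : (univ.biUnion fun l => univ.filter (fun e => v e l = 0)).card ≤ K * (M * P' * 2) := by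
      refine (card_biUnion_le_card_mul _ _ (M * P' * 2) fun l _ => ?_).trans (by simp)
      exact (count_deg' (hj0 l) (m l) 0).trans
        (Nat.mul_le_mul_right _ (Nat.mul_le_mul_right _ (hjM l)))
    have h4 : ((univ.filter (fun x : Fin K × Fin K => x.1 ≠ x.2)).biUnion fun x =>
        univ.biUnion fun σ =>
          univ.filter (fun e => site M P' (v e x.1) = σ ∧ site M P' (v e x.2) = σ)).card ≤
        K * K * ((P' + 1) * C) := by
      refine (card_biUnion_le_card_mul _ _ ((P' + 1) * C) fun x hx => ?_).trans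
        (Nat.mul_le_mul_right _ ((card_le_univ _).trans (by simp)))
      refine (card_biUnion_le_card_mul _ _ C fun σ _ => ?_).trans (by simp)
      exact hcod _ _ _ _ (mem_filter.1 hx).2
    rw [card_univ, Fintype.card_prod, ZMod.card, Fintype.card_fin] at h2
    have h5 : K * K * ((P' + 1) * C) ≤ K * K * ((2 * P') * C) :=
      Nat.mul_le_mul_left _ (Nat.mul_le_mul_right _ (by omega))
    have h6 : B * P' = K * (M * P' * 2) + K * K * ((2 * P') * C) := by rw [hB]; ring
    omega
  choose s hs1 hs2 using fun (e : ZMod (M * P') × Fin P') (l : Fin K) =>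
    can_spec (xx M P' (j l) (m l) e)
  have hdvd : ∀ e l, ((M * P' : ℕ) : ℤ) ∣ ((v e l : ℕ) : ℤ) -
      s e l * ((j l : ℤ) * (e.1.val : ℕ) + m l * (M * (e.2 : ℕ))) := by
    intro e l
    rw [← ZMod.intCast_zmod_eq_zero_iff_dvd, Int.cast_sub, hs2, xx]
    push_cast
    rw [ZMod.natCast_zmod_val, sub_self]
  have hjv : ∀ e l, j l ∣ (v e l : ℕ) := by
    intro e l
    have h1 : (j l : ℤ) ∣ M := Int.natCast_dvd_natCast.2 (hj l)
    have h2 : (j l : ℤ) ∣ ((M * P' : ℕ) : ℤ) := by push_cast; exact h1.mul_right _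
    have h3 : (j l : ℤ) ∣ s e l * ((j l : ℤ) * (e.1.val : ℕ) + m l * (M * (e.2 : ℕ))) :=
      ((dvd_mul_right _ _).add ((h1.mul_right _).mul_left _)).mul_left _
    have h4 := (h2.trans (hdvd e l)).add h3
    rw [sub_add_cancel] at h4
    exact Int.natCast_dvd_natCast.1 h4
  set en : Fin Mt.card → ZMod (M * P') × Fin P' := fun i => (Mt.equivFin.symm i : _) with hen
  have hen1 : ∀ i, en i ∈ Mt := fun i => (Mt.equivFin.symm i).2
  have hen2 : Function.Injective en := fun i i' h =>
    Mt.equivFin.symm.injective (Subtype.ext h)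
  have hodd : Odd (M * P') := hM.mul hPodd
  have g1 : ∀ i : Fin Mt.card × Fin K,
      j i.2 < 2 * (v (en i.1) i.2 : ℕ) ∧ 2 * (v (en i.1) i.2 : ℕ) + j i.2 ≤ M * P' := by
    rintro ⟨i, l⟩
    simp only
    have h1 := hjv (en i) l
    have h2 : (v (en i) l : ℕ) ≠ 0 := fun h =>
      (mem_filter.1 (hMt (hen1 i))).2.2 l (Fin.ext h)
    have h3 := Nat.le_of_dvd (Nat.pos_of_ne_zero h2) h1
    have h4 : (v (en i) l : ℕ) ≤ M * P' / 2 := can_le _
    obtain ⟨u, hu⟩ := hodd
    have h5 : j l ∣ M * P' - 2 * (v (en i) l : ℕ) :=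
      Nat.dvd_sub ((hj l).mul_right _) (h1.mul_left _)
    have h6 := Nat.le_of_dvd (by omega) h5
    omega
  have g2 : ∀ i i' : Fin Mt.card × Fin K, i ≠ i' →
      2 * (v (en i.1) i.2 : ℕ) + j i.2 + j i'.2 ≤ 2 * (v (en i'.1) i'.2 : ℕ) ∨
      2 * (v (en i'.1) i'.2 : ℕ) + j i.2 + j i'.2 ≤ 2 * (v (en i.1) i.2 : ℕ) := by
    rintro ⟨i, l⟩ ⟨i', l'⟩ hne
    simp only
    have h1 := hjv (en i) l
    have h2 := hjv (en i') l'
    by_cases hs : site M P' (v (en i) l) = site M P' (v (en i') l')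
    · obtain rfl := m1 _ (hen1 i) _ (hen1 i') l l' hs
      have h3 : (v (en i) l : ℕ) ≠ (v (en i') l : ℕ) := fun h =>
        hne (by rw [hen2 (m2 _ (hen1 i) _ (hen1 i') l (Fin.ext h))])
      rcases Nat.lt_or_gt_of_ne h3 with h4 | h4
      · have := Nat.le_of_dvd (by omega) (Nat.dvd_sub h2 h1)
        omega
      · have := Nat.le_of_dvd (by omega) (Nat.dvd_sub h1 h2)
        omega
    · have h3 := geom_slot hM (hj l) h1
      have h4 := geom_slot hM (hj l') h2
      have h5 : ((v (en i) l : ℕ) + M / 2) / M ≠ ((v (en i') l' : ℕ) + M / 2) / M :=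
        fun h => hs (Fin.ext h)
      rcases Nat.lt_or_gt_of_ne h5 with h6 | h6
      · have := Nat.mul_le_mul_left M (Nat.succ_le_of_lt h6)
        rw [Nat.mul_succ] at this
        omega
      · have := Nat.mul_le_mul_left M (Nat.succ_le_of_lt h6)
        rw [Nat.mul_succ] at this
        omega
  refine ⟨M * P', Mt.card, fun i => ((en i).1.val : ℕ), fun i => M * ((en i).2 : ℕ),
    fun i => (v (en i.1) i.2 : ℕ), fun i => s (en i.1) i.2, hodd, fun i => hs1 _ _,
    fun i => hdvd _ _, g1, g2, ?_, ?_⟩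
  · have hE' : (M : ℝ) * P' * P' ≤ E0.card + B * P' := by exact_mod_cast hE
    have hP0 : (0 : ℝ) < P' := by exact_mod_cast hP.pos
    have h1 : (B : ℝ) * P' ≤ ε' * (M * P') * P' := mul_le_mul_of_nonneg_right hPB hP0.le
    have h2 : (1 - ε') * ((1 - ε') * (M * P') * P') ≤ (1 - ε') * E0.card :=
      mul_le_mul_of_nonneg_left (by linarith) (by linarith)
    have h3 : (1 - ε) * (M * P' * P') ≤ (1 - ε') * (1 - ε') * (M * P' * P') :=
      mul_le_mul_of_nonneg_right (by nlinarith) (by positivity)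
    push_cast
    refine le_of_mul_le_mul_right ?_ hP0
    nlinarith
  · have := pack (M * P') (fun i : Fin Mt.card × Fin K => (v (en i.1) i.2 : ℕ))
      (fun i => j i.2) g1 g2
    simpa [Fintype.sum_prod_type] using this

end Crest.Agent.H0100
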