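import Crest.Agent.H0100.Nib2

/-! Random labels of sites. -/

set_option autoImplicit false
set_option linter.unusedSectionVars false

namespace Crest.Agent.H0100.Tilex

open Finset
open Crest.Agent.H0100.Nibx (card_filter_real)

variable {T L : Type} [Fintype T] [DecidableEq T] [Fintype L] [DecidableEq L]

/-- average over random labellings -/
noncomputable def Av (π : L → ℝ) (F : (T → L) → ℝ) : ℝ := ∑ ω : T → L, (∏ σ, π (ω σ)) * F ω

theorem Av_prod (π : L → ℝ) (g : T → L → ℝ) :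
    Av π (fun ω => ∏ σ, g σ (ω σ)) = ∏ σ, ∑ l, π l * g σ l := by
  rw [prod_univ_sum, Fintype.piFinset_univ]
  exact sum_congr rfl fun ω _ => by rw [prod_mul_distrib]

theorem Av_add (π : L → ℝ) (F G : (T → L) → ℝ) :
    Av π (fun t => F t + G t) = Av π F + Av π G := by
  simp only [Av, mul_add, sum_add_distrib]

theorem Av_sub (π : L → ℝ) (F G : (T → L) → ℝ) :
    Av π (fun t => F t - G t) = Av π F - Av π G := by
  simp only [Av, mul_sub, sum_sub_distrib]

theorem Av_mul (π : L → ℝ) (c : ℝ) (F : (T → L) → ℝ) :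
    Av π (fun t => c * F t) = c * Av π F := by
  simp only [Av, mul_sum]
  exact sum_congr rfl fun t _ => by ring

theorem Av_sum {α : Type*} (π : L → ℝ) (s : Finset α) (F : α → (T → L) → ℝ) :
    Av π (fun t => ∑ a ∈ s, F a t) = ∑ a ∈ s, Av π (F a) := by
  simp only [Av, mul_sum]
  exact sum_comm

theorem Av_mono {π : L → ℝ} (h0 : ∀ l, 0 ≤ π l) {F G : (T → L) → ℝ}
    (h : ∀ t, F t ≤ G t) : Av π F ≤ Av π G :=
  sum_le_sum fun t _ => mul_le_mul_of_nonneg_left (h t) (prod_nonneg fun _ _ => h0 _)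

theorem Av_one {π : L → ℝ} (h1 : ∑ l, π l = 1) : Av π (fun _ : T → L => 1) = 1 := by
  have := Av_prod (T := T) π (fun _ _ => 1)
  simpa [h1] using this

theorem exists_Av_le [Nonempty L] {π : L → ℝ} (h0 : ∀ l, 0 ≤ π l) (h1 : ∑ l, π l = 1)
    (F : (T → L) → ℝ) : ∃ t, Av π F ≤ F t := by
  obtain ⟨t, -, ht⟩ := exists_max_image (univ : Finset (T → L)) F univ_nonempty
  refine ⟨t, ?_⟩
  calc Av π F ≤ Av π (fun _ => F t * 1) := Av_mono h0 fun s => by
        simpa using ht s (mem_univ _)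
    _ = F t := by rw [Av_mul, Av_one h1, mul_one]

/-- indicator of the prescribed labels -/
noncomputable def ind (R : Finset (T × L)) (ω : T → L) : ℝ :=
  if ∀ x ∈ R, ω x.1 = x.2 then 1 else 0

theorem ind_mul (R R' : Finset (T × L)) (ω : T → L) : ind R ω * ind R' ω = ind (R ∪ R') ω := by
  unfold ind
  by_cases h1 : ∀ x ∈ R, ω x.1 = x.2
  · by_cases h2 : ∀ x ∈ R', ω x.1 = x.2
    · rw [if_pos h1, if_pos h2, if_pos, mul_one]
      intro x hx
      rcases mem_union.1 hx with h | h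
      exacts [h1 x h, h2 x h]
    · rw [if_neg h2, mul_zero, if_neg]
      exact fun h => h2 fun x hx => h x (mem_union_right _ hx)
  · rw [if_neg h1, zero_mul, if_neg]
    exact fun h => h1 fun x hx => h x (mem_union_left _ hx)

theorem Av_ind_eq {π : L → ℝ} (h1 : ∑ l, π l = 1) (R : Finset (T × L))
    (hR : ∀ x ∈ R, ∀ y ∈ R, x.1 = y.1 → x = y) : Av π (ind R) = ∏ x ∈ R, π x.2 := by
  have e1 : ind R = fun ω : T → L =>
      ∏ σ, (if ∀ x ∈ R, x.1 = σ → ω σ = x.2 then (1 : ℝ) else 0) := by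
    funext ω
    unfold ind
    split_ifs with h
    · exact (prod_eq_one fun σ _ => if_pos fun x hx hσ => hσ ▸ h x hx).symm
    · push Not at h
      obtain ⟨x, hx, hx'⟩ := h
      exact (prod_eq_zero (mem_univ x.1) (if_neg fun h => hx' (h x hx rfl))).symm
  rw [e1, Av_prod π (fun σ l => if ∀ x ∈ R, x.1 = σ → l = x.2 then (1 : ℝ) else 0),
    ← prod_fiberwise (s := R) (g := fun x => x.1)]
  refine prod_congr rfl fun σ _ => ?_
  by_cases h : ∃ x ∈ R, x.1 = σ
  · obtain ⟨x, hx, hσ⟩ := h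
    have e2 : R.filter (fun y => y.1 = σ) = {x} := by
      ext y
      rw [mem_filter, mem_singleton]
      exact ⟨fun hy => hR y hy.1 x hx (hy.2.trans hσ.symm), fun hy => hy ▸ ⟨hx, hσ⟩⟩
    rw [e2, prod_singleton, sum_eq_single x.2]
    · rw [if_pos, mul_one]
      intro y hy hy'
      rw [hR y hy x hx (hy'.trans hσ.symm)]
    · intro l _ hl
      rw [if_neg, mul_zero]
      exact fun h => hl (h x hx hσ)
    · simp
  · have e2 : R.filter (fun y => y.1 = σ) = ∅ := by
      rw [filter_eq_empty_iff]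
      exact fun y hy hy' => h ⟨y, hy, hy'⟩
    rw [e2, prod_empty]
    refine Eq.trans (sum_congr rfl fun l _ => ?_) h1
    rw [if_pos, mul_one]
    exact fun x hx hσ => absurd ⟨x, hx, hσ⟩ h

theorem Av_ind_le {π : L → ℝ} (h0 : ∀ l, 0 ≤ π l) (h1 : ∑ l, π l = 1) (R : Finset (T × L)) :
    Av π (ind R) ≤ ∏ x ∈ R, π x.2 := by
  by_cases hR : ∀ x ∈ R, ∀ y ∈ R, x.1 = y.1 → x = y
  · exact (Av_ind_eq h1 R hR).le
  · push Not at hR
    obtain ⟨x, hx, y, hy, hxy, hne⟩ := hR
    have : ind R = fun _ => 0 := by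
      funext ω
      refine if_neg fun h => hne (Prod.ext hxy ?_)
      rw [← h x hx, ← h y hy, hxy]
    rw [this]
    simp only [Av, mul_zero, sum_const_zero]
    exact prod_nonneg fun _ _ => h0 _

theorem tail_ineq {θ D m y : ℝ} (hθ : 0 < θ) (hD : 0 < D) (hm : m ≤ D) (hy : (1 + θ) * D < y) :
    y ≤ (1 + θ) / (θ ^ 2 * D) * (y - m) ^ 2 := by
  have hy0 : 0 < y := lt_trans (by positivity) hy
  have h6 : θ * y ≤ (1 + θ) * (y - m) := by nlinarith
  have h7 : (θ * y) ^ 2 ≤ ((1 + θ) * (y - m)) ^ 2 := pow_le_pow_left₀ (by positivity) h6 2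
  rw [div_mul_eq_mul_div, le_div_iff₀ (by positivity)]
  have h8 : θ ^ 2 * y * ((1 + θ) * D) ≤ θ ^ 2 * y * y :=
    mul_le_mul_of_nonneg_left hy.le (by positivity)
  have h9 : (1 + θ) * (y * (θ ^ 2 * D)) ≤ (1 + θ) * ((1 + θ) * (y - m) ^ 2) := by
    calc (1 + θ) * (y * (θ ^ 2 * D)) = θ ^ 2 * y * ((1 + θ) * D) := by ring
      _ ≤ θ ^ 2 * y * y := h8
      _ = (θ * y) ^ 2 := by ring
      _ ≤ _ := h7
      _ = _ := by ring
  exact le_of_mul_le_mul_left h9 (by positivity)

variable {V E : Type} [Fintype V] [DecidableEq V] [DecidableEq E]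

/-- the labels required by an edge -/
def Rq (st : V → T) (v : E → L → V) (e : E) : Finset (T × L) :=
  univ.image (fun l => (st (v e l), l))

theorem mem_Rq {st : V → T} {v : E → L → V} {e : E} {x : T × L} :
    x ∈ Rq st v e ↔ st (v e x.2) = x.1 := by
  simp only [Rq, mem_image, mem_univ, true_and]
  constructor
  · rintro ⟨l, rfl⟩; rfl
  · intro h; exact ⟨x.2, by rw [h]⟩

theorem prod_Rq (π : L → ℝ) (st : V → T) (v : E → L → V) (e : E) :
    ∏ x ∈ Rq st v e, π x.2 = ∏ l, π l := by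
  rw [Rq, prod_image]
  intro a _ b _ h
  exact congrArg Prod.snd h

theorem Av_Rq {π : L → ℝ} (h1 : ∑ l, π l = 1) (st : V → T) (v : E → L → V) (e : E)
    (he : Function.Injective (fun l => st (v e l))) : Av π (ind (Rq st v e)) = ∏ l, π l := by
  rw [Av_ind_eq h1, prod_Rq]
  intro x hx y hy hxy
  refine Prod.ext hxy (he ?_)
  simp only
  rw [mem_Rq.1 hx, mem_Rq.1 hy, hxy]

/-- number of valid edges through `x` on the line `l` -/
noncomputable def Y (st : V → T) (v : E → L → V) (E0 : Finset E) (l : L) (x : V)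
    (ω : T → L) : ℝ := ∑ e ∈ E0.filter (fun e => v e l = x), ind (Rq st v e) ω

/-- squared deviation -/
noncomputable def Z (st : V → T) (v : E → L → V) (E0 : Finset E) (m : ℝ) (l : L) (x : V)
    (ω : T → L) : ℝ :=
  Y st v E0 l x ω ^ 2 - 2 * m * Y st v E0 l x ω + m ^ 2 * ind {(st x, l)} ω

theorem Z_cases (st : V → T) (v : E → L → V) (E0 : Finset E) (m : ℝ) (l : L) (x : V)
    (ω : T → L) : (Y st v E0 l x ω = 0 ∧ Z st v E0 m l x ω = 0) ∨
      Z st v E0 m l x ω = (Y st v E0 l x ω - m) ^ 2 := by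
  by_cases h : ∀ y ∈ ({(st x, l)} : Finset (T × L)), ω y.1 = y.2
  · right
    rw [Z, ind, if_pos h]; ring
  · left
    have hY : Y st v E0 l x ω = 0 := by
      refine sum_eq_zero fun e he => ?_
      rw [ind, if_neg]
      intro hd
      refine h fun y hy => hd y ?_
      rw [mem_singleton.1 hy, mem_Rq, (mem_filter.1 he).2]
    refine ⟨hY, ?_⟩
    rw [Z, hY, ind, if_neg h]; ring

theorem Av_Z {π : L → ℝ} (h0 : ∀ l, 0 < π l) (h1 : ∑ l, π l = 1) (st : V → T) (v : E → L → V)
    (E0 : Finset E) (C : ℝ) (hC : 0 ≤ C)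
    (hinj : ∀ e ∈ E0, Function.Injective (fun l => st (v e l)))
    (hcod : ∀ l l' σ σ', l ≠ l' →
      ((E0.filter (fun e => st (v e l) = σ ∧ st (v e l') = σ')).card : ℝ) ≤ C) (l : L) (x : V) :
    Av π (Z st v E0 ((E0.filter (fun e => v e l = x)).card * ((∏ l, π l) / π l)) l x) ≤
      (E0.filter (fun e => v e l = x)).card * (Fintype.card L * C) := by
  set Hv := E0.filter (fun e => v e l = x) with hHv
  set Q := ∏ l, π l with hQ
  have hQ0 : 0 < Q := prod_pos fun l _ => h0 l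
  have hπ1 : ∀ l, π l ≤ 1 := fun l =>
    h1 ▸ single_le_sum (f := π) (fun i _ => (h0 i).le) (mem_univ l)
  have a1 : Av π (Y st v E0 l x) = (Hv.card : ℝ) * Q := by
    unfold Y
    rw [Av_sum, ← nsmul_eq_mul, ← sum_const]
    exact sum_congr rfl fun e he => Av_Rq h1 st v e (hinj e (mem_filter.1 he).1)
  have a2 : Av π (ind {(st x, l)}) = π l := by
    rw [Av_ind_eq h1 _ (by simp), prod_singleton]
  have a3 : Av π (fun t => Y st v E0 l x t ^ 2) ≤
      (Hv.card : ℝ) * (Hv.card * (Q * (Q / π l)) + Fintype.card L * C) := by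
    have e1 : (fun t => Y st v E0 l x t ^ 2) =
        fun t => ∑ e ∈ Hv, ∑ f ∈ Hv, ind (Rq st v e ∪ Rq st v f) t := by
      funext t
      rw [sq, Y, sum_mul_sum]
      simp only [ind_mul]
      rfl
    rw [e1, Av_sum, ← nsmul_eq_mul, ← sum_const]
    refine sum_le_sum fun e he => ?_
    rw [Av_sum]
    obtain ⟨heH, hev⟩ := mem_filter.1 he
    have b1 : ∀ f ∈ Hv, Av π (ind (Rq st v e ∪ Rq st v f)) ≤ Q * (Q / π l) +
        ∑ u ∈ univ.erase l, if st (v f u) = st (v e u) then (1 : ℝ) else 0 := by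
      intro f hf
      obtain ⟨hfH, hfv⟩ := mem_filter.1 hf
      refine (Av_ind_le (fun l => (h0 l).le) h1 _).trans ?_
      have c3 : 0 ≤ Q * (Q / π l) := mul_nonneg hQ0.le (div_nonneg hQ0.le (h0 l).le)
      by_cases hb : ∃ u ∈ univ.erase l, st (v f u) = st (v e u)
      · obtain ⟨u, hu, hu'⟩ := hb
        have c1 : ∏ x ∈ Rq st v e ∪ Rq st v f, π x.2 ≤ 1 :=
          prod_le_one (fun i _ => (h0 _).le) fun i _ => hπ1 _
        have c2 : (if st (v f u) = st (v e u) then (1 : ℝ) else 0) ≤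
            ∑ u ∈ univ.erase l, if st (v f u) = st (v e u) then (1 : ℝ) else 0 :=
          single_le_sum (f := fun u => if st (v f u) = st (v e u) then (1 : ℝ) else 0)
            (fun i _ => by positivity) hu
        rw [if_pos hu'] at c2
        linarith
      · have c1 : Rq st v e ∩ Rq st v f = {(st x, l)} := by
          ext u
          rw [mem_inter, mem_singleton, mem_Rq, mem_Rq]
          constructor
          · rintro ⟨h3, h4⟩
            have h5 : u.2 = l := by
              by_contra h5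
              exact hb ⟨u.2, mem_erase.2 ⟨h5, mem_univ _⟩, h4.trans h3.symm⟩
            refine Prod.ext ?_ h5
            rw [← h3, h5, hev]
          · rintro rfl; exact ⟨by rw [hev], by rw [hfv]⟩
        have c2 := prod_union_inter (s₁ := Rq st v e) (s₂ := Rq st v f) (f := fun x => π x.2)
        rw [c1, prod_Rq, prod_Rq, prod_singleton] at c2
        have c4 : ∏ x ∈ Rq st v e ∪ Rq st v f, π x.2 = Q * (Q / π l) := by
          rw [← mul_div_assoc, eq_div_iff (h0 l).ne']; exact c2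
        have c5 : 0 ≤ ∑ u ∈ univ.erase l, if st (v f u) = st (v e u) then (1 : ℝ) else 0 :=
          sum_nonneg fun i _ => by positivity
        linarith
    refine (sum_le_sum b1).trans ?_
    rw [sum_add_distrib, sum_const, nsmul_eq_mul, sum_comm]
    refine add_le_add le_rfl ?_
    have b2 : ∀ u ∈ univ.erase l,
        ∑ f ∈ Hv, (if st (v f u) = st (v e u) then (1 : ℝ) else 0) ≤ C := by
      intro u hu
      rw [← card_filter_real, hHv, filter_filter]
      refine le_trans ?_ (hcod l u (st x) (st (v e u)) (mem_erase.1 hu).1.symm)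
      refine Nat.cast_le.2 (card_le_card fun f hf => ?_)
      obtain ⟨h3, h4, h5⟩ := mem_filter.1 hf
      exact mem_filter.2 ⟨h3, by rw [h4], h5⟩
    refine (sum_le_sum b2).trans ?_
    rw [sum_const, nsmul_eq_mul]
    refine mul_le_mul_of_nonneg_right ?_ hC
    exact_mod_cast card_le_univ _
  have e2 : Av π (Z st v E0 (Hv.card * (Q / π l)) l x) = Av π (fun t => Y st v E0 l x t ^ 2) -
      2 * (Hv.card * (Q / π l)) * Av π (Y st v E0 l x) +
        (Hv.card * (Q / π l)) ^ 2 * Av π (ind {(st x, l)}) := by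
    rw [← Av_mul, ← Av_mul, ← Av_sub, ← Av_add]; rfl
  rw [e2, a2, a1]
  have a4 : (Hv.card * (Q / π l)) ^ 2 * π l = Hv.card * (Hv.card * (Q * (Q / π l))) := by
    have := (h0 l).ne'
    field_simp
  rw [a4]
  nlinarith

end Crest.Agent.H0100.Tilex
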