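import Crest.Agent.H0100.Tile1

/-! Labelled matchings. -/

set_option autoImplicit false
set_option linter.unusedSectionVars false

namespace Crest.Agent.H0100.Tilex

open Finset
open Crest.Agent.H0100.Nibx (card_filter_real)

theorem lab_step {T L V E : Type} [Fintype T] [DecidableEq T] [Fintype L] [DecidableEq L]
    [Nonempty L] [Fintype V] [DecidableEq V] [DecidableEq E]
    {π : L → ℝ} (h0 : ∀ l, 0 < π l) (h1 : ∑ l, π l = 1) (st : V → T) (v : E → L → V)
    (E0 : Finset E) (C D θ : ℝ) (hC : 0 ≤ C) (hD : 0 < D) (hθ : 0 < θ)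
    (hinj : ∀ e ∈ E0, Function.Injective (fun l => st (v e l)))
    (hdeg : ∀ l x, ((E0.filter (fun e => v e l = x)).card : ℝ) ≤ π l * D)
    (hcod : ∀ l l' σ σ', l ≠ l' →
      ((E0.filter (fun e => st (v e l) = σ ∧ st (v e l') = σ')).card : ℝ) ≤ C) :
    ∃ ω : T → L, ∃ H ⊆ E0, (∀ e ∈ H, ∀ l, ω (st (v e l)) = l) ∧
      (∀ l x, ((H.filter (fun e => v e l = x)).card : ℝ) ≤ (1 + θ) * ((∏ l, π l) * D)) ∧
      (E0.card : ℝ) * ((∏ l, π l) -
        (1 + θ) / (θ ^ 2 * ((∏ l, π l) * D)) * (Fintype.card L * (Fintype.card L * C))) ≤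
        H.card := by
  set Q := ∏ l, π l with hQ
  have hQ0 : 0 < Q := prod_pos fun l _ => h0 l
  set c := (1 + θ) / (θ ^ 2 * (Q * D)) with hc
  have hc0 : 0 ≤ c := by positivity
  set d : L → V → ℕ := fun l x => (E0.filter (fun e => v e l = x)).card with hd
  set H0 : (T → L) → Finset E := fun ω =>
    E0.filter (fun e => ∀ x ∈ Rq st v e, ω x.1 = x.2) with hH0
  have Y_eq : ∀ l x ω, Y st v E0 l x ω = (((H0 ω).filter (fun e => v e l = x)).card : ℝ) := by
    intro l x ω
    rw [hH0]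
    simp only
    rw [filter_comm, card_filter_real]; rfl
  set H' : (T → L) → Finset E := fun ω =>
    (H0 ω).filter (fun e => ∀ l, Y st v E0 l (v e l) ω ≤ (1 + θ) * (Q * D)) with hH'
  have loss : ∀ ω, ((H0 ω).card : ℝ) -
      c * ∑ y : L × V, Z st v E0 (d y.1 y.2 * (Q / π y.1)) y.1 y.2 ω ≤ (H' ω).card := by
    intro ω
    have l1 : ∀ y : L × V, (if Y st v E0 y.1 y.2 ω ≤ (1 + θ) * (Q * D) then 0
        else Y st v E0 y.1 y.2 ω) ≤ c * Z st v E0 (d y.1 y.2 * (Q / π y.1)) y.1 y.2 ω := by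
      rintro ⟨l, x⟩
      rcases Z_cases st v E0 (d l x * (Q / π l)) l x ω with ⟨h2, h3⟩ | h3
      · simp only [h2, h3]; simp
      · simp only [h3]
        split_ifs with h4
        · positivity
        · refine tail_ineq hθ (by positivity) ?_ (not_le.1 h4)
          have := (h0 l).ne'
          calc (d l x : ℝ) * (Q / π l) ≤ π l * D * (Q / π l) :=
                mul_le_mul_of_nonneg_right (hdeg l x) (div_nonneg hQ0.le (h0 l).le)
            _ = Q * D := by field_simp
    have l2 : H0 ω ⊆ H' ω ∪ (univ.filter (fun y : L × V =>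
        ¬ Y st v E0 y.1 y.2 ω ≤ (1 + θ) * (Q * D))).biUnion
        (fun y => (H0 ω).filter (fun e => v e y.1 = y.2)) := by
      intro e he
      by_cases h : ∀ l, Y st v E0 l (v e l) ω ≤ (1 + θ) * (Q * D)
      · exact mem_union_left _ (mem_filter.2 ⟨he, h⟩)
      · push Not at h
        obtain ⟨l, hl⟩ := h
        exact mem_union_right _ (mem_biUnion.2 ⟨(l, v e l),
          mem_filter.2 ⟨mem_univ _, not_le.2 hl⟩, mem_filter.2 ⟨he, rfl⟩⟩)
    have l3 : ((H0 ω).card : ℝ) ≤ (H' ω).card +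
        ∑ y ∈ univ.filter (fun y : L × V => ¬ Y st v E0 y.1 y.2 ω ≤ (1 + θ) * (Q * D)),
          (((H0 ω).filter (fun e => v e y.1 = y.2)).card : ℝ) := by
      exact_mod_cast (card_le_card l2).trans ((card_union_le _ _).trans
        (Nat.add_le_add_left card_biUnion_le _))
    have l4 : ∑ y ∈ univ.filter (fun y : L × V => ¬ Y st v E0 y.1 y.2 ω ≤ (1 + θ) * (Q * D)),
          (((H0 ω).filter (fun e => v e y.1 = y.2)).card : ℝ) ≤
        c * ∑ y : L × V, Z st v E0 (d y.1 y.2 * (Q / π y.1)) y.1 y.2 ω := by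
      rw [sum_filter, mul_sum]
      refine sum_le_sum fun y _ => le_trans (le_of_eq ?_) (l1 y)
      rw [← Y_eq]
      split_ifs <;> rfl
    linarith
  have E2 : Av π (fun ω => ((H0 ω).card : ℝ)) = E0.card * Q := by
    simp only [hH0, card_filter_real]
    rw [Av_sum, ← nsmul_eq_mul, ← sum_const]
    exact sum_congr rfl fun e he => Av_Rq h1 st v e (hinj e he)
  have E3 : Av π (fun ω => ∑ y : L × V, Z st v E0 (d y.1 y.2 * (Q / π y.1)) y.1 y.2 ω) ≤
      E0.card * (Fintype.card L * (Fintype.card L * C)) := by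
    rw [Av_sum]
    have e1 : ∑ y : L × V, (d y.1 y.2 : ℝ) = E0.card * Fintype.card L := by
      rw [Fintype.sum_prod_type]
      have : ∀ l, ∑ x, (d l x : ℝ) = E0.card := by
        intro l
        exact_mod_cast (card_eq_sum_card_fiberwise (f := fun e => v e l) (s := E0) (t := univ)
          (fun _ _ => mem_coe.2 (mem_univ _))).symm
      simp only [this, sum_const, card_univ, nsmul_eq_mul, mul_comm]
    rw [← mul_assoc, ← e1, sum_mul]
    exact sum_le_sum fun y _ => Av_Z h0 h1 st v E0 C hC hinj hcod y.1 y.2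
  have E4 : Av π (fun ω => ((H0 ω).card : ℝ)) -
      c * Av π (fun ω => ∑ y : L × V, Z st v E0 (d y.1 y.2 * (Q / π y.1)) y.1 y.2 ω) ≤
      Av π (fun ω => ((H' ω).card : ℝ)) := by
    rw [← Av_mul, ← Av_sub]
    exact Av_mono (fun l => (h0 l).le) loss
  obtain ⟨ω, hω⟩ := exists_Av_le (fun l => (h0 l).le) h1 (fun ω => ((H' ω).card : ℝ))
  refine ⟨ω, H' ω, (filter_subset _ _).trans (filter_subset _ _), ?_, ?_, ?_⟩
  · intro e he l
    exact (mem_filter.1 (mem_filter.1 he).1).2 (st (v e l), l) (mem_Rq.2 rfl)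
  · intro l x
    rcases ((H' ω).filter (fun e => v e l = x)).eq_empty_or_nonempty with h | ⟨e, he⟩
    · rw [h]; simp only [card_empty, Nat.cast_zero]; positivity
    · obtain ⟨h2, h3⟩ := mem_filter.1 he
      refine le_trans ?_ ((mem_filter.1 h2).2 l)
      rw [h3, Y_eq]
      exact_mod_cast card_le_card (filter_subset_filter _ (filter_subset _ _))
  · have := mul_le_mul_of_nonneg_left E3 hc0
    nlinarith

theorem lab_match (hN : Nib) {L : Type} [Fintype L] [DecidableEq L] [Nonempty L]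
    {π : L → ℝ} (h0 : ∀ l, 0 < π l) (h1 : ∑ l, π l = 1) (C ε : ℝ) (hC : 1 ≤ C) (hε : 0 < ε) :
    ∃ D1 : ℝ, ∀ (T V E : Type) [Fintype T] [DecidableEq T] [Fintype V] [DecidableEq V]
      [Fintype E] [DecidableEq E] (st : V → T) (v : E → L → V) (E0 : Finset E) (D : ℝ), D1 ≤ D →
      (∀ e ∈ E0, Function.Injective (fun l => st (v e l))) →
      (∀ l x, ((E0.filter (fun e => v e l = x)).card : ℝ) ≤ π l * D) →
      (∀ l l' σ σ', l ≠ l' →
        ((E0.filter (fun e => st (v e l) = σ ∧ st (v e l') = σ')).card : ℝ) ≤ C) →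
      ∃ M ⊆ E0, (∀ e ∈ M, ∀ f ∈ M, ∀ l l', st (v e l) = st (v f l') → l = l') ∧
        (∀ e ∈ M, ∀ f ∈ M, ∀ l, v e l = v f l → e = f) ∧ (1 - ε) * (E0.card : ℝ) ≤ M.card * D := by
  set θ := min ε 1 / 3 with hθ
  have hθ0 : 0 < θ := by positivity
  have hθ1 : θ ≤ 1 / 3 := by rw [hθ]; linarith [min_le_right ε 1]
  have hθ2 : 3 * θ ≤ ε := by rw [hθ]; linarith [min_le_left ε 1]
  set Q := ∏ l, π l with hQ
  have hQ0 : 0 < Q := prod_pos fun l _ => h0 l
  set K := Fintype.card L with hK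
  have hK0 : 1 ≤ K := Fintype.card_pos
  obtain ⟨δ, hδ, hN⟩ := hN K θ hK0 hθ0
  refine ⟨max (C / (δ * Q)) ((1 + θ) * (K * (K * C)) / (θ ^ 3 * Q ^ 2)), ?_⟩
  intro T V E _ _ _ _ _ _ st v E0 D hD hinj hdeg hcod
  have d1 : C ≤ δ * Q * D := by
    have := (le_max_left _ _).trans hD
    rw [div_le_iff₀ (by positivity)] at this
    linarith
  have hD0 : 0 < D := lt_of_lt_of_le (by positivity) ((le_max_left _ _).trans hD)
  have d2 : (1 + θ) / (θ ^ 2 * (Q * D)) * (K * (K * C)) ≤ θ * Q := by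
    have := (le_max_right _ _).trans hD
    rw [div_le_iff₀ (by positivity)] at this
    rw [div_mul_eq_mul_div, div_le_iff₀ (by positivity)]
    linarith
  have d3 : C ≤ δ * ((1 + θ) * (Q * D)) := by
    have : 0 ≤ θ * (δ * Q * D) := by positivity
    nlinarith
  obtain ⟨ω, H, hH, g1, g2, g3⟩ :=
    lab_step h0 h1 st v E0 C D θ (by linarith) hD0 hθ0 hinj hdeg hcod
  rw [← hQ, ← hK] at g3
  rw [← hQ] at g2
  have key : ∀ e ∈ H, ∀ x, x ∈ univ.image (v e) → v e (ω (st x)) = x := by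
    intro e he x hx
    obtain ⟨l, -, rfl⟩ := mem_image.1 hx
    rw [g1 e he l]
  obtain ⟨M, hM, m1, m2⟩ := hN V E (fun e => univ.image (v e)) H ((1 + θ) * (Q * D))
    (hC.trans d3) (fun e he => by
      rw [card_image_of_injective _ (fun a b h => hinj e (hH he) (congrArg st h)), card_univ])
    (fun x => le_trans (Nat.cast_le.2 (card_le_card fun e he =>
      mem_filter.2 ⟨(mem_filter.1 he).1, key e (mem_filter.1 he).1 x (mem_filter.1 he).2⟩))
      (g2 (ω (st x)) x))
    (fun x y hxy => by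
      rcases (H.filter (fun e => x ∈ univ.image (v e) ∧ y ∈ univ.image (v e))).eq_empty_or_nonempty
        with h | ⟨e, he⟩
      · rw [h]; simp only [card_empty, Nat.cast_zero]; positivity
      · obtain ⟨h2, h3, h4⟩ := mem_filter.1 he
        have hne : ω (st x) ≠ ω (st y) := by
          intro h
          apply hxy
          rw [← key e h2 x h3, h, key e h2 y h4]
        refine le_trans (Nat.cast_le.2 (card_le_card fun f hf => ?_))
          ((hcod _ _ (st x) (st y) hne).trans d3)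
        obtain ⟨h5, h6, h7⟩ := mem_filter.1 hf
        exact mem_filter.2 ⟨hH h5, by rw [key f h5 x h6], by rw [key f h5 y h7]⟩)
  refine ⟨M, hM.trans hH, ?_, ?_, ?_⟩
  · intro e he f hf l l' h
    rw [← g1 e (hM he) l, h, g1 f (hM hf) l']
  · intro e he f hf l h
    by_contra hne
    exact disjoint_left.1 (m1 e he f hf hne) (mem_image_of_mem _ (mem_univ l))
      (h ▸ mem_image_of_mem _ (mem_univ l))
  · have hE : (0 : ℝ) ≤ E0.card := Nat.cast_nonneg _
    have f1 : (E0.card : ℝ) * (Q - θ * Q) ≤ H.card :=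
      le_trans (mul_le_mul_of_nonneg_left (by linarith) hE) g3
    have f2 : (1 - θ) * (E0.card * (Q - θ * Q)) ≤ (1 - θ) * H.card :=
      mul_le_mul_of_nonneg_left f1 (by linarith)
    have f3 : (1 - ε) * (1 + θ) ≤ (1 - θ) * (1 - θ) := by nlinarith
    have f4 := mul_le_mul_of_nonneg_right f3 (mul_nonneg hE hQ0.le)
    have f5 : ((1 + θ) * Q) * ((1 - ε) * E0.card) ≤ ((1 + θ) * Q) * (M.card * D) := by nlinarith
    exact le_of_mul_le_mul_left f5 (by positivity)

end Crest.Agent.H0100.Tilex
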