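import Crest.Agent.H0100.Tile2

/-! Counting lemmas for the tiling. -/

set_option autoImplicit false
set_option linter.unusedSectionVars false

namespace Crest.Agent.H0100.Tilex

open Finset

theorem count1 {P : ℕ} [NeZero P] {j : ℕ} (hj : 0 < j) (y : ZMod P) :
    (univ.filter (fun a : ZMod P => (j : ZMod P) * a = y)).card ≤ j := by
  rcases (univ.filter (fun a : ZMod P => (j : ZMod P) * a = y)).eq_empty_or_nonempty
    with h | ⟨a0, h0⟩
  · rw [h]; simp
  · refine le_trans ?_ (IsAddCyclic.card_nsmul_eq_zero_le (α := ZMod P) hj)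
    refine card_le_card_of_injOn (fun a => a - a0) ?_ ?_
    · intro a ha
      have h1 := (mem_filter.1 (mem_coe.1 ha)).2
      have h2 := (mem_filter.1 h0).2
      simp only [coe_filter, mem_univ, true_and, Set.mem_ofPred_eq, nsmul_eq_mul]
      rw [mul_sub, h1, h2, sub_self]
    · intro a _ b _ h
      exact sub_left_injective h

/-- the centre of the block on a line -/
def xx (M P' : ℕ) (j : ℕ) (m : ℤ) (e : ZMod (M * P') × Fin P') : ZMod (M * P') :=
  (j : ZMod (M * P')) * e.1 + ((m * (M * (e.2 : ℕ)) : ℤ) : ZMod (M * P'))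

theorem count_deg {M P' : ℕ} [NeZero (M * P')] {j : ℕ} (hj : 0 < j) (m : ℤ) (y : ZMod (M * P')) :
    (univ.filter (fun e => xx M P' j m e = y)).card ≤ j * P' := by
  have := card_le_mul_card_image (f := Prod.snd) (univ.filter (fun e => xx M P' j m e = y)) j ?_
  · refine this.trans (Nat.mul_le_mul_left _ ?_)
    simpa using card_le_univ ((univ.filter (fun e => xx M P' j m e = y)).image Prod.snd)
  · intro b _
    refine le_trans ?_ (count1 hj (y - ((m * (M * (b : ℕ)) : ℤ) : ZMod (M * P'))))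
    refine card_le_card_of_injOn Prod.fst ?_ ?_
    · intro e he
      obtain ⟨h1, h2⟩ := mem_filter.1 (mem_coe.1 he)
      have h3 := (mem_filter.1 h1).2
      simp only [coe_filter, mem_univ, true_and, Set.mem_ofPred_eq]
      rw [← h3, ← h2, xx]; ring
    · intro e he f hf h
      exact Prod.ext h ((mem_filter.1 (mem_coe.1 he)).2.trans (mem_filter.1 (mem_coe.1 hf)).2.symm)

theorem count2 {M P' : ℕ} [NeZero (M * P')] (hP : P'.Prime) {j j' : ℕ} (hj : 0 < j) {m m' : ℤ}
    (hdet : ¬ (P' : ℤ) ∣ j * m' - j' * m) (y y' : ZMod (M * P')) :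
    (univ.filter (fun e => xx M P' j m e = y ∧ xx M P' j' m' e = y')).card ≤ j := by
  have hM : (M : ℤ) ≠ 0 := by
    have := NeZero.ne (M * P')
    intro h
    apply this
    have : M = 0 := by exact_mod_cast h
    simp [this]
  rcases (univ.filter (fun e => xx M P' j m e = y ∧ xx M P' j' m' e = y')).eq_empty_or_nonempty
    with h | ⟨e0, h0⟩
  · rw [h]; simp
  obtain ⟨-, h1, h2⟩ := mem_filter.1 h0
  have key : ∀ e ∈ univ.filter (fun e => xx M P' j m e = y ∧ xx M P' j' m' e = y'),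
      e.2 = e0.2 := by
    intro e he
    obtain ⟨-, h3, h4⟩ := mem_filter.1 he
    have h5 : (((M * ((j * m' - j' * m) * ((e.2 : ℕ) - (e0.2 : ℕ)))) : ℤ) : ZMod (M * P')) = 0 := by
      rw [← h1] at h3
      rw [← h2] at h4
      simp only [xx] at h3 h4
      push_cast at h3 h4 ⊢
      linear_combination (j : ZMod (M * P')) * h4 - (j' : ZMod (M * P')) * h3
    rw [ZMod.intCast_zmod_eq_zero_iff_dvd] at h5
    push_cast at h5
    have h6 := (Int.Prime.dvd_mul' hP (Int.dvd_of_mul_dvd_mul_left hM h5)).resolve_left hdet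
    have h7 := e.2.2
    have h8 := e0.2.2
    have h9 := Int.eq_zero_of_abs_lt_dvd h6 (by rw [abs_lt]; omega)
    exact Fin.ext (by omega)
  refine le_trans ?_ (count1 hj (y - ((m * (M * (e0.2 : ℕ)) : ℤ) : ZMod (M * P'))))
  refine card_le_card_of_injOn Prod.fst ?_ ?_
  · intro e he
    have h2 := key e (mem_coe.1 he)
    have h3 := (mem_filter.1 (mem_coe.1 he)).2.1
    simp only [coe_filter, mem_univ, true_and, Set.mem_ofPred_eq]
    rw [← h3, ← h2, xx]; ring
  · intro e he f hf h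
    exact Prod.ext h ((key e (mem_coe.1 he)).trans (key f (mem_coe.1 hf)).symm)

/-- folding `ℤ / P` along `±` -/
def can {P : ℕ} [NeZero P] (x : ZMod P) : Fin P :=
  ⟨x.valMinAbs.natAbs, lt_of_le_of_lt (ZMod.natAbs_valMinAbs_le x)
    (Nat.div_lt_self (NeZero.pos P) one_lt_two)⟩

theorem can_spec {P : ℕ} [NeZero P] (x : ZMod P) :
    ∃ s : ℤ, (s = 1 ∨ s = -1) ∧ (((can x : ℕ) : ℤ) : ZMod P) = s * x := by
  have h := ZMod.coe_valMinAbs x
  rcases Int.natAbs_eq x.valMinAbs with h1 | h1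
  · refine ⟨1, Or.inl rfl, ?_⟩
    rw [can]; simp only
    rw [← h1, h]; simp
  · refine ⟨-1, Or.inr rfl, ?_⟩
    rw [can]; simp only
    rw [show ((x.valMinAbs.natAbs : ℕ) : ℤ) = -x.valMinAbs by omega]
    push_cast
    ring

theorem can_le {P : ℕ} [NeZero P] (x : ZMod P) : (can x : ℕ) ≤ P / 2 :=
  ZMod.natAbs_valMinAbs_le x

theorem card_can {P : ℕ} [NeZero P] (c : Fin P) :
    (univ.filter (fun x : ZMod P => can x = c)).card ≤ 2 := by
  refine le_trans (card_le_card (t := {((c : ℕ) : ZMod P), -((c : ℕ) : ZMod P)}) ?_) card_le_two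
  intro x hx
  obtain ⟨s, hs, h⟩ := can_spec x
  rw [(mem_filter.1 hx).2] at h
  push_cast at h
  rw [h, mem_insert, mem_singleton]
  rcases hs with rfl | rfl <;> simp

/-- the site of a cell -/
def site (M P' : ℕ) [NeZero (M * P')] (c : Fin (M * P')) : Fin (P' + 1) :=
  ⟨((c : ℕ) + M / 2) / M, Nat.div_lt_of_lt_mul (by
    have h1 := c.2
    have h2 : M ≠ 0 := left_ne_zero_of_mul (NeZero.ne (M * P'))
    rw [mul_add]; omega)⟩

theorem card_site {M P' : ℕ} [NeZero (M * P')] (σ : Fin (P' + 1)) :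
    (univ.filter (fun c => site M P' c = σ)).card ≤ M := by
  have h2 : M ≠ 0 := left_ne_zero_of_mul (NeZero.ne (M * P'))
  refine le_trans (card_le_card_of_injOn (t := range M)
    (fun c => ((c : ℕ) + M / 2) % M) ?_ ?_) (card_range M).le
  · intro c _
    simpa using Nat.mod_lt _ (Nat.pos_of_ne_zero h2)
  · intro c hc c' hc' h
    have h3 := (mem_filter.1 (mem_coe.1 hc)).2.trans (mem_filter.1 (mem_coe.1 hc')).2.symm
    have h4 : ((c : ℕ) + M / 2) / M = ((c' : ℕ) + M / 2) / M := congrArg Fin.val h3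
    have h5 := Nat.div_add_mod ((c : ℕ) + M / 2) M
    have h6 := Nat.div_add_mod ((c' : ℕ) + M / 2) M
    simp only at h
    rw [h4, h] at h5
    exact Fin.ext (by omega)

theorem card_fiber_le {α β γ : Type} [Fintype α] [Fintype β] [DecidableEq β] [DecidableEq γ]
    (f : α → β) (g : β → γ) (a b : ℕ) (y : γ)
    (hf : ∀ x, (univ.filter (fun e => f e = x)).card ≤ a)
    (hg : (univ.filter (fun x => g x = y)).card ≤ b) :
    (univ.filter (fun e => g (f e) = y)).card ≤ a * b := by
  refine (card_le_mul_card_image (f := f) _ a fun x _ => le_trans (card_le_card ?_) (hf x)).trans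
    (Nat.mul_le_mul_left _ (le_trans (card_le_card ?_) hg))
  · intro e he
    exact mem_filter.2 ⟨mem_univ _, (mem_filter.1 he).2⟩
  · intro x hx
    obtain ⟨e, he, rfl⟩ := mem_image.1 hx
    exact mem_filter.2 ⟨mem_univ _, (mem_filter.1 he).2⟩

theorem count_deg' {M P' : ℕ} [NeZero (M * P')] {j : ℕ} (hj : 0 < j) (m : ℤ) (c : Fin (M * P')) :
    (univ.filter (fun e => can (xx M P' j m e) = c)).card ≤ j * P' * 2 :=
  card_fiber_le _ _ _ _ c (count_deg hj m) (card_can c)

theorem count_cod {M P' : ℕ} [NeZero (M * P')] (hP : P'.Prime) {j j' : ℕ} (hj : 0 < j) {m m' : ℤ}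
    (hdet : ¬ (P' : ℤ) ∣ j * m' - j' * m) (σ σ' : Fin (P' + 1)) :
    (univ.filter (fun e => site M P' (can (xx M P' j m e)) = σ ∧
      site M P' (can (xx M P' j' m' e)) = σ')).card ≤ j * (2 * M * (2 * M)) := by
  have h1 : ∀ τ, (univ.filter (fun x : ZMod (M * P') => site M P' (can x) = τ)).card ≤ 2 * M :=
    fun τ => card_fiber_le _ _ _ _ τ card_can (card_site τ)
  have := card_fiber_le (fun e => (xx M P' j m e, xx M P' j' m' e))
    (fun x => (site M P' (can x.1), site M P' (can x.2))) j (2 * M * (2 * M)) (σ, σ')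
    (fun x => by simpa only [Prod.ext_iff] using count2 hP hj hdet x.1 x.2) (by
      refine le_trans (le_of_eq ?_) (Nat.mul_le_mul (h1 σ) (h1 σ'))
      rw [← card_product]
      congr 1
      ext x
      simp)
  simpa only [Prod.ext_iff] using this

theorem geom_slot {M j c : ℕ} (hM : Odd M) (hj : j ∣ M) (hc : j ∣ c) :
    2 * (M * ((c + M / 2) / M)) + j ≤ 2 * c + M ∧ 2 * c + j ≤ 2 * (M * ((c + M / 2) / M)) + M := by
  obtain ⟨h, hh⟩ := hM
  have h1 := Nat.div_add_mod (c + M / 2) M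
  have h2 := Nat.mod_lt (c + M / 2) (show 0 < M by omega)
  have h3 : j ∣ M * ((c + M / 2) / M) := hj.mul_right _
  set u := M * ((c + M / 2) / M)
  constructor
  · have h4 : j ∣ 2 * c + M - 2 * u := Nat.dvd_sub ((hc.mul_left 2).add hj) (h3.mul_left 2)
    have := Nat.le_of_dvd (by omega) h4
    omega
  · have h4 : j ∣ 2 * u + M - 2 * c := Nat.dvd_sub ((h3.mul_left 2).add hj) (hc.mul_left 2)
    have := Nat.le_of_dvd (by omega) h4
    omega

end Crest.Agent.H0100.Tilex
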